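import Vale.Agent.P147.Z.Quench

/-! The conditional meeting estimate: a walk whose chance to leave `D` through `B` is small seldom
meets the paths, in an independent environment, that leave `D` through `B`. -/

open MeasureTheory Filter
open scoped ENNReal

namespace Vale.Agent.P147.Z

variable {d : ℕ}

lemma sum_qw_ext (ω : Env d) (x : Site d) (l : List (Dir d)) (k : ℕ) :
    ∑ g ∈ wds d k, qw ω x (l ++ g) = qw ω x l := by
  simp only [qw_append, ← Finset.mul_sum, sum_qwds, mul_one]

lemma sum_wt_ext (μ : Measure (Row d)) (l : List (Dir d)) (k : ℕ) :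
    ∑ g ∈ wds d k, wt μ (l ++ g) = wt μ l := by
  simp only [wt]
  rw [← lintegral_finsetSum _ (fun g _ => measurable_qw 0 (l ++ g))]
  simp only [sum_qw_ext]

lemma sum_wt_dir (μ : Measure (Row d)) (l : List (Dir d)) :
    ∑ u : Dir d, wt μ (l ++ [u]) = wt μ l := by
  have := sum_wt_ext μ l 1
  rw [sum_wds_succ] at this
  simpa only [sum_wds_zero] using this

lemma measurable_qw2 (x y : Site d) (a b : List (Dir d)) :
    Measurable (fun ω : Env d => qw ω x a * qw ω y b) :=
  (measurable_qw x a).mul (measurable_qw y b)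

variable (μ : Measure (Row d)) [IsProbabilityMeasure μ]

lemma sum_pair_ext (y : Site d) (ρ l : List (Dir d))
    (hl : Disjoint (exits y ρ) (exits 0 l)) (k : ℕ) :
    ∑ g ∈ wds d k, ∫⁻ ω, qw ω 0 (l ++ g) * qw ω y ρ ∂(envLaw μ) = wt μ l * wt μ ρ := by
  rw [← lintegral_finsetSum _ (fun g _ => measurable_qw2 0 y (l ++ g) ρ)]
  simp only [← Finset.sum_mul, sum_qw_ext]
  exact lintegral_mul_of_disjoint μ 0 y l ρ hl.symm

open Classical in
/-- The masses of the continuations that avoid `ρ` agree, for a common environment and for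
independent environments. -/
lemma avoid_eq {D : Set (Site d)} {y : Site d} {ρ : List (Dir d)}
    (k : ℕ) (l : List (Dir d)) (hl : Disjoint (exits y ρ) (exits 0 l)) :
    ∑ g ∈ wds d k, (∫⁻ ω, qw ω 0 (l ++ g) * qw ω y ρ ∂(envLaw μ)) *
        (if Disjoint (exits y ρ) (exD D (dsp l) g) then 1 else 0) =
      ∑ g ∈ wds d k, (wt μ (l ++ g) * wt μ ρ) *
        (if Disjoint (exits y ρ) (exD D (dsp l) g) then 1 else 0) := by
  induction k generalizing l with
  | zero =>
    simp only [sum_wds_zero, List.append_nil, exD_nil, Finset.disjoint_empty_right, if_true, mul_one]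
    exact lintegral_mul_of_disjoint μ 0 y l ρ hl.symm
  | succ k ih =>
    by_cases hD : dsp l ∈ D
    · by_cases hy : dsp l ∈ exits y ρ
      · have e : ∀ (u : Dir d) (g : List (Dir d)),
            ¬ Disjoint (exits y ρ) (exD D (dsp l) (u :: g)) := by
          intro u g h
          rw [exD_cons, if_pos hD] at h
          exact Finset.disjoint_left.1 h hy (Finset.mem_insert_self _ _)
        rw [sum_wds_succ, sum_wds_succ]
        refine Finset.sum_congr rfl fun u _ => Finset.sum_congr rfl fun g _ => ?_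
        rw [if_neg (e u g), mul_zero, mul_zero]
      · have e : ∀ (u : Dir d) (g : List (Dir d)),
            Disjoint (exits y ρ) (exD D (dsp l) (u :: g)) ↔
            Disjoint (exits y ρ) (exD D (dsp (l ++ [u])) g) := by
          intro u g
          rw [exD_cons, if_pos hD, Finset.disjoint_insert_right]
          simp [hy]
        have hd : ∀ u : Dir d, Disjoint (exits y ρ) (exits 0 (l ++ [u])) := by
          intro u
          rw [exits_append, Finset.disjoint_union_right]
          refine ⟨hl, ?_⟩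
          simp [hy]
        rw [sum_wds_succ, sum_wds_succ]
        refine Finset.sum_congr rfl fun u _ => ?_
        have := ih (l ++ [u]) (hd u)
        simp only [e]
        simpa only [dsp_append, dsp_cons, dsp_nil, add_zero, mul_ite, mul_one, mul_zero, List.append_assoc,     List.cons_append, List.nil_append] using this
    · have e : ∀ (u : Dir d) (g : List (Dir d)),
          Disjoint (exits y ρ) (exD D (dsp l) (u :: g)) := by
        intro u g
        rw [exD_cons, if_neg hD]
        exact Finset.disjoint_empty_right _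
      have h1 := sum_pair_ext μ y ρ l hl (k + 1)
      have h2 := sum_wt_ext μ l (k + 1)
      rw [sum_wds_succ] at h1 h2
      rw [sum_wds_succ, sum_wds_succ]
      simp only [e, if_true, mul_one]
      rw [h1]
      simp only [← Finset.sum_mul]
      rw [h2]

open Classical in
/-- The masses of the continuations that meet `ρ` agree. -/
lemma meet_eq {D : Set (Site d)} {y : Site d} {ρ : List (Dir d)}
    (k : ℕ) (l : List (Dir d)) (hl : Disjoint (exits y ρ) (exits 0 l)) :
    ∑ g ∈ wds d k, (∫⁻ ω, qw ω 0 (l ++ g) * qw ω y ρ ∂(envLaw μ)) *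
        (if ¬ Disjoint (exits y ρ) (exD D (dsp l) g) then 1 else 0) =
      ∑ g ∈ wds d k, (wt μ (l ++ g) * wt μ ρ) *
        (if ¬ Disjoint (exits y ρ) (exD D (dsp l) g) then 1 else 0) := by
  have h0 := avoid_eq (D := D) μ k l hl
  have hsplit : ∀ (F : List (Dir d) → ℝ≥0∞), ∑ g ∈ wds d k, F g *
        (if Disjoint (exits y ρ) (exD D (dsp l) g) then 1 else 0) +
      ∑ g ∈ wds d k, F g *
        (if ¬ Disjoint (exits y ρ) (exD D (dsp l) g) then 1 else 0) = ∑ g ∈ wds d k, F g := by
    intro F
    rw [← Finset.sum_add_distrib]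
    refine Finset.sum_congr rfl fun g _ => ?_
    by_cases h : Disjoint (exits y ρ) (exD D (dsp l) g) <;> simp [h]
  have h1 := hsplit (fun g => ∫⁻ ω, qw ω 0 (l ++ g) * qw ω y ρ ∂(envLaw μ))
  have h2 := hsplit (fun g => wt μ (l ++ g) * wt μ ρ)
  rw [sum_pair_ext μ y ρ l hl k] at h1
  rw [← Finset.sum_mul, sum_wt_ext] at h2
  have hfin : ∑ g ∈ wds d k, (wt μ (l ++ g) * wt μ ρ) *
        (if Disjoint (exits y ρ) (exD D (dsp l) g) then 1 else 0) ≠ ⊤ := by
    refine ne_top_of_le_ne_top ?_ (le_self_add.trans h2.le)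
    exact ENNReal.mul_ne_top ((wt_le_one μ l).trans_lt ENNReal.one_lt_top).ne
      ((wt_le_one μ ρ).trans_lt ENNReal.one_lt_top).ne
  rw [h0, ← h2] at h1
  exact (ENNReal.add_right_inj hfin).1 h1

open Classical in
/-- **Conditional meeting estimate** (Lemma A'). -/
theorem lemA {D B : Set (Site d)} (hDB : Disjoint D B) (y : Site d) {T : Set (List (Dir d))}
    (hT : T ⊆ EB D B y) (l : List (Dir d)) (k : ℕ) {M : ℝ} (hM : 0 < M) (hM1 : M ≤ 1) :
    ∑ g ∈ wds d k, wt μ (l ++ g) * ∑' ρ : T, wt μ (ρ : List (Dir d)) *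
        (if Disjoint (exits y (ρ : List (Dir d))) (exits 0 l) ∧
          ¬ Disjoint (exits y (ρ : List (Dir d))) (exD D (dsp l) g) then 1 else 0) ≤
      wt μ l * ENNReal.ofReal M +
        (∑' ρ : EB D B (dsp l), wt μ (l ++ (ρ : List (Dir d)))) *
          ENNReal.ofReal (Real.log (1 / M)) := by
  set P : List (Dir d) → List (Dir d) → Prop := fun g ρ =>
    Disjoint (exits y ρ) (exits 0 l) ∧ ¬ Disjoint (exits y ρ) (exD D (dsp l) g) with hP
  have step1 : ∑ g ∈ wds d k, wt μ (l ++ g) * ∑' ρ : T, wt μ (ρ : List (Dir d)) *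
        (if P g ρ then 1 else 0) =
      ∑' ρ : T, ∑ g ∈ wds d k, (wt μ (l ++ g) * wt μ (ρ : List (Dir d))) *
        (if P g ρ then 1 else 0) := by
    rw [Summable.tsum_finsetSum (fun _ _ => ENNReal.summable)]
    refine Finset.sum_congr rfl fun g _ => ?_
    rw [← ENNReal.tsum_mul_left]
    refine tsum_congr fun ρ => ?_
    rw [mul_assoc]
  have step2 : ∀ ρ : T, ∑ g ∈ wds d k, (wt μ (l ++ g) * wt μ (ρ : List (Dir d))) *
        (if P g ρ then 1 else 0) =
      ∑ g ∈ wds d k, (∫⁻ ω, qw ω 0 (l ++ g) * qw ω y (ρ : List (Dir d)) ∂(envLaw μ)) *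
        (if P g ρ then 1 else 0) := by
    intro ρ
    by_cases hd : Disjoint (exits y (ρ : List (Dir d))) (exits 0 l)
    · have := meet_eq (D := D) μ k l hd
      simp only [hP, hd, true_and]
      exact this.symm
    · simp only [hP, hd, false_and, ↓reduceIte, mul_zero, Finset.sum_const_zero]
  have step3 : ∑' ρ : T, ∑ g ∈ wds d k, (∫⁻ ω, qw ω 0 (l ++ g) *
        qw ω y (ρ : List (Dir d)) ∂(envLaw μ)) * (if P g ρ then 1 else 0) =
      ∫⁻ ω, ∑ g ∈ wds d k, qw ω 0 (l ++ g) * ∑' ρ : T, qw ω y (ρ : List (Dir d)) *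
        (if P g ρ then 1 else 0) ∂(envLaw μ) := by
    rw [lintegral_finsetSum]
    swap
    · intro g _
      exact (measurable_qw 0 (l ++ g)).mul (Measurable.tsum fun ρ =>
        (measurable_qw y (ρ : List (Dir d))).mul_const _)
    rw [Summable.tsum_finsetSum (fun _ _ => ENNReal.summable)]
    refine Finset.sum_congr rfl fun g _ => ?_
    simp only [← ENNReal.tsum_mul_left]
    rw [lintegral_tsum]
    swap
    · intro ρ
      exact ((measurable_qw 0 (l ++ g)).mul
        ((measurable_qw y (ρ : List (Dir d))).mul_const _)).aemeasurable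
    refine tsum_congr fun ρ => ?_
    simp only [← mul_assoc]
    rw [lintegral_mul_const]
    exact (measurable_qw 0 (l ++ g)).mul (measurable_qw y (ρ : List (Dir d)))
  have hmain : ∀ ω : Env d, ∑ g ∈ wds d k, qw ω 0 (l ++ g) *
        ∑' ρ : T, qw ω y (ρ : List (Dir d)) * (if P g ρ then 1 else 0) ≤
      qw ω 0 l * (ENNReal.ofReal M + hB D B ω (dsp l) * ENNReal.ofReal (Real.log (1 / M))) := by
    intro ω
    calc _ ≤ ∑ g ∈ wds d k, qw ω 0 (l ++ g) *
          max (ENNReal.ofReal M) ((exD D (dsp l) g).sup (hB D B ω)) := by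
          refine Finset.sum_le_sum fun g _ => ?_
          gcongr
          refine le_trans ?_ (le_max_right _ _)
          exact meet_le ω y (exD D (dsp l) g) hT (P g) (fun ρ _ h => h.2)
      _ = qw ω 0 l * ∑ g ∈ wds d k, qw ω (dsp l) g *
          max (ENNReal.ofReal M) ((exD D (dsp l) g).sup (hB D B ω)) := by
          rw [Finset.mul_sum]
          refine Finset.sum_congr rfl fun g _ => ?_
          rw [qw_append, zero_add, mul_assoc]
      _ ≤ _ := by
          gcongr
          exact doob hDB ω k (dsp l) hM hM1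
  have hint : ∫⁻ ω, qw ω 0 l * hB D B ω (dsp l) ∂(envLaw μ) =
      ∑' ρ : EB D B (dsp l), wt μ (l ++ (ρ : List (Dir d))) := by
    simp only [hB, ← ENNReal.tsum_mul_left]
    rw [lintegral_tsum]
    · refine tsum_congr fun ρ => ?_
      rw [wt]
      refine lintegral_congr fun ω => ?_
      rw [qw_append, zero_add]
    · intro ρ
      exact ((measurable_qw 0 l).mul (measurable_qw (dsp l) (ρ : List (Dir d)))).aemeasurable
  calc _ = ∫⁻ ω, ∑ g ∈ wds d k, qw ω 0 (l ++ g) * ∑' ρ : T, qw ω y (ρ : List (Dir d)) *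
        (if P g ρ then 1 else 0) ∂(envLaw μ) := by
        rw [← step3, ← tsum_congr step2, ← step1]
    _ ≤ ∫⁻ ω, qw ω 0 l * (ENNReal.ofReal M +
          hB D B ω (dsp l) * ENNReal.ofReal (Real.log (1 / M))) ∂(envLaw μ) :=
        lintegral_mono hmain
    _ = ∫⁻ ω, qw ω 0 l * ENNReal.ofReal M ∂(envLaw μ) +
          ∫⁻ ω, qw ω 0 l * hB D B ω (dsp l) *
            ENNReal.ofReal (Real.log (1 / M)) ∂(envLaw μ) := by
        rw [← lintegral_add_left ((measurable_qw 0 l).mul_const _)]
        refine lintegral_congr fun ω => ?_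
        ring
    _ = _ := by
        have hm : Measurable (fun ω : Env d => qw ω 0 l * hB D B ω (dsp l)) :=
          (measurable_qw 0 l).mul (measurable_hB D B (dsp l))
        rw [lintegral_mul_const _ (measurable_qw 0 l), lintegral_mul_const _ hm, hint, wt]

/-! The stopped tree. -/

omit [IsProbabilityMeasure μ] in
open Classical in
/-- The expectation over the stopped tree, as a sum over lists of fixed length. -/
lemma Ex_eq (D : Set (Site d)) (K : Finset (Site d) → ℝ≥0∞) (n : ℕ) (l : List (Dir d)) :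
    Ex (wt μ) D (fun l' => K (sit D l')) n l =
      ∑ g ∈ wds d (n + 1), wt μ (l ++ g) * K (exits 0 l ∪ exD D (dsp l) g) := by
  have hout : ∀ (n : ℕ) (l : List (Dir d)), dsp l ∉ D →
      ∑ g ∈ wds d (n + 1), wt μ (l ++ g) * K (exits 0 l ∪ exD D (dsp l) g) =
        wt μ l * K (sit D l) := by
    intro n l hD
    rw [sum_wds_succ]
    simp only [exD_cons, if_neg hD, Finset.union_empty, sit]
    rw [← sum_wt_ext μ l (n + 1), sum_wds_succ, Finset.sum_mul]
    refine Finset.sum_congr rfl fun u _ => ?_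
    rw [Finset.sum_mul]
  induction n generalizing l with
  | zero =>
    by_cases hD : dsp l ∈ D
    · rw [sum_wds_succ]
      simp only [Ex, sum_wds_zero, exD_cons, if_pos hD, exD_nil, sit]
      rw [← Finset.sum_mul, sum_wt_dir]
      congr 2
      ext x
      simp [or_comm]
    · rw [hout 0 l hD]
      simp only [Ex]
  | succ n ih =>
    by_cases hD : dsp l ∈ D
    · rw [sum_wds_succ]
      simp only [Ex, if_pos hD]
      refine Finset.sum_congr rfl fun u _ => ?_
      rw [ih (l ++ [u])]
      refine Finset.sum_congr rfl fun g _ => ?_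
      rw [exD_cons, if_pos hD, List.append_assoc]
      congr 2
      rw [exits_append]
      ext x
      simp [or_assoc]
    · rw [hout (n + 1) l hD]
      simp only [Ex, if_neg hD]

open Classical in
/-- **Lemma A'**: conditional meeting estimate. -/
theorem aprime {L : Site d →+ ℝ} {t : ℝ} {l : List (Dir d)} (hl : dsp l ∈ Db L t) {z : Site d}
    {T : Set (List (Dir d))} (hT : T ⊆ Ds L t z) {m : ℝ} (hm : 0 < m) (hm1 : m ≤ 1) (n : ℕ) :
    Ex (wt μ) (Db L t) (fun l' => ∑' ρ : T, if Disjoint (exits z ρ.1) (exits 0 l) ∧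
        ¬ Disjoint (exits z ρ.1) (sit (Db L t) l') then wt μ ρ.1 else 0) n l ≤
      ENNReal.ofReal m * wt μ l + ENNReal.ofReal (Real.log (1 / m)) * Eb μ L t l := by
  have hDB : Disjoint (Db L t) {x : Site d | L x ≤ -1} := by
    rw [Set.disjoint_left]
    intro x hx hx'
    exact absurd hx.1 (not_lt.2 hx')
  have h1 := lemA μ hDB z (T := T) hT l (n + 1) hm hm1
  have h2 := Ex_eq μ (Db L t) (fun S => ∑' ρ : T, if Disjoint (exits z ρ.1) (exits 0 l) ∧
        ¬ Disjoint (exits z ρ.1) S then wt μ ρ.1 else 0) n l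
  refine (h2.trans_le ?_).trans (h1.trans (le_of_eq ?_))
  · refine Finset.sum_le_sum fun g _ => ?_
    gcongr with ρ
    by_cases hd : Disjoint (exits z ρ.1) (exits 0 l)
    · by_cases hd' : Disjoint (exits z ρ.1) (exD (Db L t) (dsp l) g)
      · simp only [hd, Finset.disjoint_union_right, hd', and_self, not_true_eq_false, and_false, ↓reduceIte, mul_zero, Std.le_refl]
      · simp [Finset.disjoint_union_right, hd, hd']
    · simp [hd]
  · rw [mul_comm (wt μ l), mul_comm (∑' ρ : EB (Db L t) {x : Site d | L x ≤ -1} (dsp l), _)]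
    rfl

end Vale.Agent.P147.Z
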