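import Vale.Agent.P147.Conv

/-!
The renewal function of a law with two non-parallel displacements tends to zero.
-/

open scoped ENNReal

namespace Vale.Agent.P147.Z.Atm

open Cv

variable {V : Type*} [AddCommGroup V]

/-- the renewal function -/
noncomputable def Gr (κ : Cv V) (z : V) : ℝ≥0∞ := ∑' k : ℕ, (κ ^ k).v z

lemma Gr_eq (κ : Cv V) (k : ℕ) (z : V) :
    Gr κ z = ∑ i ∈ Finset.range k, (κ ^ i).v z + (κ ^ k * (⟨Gr κ⟩ : Cv V)).v z := by
  have h : (κ ^ k * (⟨Gr κ⟩ : Cv V)).v z = ∑' i : ℕ, (κ ^ (i + k)).v z := by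
    rw [mul_v]
    have e : ∀ y, (κ ^ k).v y * (⟨Gr κ⟩ : Cv V).v (z - y) =
        ∑' i : ℕ, (κ ^ k).v y * (κ ^ i).v (z - y) := fun y => ENNReal.tsum_mul_left.symm
    rw [tsum_congr e, ENNReal.tsum_comm]
    refine tsum_congr fun i => ?_
    rw [add_comm, pow_add, mul_v]
  rw [h, Gr]
  exact (ENNReal.summable.sum_add_tsum_nat_add' (f := fun i => (κ ^ i).v z) (k := k)).symm

lemma tail_small (L : V → ℝ) (f : V → ℝ≥0∞) (hf : ∑' z, f z ≠ ∞) {ε : ℝ≥0∞} (hε : ε ≠ 0) :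
    ∃ l : ℝ, ∀ l', l ≤ l' → ∑' w, (if l' ≤ L w then f w else 0) ≤ ε := by
  classical
  obtain ⟨s, hs⟩ : ∃ s : Finset V, ∑' w : {x // x ∉ s}, f w < ε := by
    have h1 := ENNReal.tendsto_tsum_compl_atTop_zero hf
    exact ((h1.eventually (gt_mem_nhds (pos_iff_ne_zero.2 hε))).exists)
  obtain ⟨l, hl⟩ : ∃ l : ℝ, ∀ w ∈ s, L w < l := by
    refine ⟨∑ w ∈ s, |L w| + 1, fun w hw => ?_⟩
    have h1 : |L w| ≤ ∑ w ∈ s, |L w| := Finset.single_le_sum (f := fun w => |L w|)
      (fun w _ => abs_nonneg _) hw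
    have h2 := le_abs_self (L w)
    linarith
  refine ⟨l, fun l' hl' => le_trans ?_ hs.le⟩
  have h3 : ∑' w : {x // x ∉ s}, f w = ∑' w, Set.indicator {x | x ∉ s} f w :=
    tsum_subtype {x | x ∉ s} f
  rw [h3]
  refine ENNReal.tsum_le_tsum fun w => ?_
  by_cases hw : w ∈ s
  · rw [if_neg (not_le.2 ((hl w hw).trans_le hl'))]
    exact zero_le
  · rw [Set.indicator_of_mem (show w ∈ {x | x ∉ s} from hw)]
    split_ifs
    · exact le_rfl
    · exact zero_le

section window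
variable (L : V →+ ℝ) (κ : Cv V) {C1 : ℝ≥0∞}

lemma Gr_le (hwin : ∀ t : ℝ, ∑' z, (if t ≤ L z ∧ L z < t + 1 then Gr κ z else 0) ≤ C1) (z : V) :
    Gr κ z ≤ C1 := by
  refine le_trans ?_ (hwin (L z))
  refine le_trans ?_ (ENNReal.le_tsum z)
  rw [if_pos ⟨le_rfl, by linarith only []⟩]

/-- one step of the maximum principle -/
lemma step_le (hm : mass κ ≤ 1) (hC1 : C1 ≠ ∞)
    (hwin : ∀ t : ℝ, ∑' z, (if t ≤ L z ∧ L z < t + 1 then Gr κ z else 0) ≤ C1)
    {A : ℝ≥0∞} {l₀ : ℝ} (hA : ∀ z, l₀ ≤ L z → Gr κ z ≤ A) (k : ℕ) (w₀ : V) {ε : ℝ≥0∞}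
    (hε : ε ≠ 0) :
    ∃ l : ℝ, ∀ z, l ≤ L z →
      Gr κ z + (κ ^ k).v w₀ * A ≤ (κ ^ k).v w₀ * Gr κ (z - w₀) + A + ε := by
  classical
  have hmk : ∀ i, mass (κ ^ i) ≤ 1 := fun i => by
    rw [mass_pow]
    exact pow_le_one' hm i
  have hmk' : ∀ i, ∑' z, (κ ^ i).v z ≠ ∞ := fun i =>
    ne_top_of_le_ne_top ENNReal.one_ne_top (hmk i)
  -- tails
  obtain ⟨η, hη0, hη⟩ : ∃ η : ℝ≥0∞, η ≠ 0 ∧ (k : ℝ≥0∞) * η + C1 * η ≤ ε := by
    have h1 : (k : ℝ≥0∞) + C1 ≠ ∞ := ENNReal.add_ne_top.2 ⟨ENNReal.natCast_ne_top k, hC1⟩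
    rcases eq_or_ne ε ∞ with rfl | hεt
    · exact ⟨1, one_ne_zero, le_top⟩
    refine ⟨ε / ((k : ℝ≥0∞) + C1 + 1), ?_, ?_⟩
    · exact (ENNReal.div_pos hε (ENNReal.add_ne_top.2 ⟨h1, ENNReal.one_ne_top⟩)).ne'
    · rw [← add_mul]
      calc ((k : ℝ≥0∞) + C1) * (ε / ((k : ℝ≥0∞) + C1 + 1))
          ≤ ((k : ℝ≥0∞) + C1 + 1) * (ε / ((k : ℝ≥0∞) + C1 + 1)) :=
            mul_le_mul' le_self_add le_rfl
        _ ≤ ε := ENNReal.mul_div_le
  have ht : ∀ i : ℕ, ∃ l : ℝ, ∀ l', l ≤ l' →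
      ∑' w, (if l' ≤ L w then (κ ^ i).v w else 0) ≤ η := fun i =>
    tail_small L _ (hmk' i) hη0
  choose lt hlt using ht
  refine ⟨(∑ i ∈ Finset.range (k + 1), |lt i|) + |l₀|, fun z hz => ?_⟩
  have hbig : ∀ i ≤ k, lt i ≤ L z - l₀ ∧ lt i ≤ L z := by
    intro i hi
    have h1 : |lt i| ≤ ∑ i ∈ Finset.range (k + 1), |lt i| :=
      Finset.single_le_sum (f := fun i => |lt i|) (fun _ _ => abs_nonneg _)
        (Finset.mem_range.2 (by omega))
    have h2 := le_abs_self (lt i)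
    have h3 := le_abs_self l₀
    have h4 := abs_nonneg l₀
    constructor <;> linarith only [hz, h1, h2, h3, h4]
  -- the first terms
  have hfirst : ∑ i ∈ Finset.range k, (κ ^ i).v z ≤ (k : ℝ≥0∞) * η := by
    calc ∑ i ∈ Finset.range k, (κ ^ i).v z ≤ ∑ _i ∈ Finset.range k, η := by
          refine Finset.sum_le_sum fun i hi => ?_
          refine le_trans ?_ (hlt i (L z) (hbig i (Finset.mem_range.1 hi).le).2)
          refine le_trans ?_ (ENNReal.le_tsum z)
          rw [if_pos le_rfl]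
      _ = (k : ℝ≥0∞) * η := by rw [Finset.sum_const, Finset.card_range, nsmul_eq_mul]
  -- the main term
  have hmain : (κ ^ k * (⟨Gr κ⟩ : Cv V)).v z + (κ ^ k).v w₀ * A ≤
      (κ ^ k).v w₀ * Gr κ (z - w₀) + A + C1 * η := by
    rw [mul_v]
    have e1 : ∀ w, (κ ^ k).v w * (⟨Gr κ⟩ : Cv V).v (z - w) ≤
        (if w = w₀ then (κ ^ k).v w₀ * Gr κ (z - w₀) else 0) +
        ((if w = w₀ then 0 else (κ ^ k).v w) * A +
          C1 * (if L z - l₀ ≤ L w then (κ ^ k).v w else 0)) := by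
      intro w
      show (κ ^ k).v w * Gr κ (z - w) ≤ _
      by_cases hw : w = w₀
      · rw [if_pos hw, hw]
        exact le_self_add
      · rw [if_neg hw, if_neg hw, zero_add]
        by_cases h2 : L z - l₀ ≤ L w
        · rw [if_pos h2]
          refine le_add_left ?_
          rw [mul_comm]
          gcongr
          exact Gr_le L κ hwin _
        · refine le_add_right ?_
          gcongr
          refine hA _ ?_
          rw [map_sub]
          rw [not_le] at h2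
          linarith
    calc ∑' w, (κ ^ k).v w * (⟨Gr κ⟩ : Cv V).v (z - w) + (κ ^ k).v w₀ * A
        ≤ (∑' w, ((if w = w₀ then (κ ^ k).v w₀ * Gr κ (z - w₀) else 0) +
          ((if w = w₀ then 0 else (κ ^ k).v w) * A +
            C1 * (if L z - l₀ ≤ L w then (κ ^ k).v w else 0)))) + (κ ^ k).v w₀ * A := by
          gcongr with w
          exact e1 w
      _ = (κ ^ k).v w₀ * Gr κ (z - w₀) + ((∑' w, (if w = w₀ then 0 else (κ ^ k).v w)) +
            (κ ^ k).v w₀) * A +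
            C1 * ∑' w, (if L z - l₀ ≤ L w then (κ ^ k).v w else 0) := by
          rw [ENNReal.tsum_add, ENNReal.tsum_add, ENNReal.tsum_mul_right, ENNReal.tsum_mul_left,
            tsum_ite_eq]
          ring
      _ ≤ (κ ^ k).v w₀ * Gr κ (z - w₀) + 1 * A + C1 * η := by
          gcongr
          · refine le_trans (le_of_eq ?_) (hmk k)
            rw [mass, ENNReal.tsum_eq_add_tsum_ite (f := (κ ^ k).v) w₀, add_comm]
          · exact hlt k _ (hbig k le_rfl).1
      _ = _ := by rw [one_mul]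
  calc Gr κ z + (κ ^ k).v w₀ * A
      = ∑ i ∈ Finset.range k, (κ ^ i).v z +
        ((κ ^ k * (⟨Gr κ⟩ : Cv V)).v z + (κ ^ k).v w₀ * A) := by
        rw [Gr_eq κ k z, add_assoc]
    _ ≤ (k : ℝ≥0∞) * η + ((κ ^ k).v w₀ * Gr κ (z - w₀) + A + C1 * η) := by (clear * - hfirst hmain; gcongr)
    _ = (κ ^ k).v w₀ * Gr κ (z - w₀) + A + ((k : ℝ≥0∞) * η + C1 * η) := by ring
    _ ≤ _ := by (clear * - hη; gcongr)

lemma pow_v_pos (i j : ℕ) (v₁ v₂ : V) :
    (κ.v v₁) ^ i * (κ.v v₂) ^ j ≤ (κ ^ (i + j)).v (i • v₁ + j • v₂) := by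
  have h1 : ∀ (n : ℕ) (v : V), (κ.v v) ^ n ≤ (κ ^ n).v (n • v) := by
    intro n v
    induction n with
    | zero => simp only [pow_zero, one_def, zero_nsmul, pt_v_self, Std.le_refl]
    | succ n ih =>
      rw [pow_succ, pow_succ, mul_v, succ_nsmul]
      refine le_trans ?_ (ENNReal.le_tsum (n • v))
      rw [add_sub_cancel_left]
      (clear * - ih; gcongr)
  rw [pow_add, mul_v]
  refine le_trans ?_ (ENNReal.le_tsum (i • v₁))
  rw [add_sub_cancel_left]
  exact mul_le_mul' (h1 i v₁) (h1 j v₂)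

/-- **Atoms.** The renewal function tends to zero. -/
theorem Gr_small (hm : mass κ ≤ 1) (hC1 : C1 ≠ ∞)
    (hwin : ∀ t : ℝ, ∑' z, (if t ≤ L z ∧ L z < t + 1 then Gr κ z else 0) ≤ C1)
    {v₁ v₂ : V} (h₁ : κ.v v₁ ≠ 0) (h₂ : κ.v v₂ ≠ 0) (hL₁ : 0 < L v₁) (hL₂ : 0 < L v₂)
    (hL₂' : L v₂ ≤ 1)
    (hind : ∀ a b a' b' : ℕ, a • v₁ + b • v₂ = a' • v₁ + b' • v₂ → a = a' ∧ b = b')
    {ε : ℝ≥0∞} (hε : ε ≠ 0) : ∃ l : ℝ, ∀ z, l ≤ L z → Gr κ z ≤ ε := by
  classical
  -- the supremum over half spaces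
  set g : ℕ → ℝ≥0∞ := fun n => ⨆ z : {z : V // (n : ℝ) ≤ L z}, Gr κ z with hg
  have hgle : ∀ (n : ℕ) z, (n : ℝ) ≤ L z → Gr κ z ≤ g n := fun n z hz =>
    le_iSup (fun z : {z : V // (n : ℝ) ≤ L z} => Gr κ z) ⟨z, hz⟩
  have hgC : ∀ n, g n ≤ C1 := fun n => iSup_le fun z => Gr_le L κ hwin z
  set a : ℝ≥0∞ := ⨅ n, g n with ha
  have haC : a ≤ C1 := (iInf_le _ 0).trans (hgC 0)
  have hat : a ≠ ∞ := ne_top_of_le_ne_top hC1 haC
  by_cases ha0 : a = 0
  · obtain ⟨n, hn⟩ : ∃ n, g n < ε := by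
      by_contra hcon
      push Not at hcon
      have : ε ≤ a := le_iInf hcon
      rw [ha0, nonpos_iff_eq_zero] at this
      exact hε this
    exact ⟨n, fun z hz => (hgle n z hz).trans hn.le⟩
  exfalso
  -- a window with many points of the semigroup
  obtain ⟨N, hN⟩ : ∃ N : ℕ, 4 * C1 < N * a := by
    obtain ⟨N, hN⟩ := ENNReal.exists_nat_mul_gt (a := a) (b := 4 * C1) ha0
      (ENNReal.mul_ne_top (by simp) hC1)
    exact ⟨N, hN⟩
  set α := L v₁ with hα
  set β := L v₂ with hβ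
  set s : ℝ := N * α with hs
  set jj : ℕ → ℕ := fun i => ⌈(s - i * α) / β⌉₊ with hjj
  set pt' : ℕ → V := fun i => i • v₁ + jj i • v₂ with hpt'
  have hLpt : ∀ i < N, s ≤ L (pt' i) ∧ L (pt' i) < s + 1 := by
    intro i hi
    have e : L (pt' i) = i * α + jj i * β := by
      rw [hpt']
      simp only [map_add, map_nsmul, nsmul_eq_mul]
      rfl
    have h0 : 0 ≤ (s - i * α) / β := by
      refine div_nonneg ?_ hL₂.le
      have : (i : ℝ) ≤ N := by exact_mod_cast hi.le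
      rw [hs]
      nlinarith only [hL₁, this]
    have h1 : (s - i * α) / β ≤ jj i := Nat.le_ceil _
    have h2 : (jj i : ℝ) < (s - i * α) / β + 1 := Nat.ceil_lt_add_one h0
    rw [div_le_iff₀ hL₂] at h1
    have h3 : (jj i : ℝ) * β < s - i * α + β := by
      have h4 := mul_lt_mul_of_pos_right h2 hL₂
      rw [add_mul, div_mul_cancel₀ _ hL₂.ne', one_mul] at h4
      exact h4
    rw [e]
    constructor <;> linarith only [h1, hL₂', h3]
  have hinj : Set.InjOn pt' (Finset.range N : Set ℕ) := by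
    intro i _ i' _ h
    exact (hind _ _ _ _ h).1
  -- the weights
  set π : ℕ → ℝ≥0∞ := fun i => (κ ^ (i + jj i)).v (pt' i) with hπ
  have hπ0 : ∀ i, π i ≠ 0 := fun i => by
    have h := pow_v_pos κ i (jj i) v₁ v₂
    intro h0
    have h1 : (κ.v v₁) ^ i * (κ.v v₂) ^ (jj i) = 0 := by
      rw [← nonpos_iff_eq_zero]
      exact h.trans h0.le
    exact mul_ne_zero (pow_ne_zero _ h₁) (pow_ne_zero _ h₂) h1
  have hπ1 : ∀ i, π i ≤ 1 := fun i => by
    refine (ENNReal.le_tsum (f := (κ ^ (i + jj i)).v) (pt' i)).trans ?_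
    have h := mass_pow κ (i + jj i)
    rw [mass] at h
    rw [h]
    exact pow_le_one' hm _
  have hπt : ∀ i, π i ≠ ∞ := fun i => ne_top_of_le_ne_top ENNReal.one_ne_top (hπ1 i)
  -- the small parameter
  obtain ⟨η, hη0, hη⟩ : ∃ η : ℝ≥0∞, η ≠ 0 ∧ ∀ i < N, 3 * η ≤ π i * (a / 2) := by
    have hm0 : ∀ n : ℕ, ∃ η : ℝ≥0∞, η ≠ 0 ∧ ∀ i < n, 3 * η ≤ π i * (a / 2) := by
      intro n
      induction n with
      | zero => exact ⟨1, one_ne_zero, fun i hi => absurd hi (Nat.not_lt_zero i)⟩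
      | succ n ih =>
        obtain ⟨η, h1, h2⟩ := ih
        refine ⟨min η (π n * (a / 2) / 3), ?_, fun i hi => ?_⟩
        · refine (lt_min (pos_iff_ne_zero.2 h1) ?_).ne'
          refine ENNReal.div_pos ?_ (by simp)
          exact mul_ne_zero (hπ0 n) (ENNReal.div_ne_zero.2 ⟨ha0, by simp⟩)
        · rcases Nat.lt_succ_iff_lt_or_eq.1 hi with h | rfl
          · exact (mul_le_mul' le_rfl (min_le_left _ _)).trans (h2 i h)
          · exact (mul_le_mul' le_rfl (min_le_right _ _)).trans ENNReal.mul_div_le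
    exact hm0 N
  have hηt : η ≠ ∞ ∨ N = 0 := by
    rcases Nat.eq_zero_or_pos N with h | h
    · exact Or.inr h
    · left
      intro h1
      have h2 := hη 0 h
      rw [h1, ENNReal.mul_top (by simp)] at h2
      exact absurd (lt_of_le_of_lt h2 (ENNReal.mul_lt_top (hπt 0).lt_top
        (ENNReal.div_lt_top hat (by simp)))) (lt_irrefl _)
  have hN0 : N ≠ 0 := by
    rintro rfl
    simp at hN
  have hηt' : η ≠ ∞ := hηt.resolve_right hN0
  obtain ⟨n₀, hn₀⟩ : ∃ n₀, g n₀ < a + η := by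
    by_contra hcon
    push Not at hcon
    have h1 : a + η ≤ a := le_iInf hcon
    exact absurd h1 (not_le.2 (ENNReal.lt_add_right hat hη0))
  have hstep : ∀ i, ∃ l : ℝ, ∀ z, l ≤ L z →
      Gr κ z + π i * (a + η) ≤ π i * Gr κ (z - pt' i) + (a + η) + η := fun i =>
    step_le L κ hm hC1 hwin (A := a + η) (l₀ := n₀)
      (fun z hz => (hgle n₀ z hz).trans hn₀.le) (i + jj i) (pt' i) hη0
  choose l hl using hstep
  obtain ⟨n₁, hn₁⟩ : ∃ n₁ : ℕ, ∀ i < N, l i ≤ n₁ := by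
    obtain ⟨n₁, hn₁⟩ := exists_nat_ge (∑ i ∈ Finset.range N, |l i|)
    refine ⟨n₁, fun i hi => ?_⟩
    have h1 : |l i| ≤ ∑ i ∈ Finset.range N, |l i| :=
      Finset.single_le_sum (f := fun i => |l i|) (fun _ _ => abs_nonneg _)
        (Finset.mem_range.2 hi)
    exact (le_abs_self _).trans (h1.trans hn₁)
  obtain ⟨z, hz, hza⟩ : ∃ z, (n₁ : ℝ) ≤ L z ∧ a < Gr κ z + η := by
    by_contra hcon
    push Not at hcon
    have h1 : g n₁ + η ≤ a := by
      rw [hg]
      simp only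
      by_cases hne : Nonempty {z : V // (n₁ : ℝ) ≤ L z}
      · rw [ENNReal.iSup_add]
        exact iSup_le fun z => hcon z z.2
      · rw [not_nonempty_iff] at hne
        exfalso
        have h2 : g n₁ = 0 := by
          rw [hg]
          simp only
          rw [iSup_of_empty]
          rfl
        have h3 : a ≤ g n₁ := iInf_le _ _
        rw [h2, nonpos_iff_eq_zero] at h3
        exact ha0 h3
    have h2 : a + η ≤ a := (add_le_add (iInf_le _ n₁) le_rfl).trans h1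
    exact absurd h2 (not_le.2 (ENNReal.lt_add_right hat hη0))
  -- all the translates are large
  have hlarge : ∀ i < N, a / 2 ≤ Gr κ (z - pt' i) := by
    intro i hi
    have h1 := hl i z ((hn₁ i hi).trans hz)
    have h2 := hη i hi
    by_contra hcon
    rw [not_le] at hcon
    have h3 : π i * Gr κ (z - pt' i) + π i * (a / 2) ≤ π i * a := by
      rw [← mul_add]
      gcongr
      calc Gr κ (z - pt' i) + a / 2 ≤ a / 2 + a / 2 := by (clear * - hcon; gcongr)
        _ = a := ENNReal.add_halves a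
    -- a + π a ≤ G + η + π (a + η) ≤ π G + a + 3 η
    have h4 : a + π i * a < π i * Gr κ (z - pt' i) + a + 3 * η := by
      calc a + π i * a < Gr κ z + η + π i * (a + η) := by
            refine ENNReal.add_lt_add_of_lt_of_le (ENNReal.mul_ne_top (hπt i) hat) hza ?_
            gcongr
            exact le_self_add
        _ = (Gr κ z + π i * (a + η)) + η := by ring
        _ ≤ (π i * Gr κ (z - pt' i) + (a + η) + η) + η := by (clear * - h1; gcongr)
        _ = _ := by ring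
    have h5 : a + π i * a < a + π i * a := by
      calc a + π i * a < π i * Gr κ (z - pt' i) + a + 3 * η := h4
        _ ≤ π i * Gr κ (z - pt' i) + a + π i * (a / 2) := by (clear * - h2; gcongr)
        _ = a + (π i * Gr κ (z - pt' i) + π i * (a / 2)) := by ring
        _ ≤ a + π i * a := by (clear * - h3; gcongr)
    exact lt_irrefl _ h5
  -- two windows
  have hw1 := hwin (L z - s - 1)
  have hw2 := hwin (L z - s)
  have hsum : (N : ℝ≥0∞) * (a / 2) ≤ C1 + C1 := by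
    calc (N : ℝ≥0∞) * (a / 2) = ∑ i ∈ Finset.range N, a / 2 := by
          rw [Finset.sum_const, Finset.card_range, nsmul_eq_mul]
      _ ≤ ∑ i ∈ Finset.range N, Gr κ (z - pt' i) :=
          Finset.sum_le_sum fun i hi => hlarge i (Finset.mem_range.1 hi)
      _ = ∑ w ∈ (Finset.range N).image (fun i => z - pt' i), Gr κ w := by
          rw [Finset.sum_image]
          intro i hi i' hi' h
          exact hinj hi hi' (sub_right_injective h)
      _ ≤ ∑ w ∈ (Finset.range N).image (fun i => z - pt' i),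
          ((if L z - s - 1 ≤ L w ∧ L w < L z - s - 1 + 1 then Gr κ w else 0) +
            (if L z - s ≤ L w ∧ L w < L z - s + 1 then Gr κ w else 0)) := by
          refine Finset.sum_le_sum fun w hw => ?_
          obtain ⟨i, hi, rfl⟩ := Finset.mem_image.1 hw
          obtain ⟨h1, h2⟩ := hLpt i (Finset.mem_range.1 hi)
          rw [map_sub]
          by_cases h3 : L z - s ≤ L z - L (pt' i)
          · rw [if_pos (show L z - s ≤ L z - L (pt' i) ∧ L z - L (pt' i) < L z - s + 1 from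
              ⟨h3, by linarith only [h1]⟩)]
            exact le_add_self
          · rw [not_le] at h3
            rw [if_pos (show L z - s - 1 ≤ L z - L (pt' i) ∧
              L z - L (pt' i) < L z - s - 1 + 1 from ⟨by linarith only [h2], by linarith only [h3]⟩)]
            exact le_self_add
      _ ≤ ∑' w, ((if L z - s - 1 ≤ L w ∧ L w < L z - s - 1 + 1 then Gr κ w else 0) +
            (if L z - s ≤ L w ∧ L w < L z - s + 1 then Gr κ w else 0)) :=
          ENNReal.sum_le_tsum _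
      _ ≤ C1 + C1 := by
          rw [ENNReal.tsum_add]
          exact add_le_add hw1 hw2
  have hfin : (N : ℝ≥0∞) * a ≤ 4 * C1 := by
    calc (N : ℝ≥0∞) * a = 2 * ((N : ℝ≥0∞) * (a / 2)) := by
          rw [mul_left_comm, ENNReal.mul_div_cancel (by simp) (by simp)]
      _ ≤ 2 * (C1 + C1) := by (clear * - hsum; gcongr)
      _ = 4 * C1 := by ring
  exact absurd hN (not_lt.2 hfin)

end window

end Vale.Agent.P147.Z.Atm
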