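import Vale.Agent.P147.Z.Fact

/-!
# First passage paths and words of blocks
-/

open MeasureTheory
open scoped ENNReal

namespace Vale.Agent.P147.Z

variable {d : ℕ} (μ : Measure (Row d)) [IsProbabilityMeasure μ]

/-- The end of a first passage path to level `a` has level below `a + 1`. -/
lemma Fp_lt {L : Site d →+ ℝ} (hL : Lvl L) {a : ℝ} (ha : 0 ≤ a) {l : List (Dir d)}
    (hl : l ∈ Fp L a) : L (dsp l) < a + 1 := by
  rcases List.eq_nil_or_concat' l with rfl | ⟨l', u, rfl⟩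
  · simp only [dsp_nil, map_zero]; linarith
  · have h1 : dsp l' ∈ exits 0 (l' ++ [u]) :=
      mem_exits.2 ⟨l', [u], rfl, by simp, by simp⟩
    have h2 := (hl.1 _ h1).2
    have h3 := (abs_le.1 (hL.step u)).2
    rw [dsp_append, map_add]
    simp only [dsp_cons, dsp_nil, add_zero]
    linarith

open Classical in
theorem sum_Fp_le {L : Site d →+ ℝ} (hL : Lvl L) (M : ℕ) (Φ : List (Dir d) → ℝ≥0∞) :
    ∑ N ∈ Finset.Icc M (2 * M), ∑' π : Fp L (N : ℝ), wt μ π.1 * Φ π.1 ≤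
      ∑' n : ℕ, En μ L n (fun l => if (M : ℝ) ≤ L (dsp l) ∧ L (dsp l) < 2 * M + 1 then Φ l
        else 0) := by
  rw [← tsum_Br_words, tsum_subtype (Br L) (fun l => wt μ l *
    (if (M : ℝ) ≤ L (dsp l) ∧ L (dsp l) < 2 * M + 1 then Φ l else 0))]
  simp_rw [fun N : ℕ => tsum_subtype (Fp L (N : ℝ)) (fun l => wt μ l * Φ l)]
  rw [← Summable.tsum_finsetSum fun i _ => ENNReal.summable]
  refine ENNReal.tsum_le_tsum fun l => ?_
  by_cases h : ∃ N ∈ Finset.Icc M (2 * M), l ∈ Fp L (N : ℝ)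
  · obtain ⟨N, hN, hl⟩ := h
    have h1 := Fp_lt hL (Nat.cast_nonneg N) hl
    rw [Finset.sum_eq_single N]
    · rw [Set.indicator_of_mem hl, Set.indicator_of_mem (Fp_subset_Br hl), if_pos]
      rw [Finset.mem_Icc] at hN
      have h2 : (M : ℝ) ≤ N := by exact_mod_cast hN.1
      have h3 : (N : ℝ) ≤ 2 * M := by exact_mod_cast hN.2
      exact ⟨h2.trans hl.2, by linarith⟩
    · intro N' _ hne
      refine Set.indicator_of_notMem (fun hl' => hne ?_) _
      have h2 := Fp_lt hL (Nat.cast_nonneg N') hl'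
      have h3 : (N' : ℝ) < N + 1 := hl'.2.trans_lt h1
      have h4 : (N : ℝ) < N' + 1 := hl.2.trans_lt h2
      have h5 : N' < N + 1 := by exact_mod_cast h3
      have h6 : N < N' + 1 := by exact_mod_cast h4
      omega
    · exact fun h => absurd hN h
  · push Not at h
    rw [Finset.sum_eq_zero fun N hN => Set.indicator_of_notMem (h N hN) _]
    exact zero_le

/-- A word of blocks followed by a first passage path is a first passage path. -/
lemma append_mem_Fp {L : Site d →+ ℝ} {M : ℝ} {l η : List (Dir d)} (hl : l ∈ Br L)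
    (hM : L (dsp l) ≤ M) (hη : η ∈ Fp L (M - L (dsp l))) : l ++ η ∈ Fp L M := by
  refine ⟨fun y hy => ?_, ?_⟩
  · rcases mem_exits_append.1 hy with h | ⟨x, hx, rfl⟩
    · exact ⟨(hl y h).1, (hl y h).2.trans_le hM⟩
    · have h1 := hη.1 x hx
      have h2 := Br_nonneg hl
      rw [map_add]
      exact ⟨by linarith [h1.1], by linarith [h1.2]⟩
  · have := hη.2
    rw [dsp_append, map_add]
    linarith

open Classical in
theorem En_le_Fp {L : Site d →+ ℝ} (hL : Lvl L) {q : ℝ≥0∞}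
    (hq : ∀ a, q ≤ fu μ L a) (m : ℕ) (M : ℝ) (Φ : List (Dir d) → ℝ≥0∞)
    (hΦ : ∀ a b, Φ a ≤ Φ (a ++ b)) :
    q * En μ L m (fun l => if L (dsp l) ≤ M then Φ l else 0) ≤ ∑' π : Fp L M, wt μ π.1 * Φ π.1 := by
  let I := {l : Wn L m // L (dsp l.1) ≤ M}
  let f : (Σ l : I, Fp L (M - L (dsp l.1.1))) → Fp L M := fun p =>
    ⟨p.1.1.1 ++ p.2.1, append_mem_Fp (Wn_subset_Br p.1.1.2) p.1.2 p.2.2⟩
  have hf : Function.Injective f := by
    rintro ⟨⟨⟨l, hl⟩, h1⟩, ⟨η, hη⟩⟩ ⟨⟨⟨l', hl'⟩, h1'⟩, ⟨η', hη'⟩⟩ h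
    obtain ⟨rfl, rfl⟩ := Wn_append_inj hl (Fp_up hη) hl' (Fp_up hη') (congrArg Subtype.val h)
    rfl
  calc q * En μ L m (fun l => if L (dsp l) ≤ M then Φ l else 0)
      = ∑' l : Wn L m, if L (dsp l.1) ≤ M then wt μ l.1 * Φ l.1 * q else 0 := by
        rw [← tsum_Wn, ← ENNReal.tsum_mul_left]
        refine tsum_congr fun l => ?_
        split_ifs
        · ring
        · simp
    _ = ∑' l : I, wt μ l.1.1 * Φ l.1.1 * q := by
        have h := tsum_subtype {l : Wn L m | L (dsp l.1) ≤ M}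
          (fun l : Wn L m => wt μ l.1 * Φ l.1 * q)
        rw [show (∑' l : I, wt μ l.1.1 * Φ l.1.1 * q) = _ from h]
        refine tsum_congr fun l => ?_
        rw [Set.indicator_apply]
        rfl
    _ ≤ ∑' l : I, ∑' η : Fp L (M - L (dsp l.1.1)), wt μ (l.1.1 ++ η.1) * Φ (l.1.1 ++ η.1) := by
        refine ENNReal.tsum_le_tsum fun l => ?_
        calc wt μ l.1.1 * Φ l.1.1 * q
            ≤ wt μ l.1.1 * Φ l.1.1 * fu μ L (M - L (dsp l.1.1)) := by gcongr; exact hq _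
          _ = ∑' η : Fp L (M - L (dsp l.1.1)), wt μ l.1.1 * wt μ η.1 * Φ l.1.1 := by
              rw [fu, ← ENNReal.tsum_mul_left]
              refine tsum_congr fun η => ?_
              ring
          _ ≤ _ := by
              refine ENNReal.tsum_le_tsum fun η => ?_
              rw [wt_append_Br μ (Wn_subset_Br l.1.2) (Fp_up η.2)]
              gcongr
              exact hΦ _ _
    _ = ∑' p : (Σ l : I, Fp L (M - L (dsp l.1.1))), wt μ (f p).1 * Φ (f p).1 := by
        rw [ENNReal.tsum_sigma']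
    _ ≤ ∑' π : Fp L M, wt μ π.1 * Φ π.1 :=
        ENNReal.tsum_comp_le_tsum_of_injective hf (fun π : Fp L M => wt μ π.1 * Φ π.1)

end Vale.Agent.P147.Z
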