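import Vale.Agent.P147.Z.Base

/-!
# Words of blocks: concatenation and the law of the displacement
-/

open MeasureTheory
open scoped ENNReal

namespace Vale.Agent.P147.Z

variable {d : ℕ} (μ : Measure (Row d)) [IsProbabilityMeasure μ]

omit [IsProbabilityMeasure μ] in
theorem En_add {L : Site d →+ ℝ} (m n : ℕ) (Φ : List (Dir d) → ℝ≥0∞) :
    En μ L (m + n) Φ = En μ L m (fun l => En μ L n (fun l' => Φ (l ++ l'))) := by
  induction m generalizing Φ with
  | zero => simp [En]
  | succ m ih =>
    rw [Nat.add_right_comm, En, En]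
    refine tsum_congr fun b => ?_
    rw [ih]
    simp only [List.append_assoc]

omit [IsProbabilityMeasure μ] in
/-- Expectation of a function of the displacement of one block. -/
lemma kap_sum {L : Site d →+ ℝ} (g : Site d → ℝ≥0∞) :
    ∑' y, (kap μ L).v y * g y = ∑' b : Ir L, wt μ b.1 * g (dsp b.1) := by
  classical
  simp only [kap]
  calc ∑' y, (∑' b : Ir L, if dsp b.1 = y then wt μ b.1 else 0) * g y
      = ∑' y, ∑' b : Ir L, (if dsp b.1 = y then wt μ b.1 else 0) * g y := by
        refine tsum_congr fun y => ?_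
        rw [ENNReal.tsum_mul_right]
    _ = ∑' b : Ir L, ∑' y, (if dsp b.1 = y then wt μ b.1 else 0) * g y := ENNReal.tsum_comm
    _ = ∑' b : Ir L, wt μ b.1 * g (dsp b.1) := by
        refine tsum_congr fun b => ?_
        rw [tsum_eq_single (dsp b.1)]
        · simp
        · intro y hy
          rw [if_neg (Ne.symm hy), zero_mul]

omit [IsProbabilityMeasure μ] in
theorem En_dsp {L : Site d →+ ℝ} (n : ℕ) (f : Site d → ℝ≥0∞) :
    En μ L n (fun l => f (dsp l)) = ∑' x, ((kap μ L) ^ n).v x * f x := by
  induction n generalizing f with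
  | zero =>
    rw [pow_zero, Cv.one_def, tsum_eq_single 0]
    · simp [En]
    · intro x hx
      rw [Cv.pt_v_ne hx, zero_mul]
  | succ n ih =>
    rw [En, pow_succ']
    calc ∑' b : Ir L, wt μ b.1 * En μ L n (fun l => f (dsp (b.1 ++ l)))
        = ∑' b : Ir L, wt μ b.1 * ∑' x, ((kap μ L) ^ n).v x * f (dsp b.1 + x) := by
          refine tsum_congr fun b => ?_
          rw [← ih (fun x => f (dsp b.1 + x))]
          simp only [dsp_append]
      _ = ∑' y, (kap μ L).v y * ∑' x, ((kap μ L) ^ n).v x * f (y + x) :=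
          (kap_sum μ (fun y => ∑' x, ((kap μ L) ^ n).v x * f (y + x))).symm
      _ = ∑' y, ∑' x, (kap μ L).v y * ((kap μ L) ^ n).v (x - y) * f x := by
          refine tsum_congr fun y => ?_
          rw [← ENNReal.tsum_mul_left, ← (Equiv.subRight y).tsum_eq]
          refine tsum_congr fun x => ?_
          simp only [Equiv.subRight_apply, add_sub_cancel]
          ring
      _ = ∑' x, ∑' y, (kap μ L).v y * ((kap μ L) ^ n).v (x - y) * f x := ENNReal.tsum_comm
      _ = ∑' x, (kap μ L * (kap μ L) ^ n).v x * f x := by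
          refine tsum_congr fun x => ?_
          rw [Cv.mul_v, ENNReal.tsum_mul_right]

end Vale.Agent.P147.Z
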