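import Vale.Agent.P147.Z.Base
import Vale.Agent.P147.Z.Blocks
import Vale.Agent.P147.Z.AtomsAbs

/-!
# Atoms

The renewal function of the displacement of the blocks tends to zero at infinity.
-/

open MeasureTheory
open scoped ENNReal

namespace Vale.Agent.P147.Z

variable {d : ℕ} (μ : Measure (Row d)) [IsProbabilityMeasure μ]

namespace Atm

omit [IsProbabilityMeasure μ] in
lemma mass_kap (L : Site d →+ ℝ) : (kap μ L).mass = ∑' b : Ir L, wt μ b.1 := by
  classical
  rw [Cv.mass]
  simp only [kap]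
  rw [ENNReal.tsum_comm]
  refine tsum_congr fun b => ?_
  rw [tsum_eq_single (dsp b.1)]
  · rw [if_pos rfl]
  · intro x hx
    rw [if_neg (fun h => hx h.symm)]

lemma free_Fp (L : Site d →+ ℝ) (a : ℝ) : Free (Fp L a) := by
  intro l hl b hb
  by_contra hne
  have h1 : dsp l ∈ exits 0 (l ++ b) := mem_exits.2 ⟨l, b, rfl, hne, by simp⟩
  have h2 := (hb.1 _ h1).2
  exact absurd h2 (not_lt.2 hl.2)

/-- The mass of the law of a block is at most one. -/
lemma mass_kap_le {L : Site d →+ ℝ} (hL : Lvl L) {q : ℝ≥0∞} (hq0 : q ≠ 0)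
    (hq : ∀ a, q ≤ fu μ L a) : (kap μ L).mass ≤ 1 := by
  classical
  have key : ∀ m : ℕ, q * (kap μ L).mass ^ m ≤ 1 := by
    intro m
    rw [← Cv.mass_pow, Cv.mass, ENNReal.tsum_eq_iSup_sum, ENNReal.mul_iSup]
    refine iSup_le fun s => ?_
    obtain ⟨M, hM⟩ : ∃ M : ℝ, ∀ x ∈ s, L x ≤ M := by
      refine ⟨∑ x ∈ s, |L x|, fun x hx => ?_⟩
      exact (le_abs_self _).trans (Finset.single_le_sum (f := fun x => |L x|)
        (fun _ _ => abs_nonneg _) hx)
    calc q * ∑ x ∈ s, ((kap μ L) ^ m).v x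
        ≤ q * ∑' x, ((kap μ L) ^ m).v x * (if L x ≤ M then 1 else 0) := by
          gcongr
          refine le_trans (Finset.sum_le_sum fun x hx => ?_) (ENNReal.sum_le_tsum s)
          rw [if_pos (hM x hx), mul_one]
      _ = q * En μ L m (fun l => if L (dsp l) ≤ M then 1 else 0) := by
          rw [← En_dsp μ m (fun x => if L x ≤ M then 1 else 0)]
      _ ≤ ∑' π : Fp L M, wt μ π.1 * 1 :=
          En_le_Fp μ hL hq m M (fun _ => 1) (fun _ _ => le_rfl)
      _ ≤ 1 := by
          simp only [mul_one]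
          exact tsum_wt_le_one μ (free_Fp L _)
  by_contra hcon
  rw [not_le] at hcon
  have h1 := ENNReal.tendsto_pow_atTop_nhds_top_iff.2 hcon
  have h2 : q⁻¹ < ⊤ := ENNReal.inv_lt_top.2 (pos_iff_ne_zero.2 hq0)
  obtain ⟨m, hm⟩ := (h1.eventually (lt_mem_nhds h2)).exists
  have h3 : (kap μ L).mass ^ m ≤ q⁻¹ := by
    rw [ENNReal.le_inv_iff_mul_le, mul_comm]
    exact key m
  exact absurd hm (not_lt.2 h3)

omit [IsProbabilityMeasure μ] in
lemma le_kap {L : Site d →+ ℝ} {b : List (Dir d)} (hb : b ∈ Ir L) :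
    wt μ b ≤ (kap μ L).v (dsp b) := by
  classical
  simp only [kap]
  refine le_trans ?_ (ENNReal.le_tsum ⟨b, hb⟩)
  rw [if_pos rfl]

/-- the weight of the bridges with end in a unit window -/
lemma Br_window {L : Site d →+ ℝ} {u : Dir d} (hu : L (vec u) = 1) (t : ℝ) :
    (∑' l : Br L, wt μ l.1 * (if t ≤ L (dsp l.1) ∧ L (dsp l.1) < t + 1 then 1 else 0)) *
      wt μ [u] ≤ 1 := by
  classical
  rw [← ENNReal.tsum_mul_right]
  have e1 : ∀ l : Br L, wt μ l.1 * (if t ≤ L (dsp l.1) ∧ L (dsp l.1) < t + 1 then 1 else 0) *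
      wt μ [u] ≤ ∑' π : Fp L (t + 1), (if π.1 = l.1 ++ [u] then wt μ π.1 else 0) := by
    intro l
    by_cases h : t ≤ L (dsp l.1) ∧ L (dsp l.1) < t + 1
    · rw [if_pos h, mul_one]
      have hdis : Disjoint (exits 0 l.1) (exits (dsp l.1) [u]) := by
        rw [Finset.disjoint_left]
        intro x hx hx'
        simp only [exits_cons, exits_nil, insert_empty_eq, Finset.mem_singleton] at hx'
        rw [hx'] at hx
        exact absurd (l.2 _ hx).2 (lt_irrefl _)
      have hmem : l.1 ++ [u] ∈ Fp L (t + 1) := by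
        constructor
        · intro x hx
          rw [exits_append, Finset.mem_union] at hx
          rcases hx with hx | hx
          · have h1 := l.2 _ hx
            exact ⟨h1.1, h1.2.trans h.2⟩
          · simp only [exits_cons, exits_nil, insert_empty_eq, Finset.mem_singleton,
              zero_add] at hx
            rw [hx]
            exact ⟨Br_nonneg l.2, h.2⟩
        · rw [dsp_append, map_add]
          simp only [dsp_cons, dsp_nil, add_zero, hu]
          linarith only [h]
      rw [← wt_append μ hdis]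
      refine le_trans ?_ (ENNReal.le_tsum ⟨l.1 ++ [u], hmem⟩)
      rw [if_pos rfl]
    · rw [if_neg h, mul_zero, zero_mul]
      exact zero_le
  calc _ ≤ ∑' l : Br L, ∑' π : Fp L (t + 1), (if π.1 = l.1 ++ [u] then wt μ π.1 else 0) :=
        ENNReal.tsum_le_tsum e1
    _ = ∑' π : Fp L (t + 1), ∑' l : Br L, (if π.1 = l.1 ++ [u] then wt μ π.1 else 0) :=
        ENNReal.tsum_comm
    _ ≤ ∑' π : Fp L (t + 1), wt μ π.1 := by
        refine ENNReal.tsum_le_tsum fun π => ?_
        by_cases h : ∃ l : Br L, π.1 = l.1 ++ [u]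
        · obtain ⟨l, hl⟩ := h
          rw [tsum_eq_single l]
          · rw [if_pos hl]
          · intro l' hl'
            rw [if_neg]
            intro h2
            rw [hl] at h2
            exact hl' (Subtype.ext (List.append_cancel_right h2).symm)
        · push Not at h
          have : ∀ l : Br L, (if π.1 = l.1 ++ [u] then wt μ π.1 else 0) = 0 := fun l =>
            if_neg (h l)
          simp only [this, tsum_zero]
          exact zero_le
    _ ≤ 1 := tsum_wt_le_one μ (free_Fp L _)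

omit [IsProbabilityMeasure μ] in
lemma single_Ir {L : Site d →+ ℝ} {u : Dir d} (hu : 0 < L (vec u)) : [u] ∈ Ir L := by
  refine ⟨?_, by simp, ?_⟩
  · intro x hx
    simp only [exits_cons, exits_nil, insert_empty_eq, Finset.mem_singleton] at hx
    rw [hx]
    simpa using hu
  · intro a b h _ _
    have h1 := congrArg List.length h
    simp only [List.length_cons, List.length_nil, List.length_append] at h1
    rcases Nat.eq_zero_or_pos a.length with h2 | h2
    · exact Or.inl (List.length_eq_zero_iff.1 h2)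
    · exact Or.inr (List.length_eq_zero_iff.1 (by (clear * - h1 h2; omega)))

omit [IsProbabilityMeasure μ] in
lemma pair_Ir {L : Site d →+ ℝ} {u v : Dir d} (hv : L (vec v) = 0) (hu : 0 < L (vec u)) :
    [v, u] ∈ Ir L := by
  refine ⟨?_, by simp, ?_⟩
  · intro x hx
    simp only [exits_cons, exits_nil, insert_empty_eq, Finset.mem_singleton,
      Finset.mem_insert, zero_add] at hx
    rcases hx with rfl | rfl
    · simpa [hv] using hu
    · simpa only [hv, Std.le_refl, dsp_cons, dsp_nil, add_zero, map_add, zero_add, true_and] using hu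
  · intro a b h ha _
    match a, h, ha with
    | [], _, _ => exact Or.inl rfl
    | [w], h, ha =>
      exfalso
      simp only [List.cons_append, List.nil_append, List.cons.injEq] at h
      have h2 := (ha 0 (by simp only [exits_cons, zero_add, exits_nil, insert_empty_eq, Finset.mem_singleton])).2
      rw [← h.1] at h2
      simp only [map_zero, dsp_cons, dsp_nil, add_zero, hv, lt_self_iff_false] at h2
    | w :: w' :: a, h, _ =>
      right
      simp only [List.cons_append, List.cons.injEq] at h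
      exact (List.append_eq_nil_iff.1 h.2.2.symm).2

end Atm

theorem atoms {L : Site d →+ ℝ} (hL : Lvl L) (hd : 2 ≤ d) (hμ : Elliptic μ) {q : ℝ≥0∞}
    (hq0 : q ≠ 0) (hq : ∀ a, q ≤ fu μ L a) (ε : ℝ≥0∞) (hε : ε ≠ 0) :
    ∃ A : ℝ, ∀ z : Site d, A ≤ L z → ∑' n : ℕ, ((kap μ L) ^ n).v z ≤ ε := by
  classical
  obtain ⟨u, hu⟩ := hL.top
  have hu0 : 0 < L (vec u) := by rw [hu]; exact one_pos
  -- the second direction
  obtain ⟨v, hvu, hv0⟩ : ∃ v : Dir d, v.1 ≠ u.1 ∧ 0 ≤ L (vec v) := by
    obtain ⟨j, hj⟩ : ∃ j : Fin d, j ≠ u.1 := by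
      have : Nontrivial (Fin d) := Fin.nontrivial_iff_two_le.2 hd
      exact exists_ne u.1
    by_cases h : 0 ≤ L (vec (j, true))
    · exact ⟨(j, true), hj, h⟩
    · refine ⟨(j, false), hj, ?_⟩
      have e : vec (j, false) = -vec (j, true) := by
        simp only [vec, if_true, Bool.false_eq_true, if_false]
        rw [Pi.single_neg]
      rw [e, map_neg]
      rw [not_le] at h
      linarith only [h]
  obtain ⟨b₁, hb₁, hL1, hb1j, hb1i⟩ : ∃ b₁ ∈ Ir L, 0 < L (dsp b₁) ∧ dsp b₁ v.1 ≠ 0 ∧ True := by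
    rcases hv0.lt_or_eq with h | h
    · refine ⟨[v], Atm.single_Ir h, by simpa only [dsp_cons, dsp_nil, add_zero] using h, ?_, trivial⟩
      simp only [dsp_cons, dsp_nil, add_zero, vec, Pi.single_eq_same]
      split_ifs <;> simp
    · refine ⟨[v, u], Atm.pair_Ir h.symm hu0, ?_, ?_, trivial⟩
      · simp only [dsp_cons, dsp_nil, add_zero, map_add, ← h, zero_add]
        exact hu0
      · simp only [dsp_cons, dsp_nil, add_zero, vec, Pi.add_apply, Pi.single_eq_same,
          Pi.single_eq_of_ne hvu]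
        split_ifs <;> simp
  have hmass : (kap μ L).mass ≤ 1 := Atm.mass_kap_le μ hL hq0 hq
  have hwu : wt μ [u] ≠ 0 := wt_ne_zero μ hμ _
  have hwin : ∀ t : ℝ, ∑' z, (if t ≤ L z ∧ L z < t + 1 then Atm.Gr (kap μ L) z else 0) ≤
      (wt μ [u])⁻¹ := by
    intro t
    set f : Site d → ℝ≥0∞ := fun z => if t ≤ L z ∧ L z < t + 1 then 1 else 0 with hf
    have h1 : ∑' z, (if t ≤ L z ∧ L z < t + 1 then Atm.Gr (kap μ L) z else 0) =
        ∑' n, En μ L n (fun l => f (dsp l)) := by
      have e1 : ∀ z, (if t ≤ L z ∧ L z < t + 1 then Atm.Gr (kap μ L) z else 0) =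
          ∑' n : ℕ, ((kap μ L) ^ n).v z * f z := by
        intro z
        rw [ENNReal.tsum_mul_right]
        by_cases h : t ≤ L z ∧ L z < t + 1
        · rw [if_pos h, hf]
          simp only
          rw [if_pos h, mul_one]
          rfl
        · rw [if_neg h, hf]
          simp only
          rw [if_neg h, mul_zero]
      rw [tsum_congr e1, ENNReal.tsum_comm]
      refine tsum_congr fun n => ?_
      rw [En_dsp]
    rw [h1, ← tsum_Br_words μ]
    have h2 := Atm.Br_window μ hu t
    rw [ENNReal.le_inv_iff_mul_le]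
    exact h2
  have h₁ : (kap μ L).v (dsp b₁) ≠ 0 := fun h0 =>
    wt_ne_zero μ hμ b₁ (nonpos_iff_eq_zero.1 ((Atm.le_kap μ hb₁).trans h0.le))
  have h₂ : (kap μ L).v (dsp [u]) ≠ 0 := fun h0 =>
    hwu (nonpos_iff_eq_zero.1 ((Atm.le_kap μ (Atm.single_Ir hu0)).trans h0.le))
  refine Atm.Gr_small L (kap μ L) hmass (C1 := (wt μ [u])⁻¹) ?_ hwin h₁ h₂ hL1 ?_ ?_ ?_ hε
  · exact ENNReal.inv_ne_top.2 hwu
  · simpa only [dsp_cons, dsp_nil, add_zero] using hu0
  · simp [hu]
  · intro a b a' b' h
    have hj := congrFun h v.1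
    have hi := congrFun h u.1
    have e1 : dsp [u] v.1 = 0 := by
      simp only [dsp_cons, dsp_nil, add_zero, vec]
      exact Pi.single_eq_of_ne hvu _
    have e2 : dsp [u] u.1 ≠ 0 := by
      simp only [dsp_cons, dsp_nil, add_zero, vec, Pi.single_eq_same]
      split_ifs <;> simp
    simp only [Pi.add_apply, Pi.smul_apply] at hj
    rw [e1, smul_zero, smul_zero, add_zero, add_zero, nsmul_eq_mul, nsmul_eq_mul] at hj
    have ha : (a : ℤ) = a' := mul_right_cancel₀ hb1j hj
    have ha' : a = a' := by exact_mod_cast ha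
    subst ha'
    simp only [Pi.add_apply, Pi.smul_apply, add_right_inj] at hi
    rw [nsmul_eq_mul, nsmul_eq_mul] at hi
    have hb : (b : ℤ) = b' := mul_right_cancel₀ e2 hi
    exact ⟨rfl, by exact_mod_cast hb⟩

end Vale.Agent.P147.Z
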