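import Vale.Agent.P147.Annealed
import Vale.Agent.P147.Conv

/-!
# Directional zero-one law: basic definitions

Everything is expressed by annealed weights `wt μ l` of finite lists of steps `l`, started at `0`.
`L` is a real level function on the lattice.
-/

open MeasureTheory
open scoped ENNReal

namespace Vale.Agent.P147.Z

variable {d : ℕ}

/-- Normalised level function: a step changes the level by at most `1`, and some step raises it by
exactly `1`. -/
structure Lvl (L : Site d →+ ℝ) : Prop where
  step : ∀ u : Dir d, |L (vec u)| ≤ 1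
  top : ∃ u : Dir d, L (vec u) = 1

/-- First passage paths: the departure sites have level in `[0, a)` and the end has level at
least `a`. -/
def Fp (L : Site d →+ ℝ) (a : ℝ) : Set (List (Dir d)) :=
  {l | (∀ x ∈ exits 0 l, 0 ≤ L x ∧ L x < a) ∧ a ≤ L (dsp l)}

/-- Total weight of the first passage paths. -/
noncomputable def fu (μ : Measure (Row d)) (L : Site d →+ ℝ) (a : ℝ) : ℝ≥0∞ :=
  ∑' l : Fp L a, wt μ l.1

/-- Bridges: all departure sites have level at least `0` and strictly less than the level of the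
end. -/
def Br (L : Site d →+ ℝ) : Set (List (Dir d)) :=
  {l | ∀ x ∈ exits 0 l, 0 ≤ L x ∧ L x < L (dsp l)}

/-- Irreducible bridges. -/
def Ir (L : Site d →+ ℝ) : Set (List (Dir d)) :=
  {l | l ∈ Br L ∧ l ≠ [] ∧ ∀ a b, l = a ++ b → a ∈ Br L → b ∈ Br L → a = [] ∨ b = []}

/-- Sum over the words of `n` irreducible bridges: expectation of `Φ` of the concatenation of `n`
independent blocks. -/
noncomputable def En (μ : Measure (Row d)) (L : Site d →+ ℝ) :
    ℕ → (List (Dir d) → ℝ≥0∞) → ℝ≥0∞
  | 0, Φ => Φ []
  | n + 1, Φ => ∑' b : Ir L, wt μ b.1 * En μ L n (fun l => Φ (b.1 ++ l))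

theorem En_zero_eq (μ : Measure (Row d)) (L : Site d →+ ℝ) (Φ : List (Dir d) → ℝ≥0∞) :
    En μ L 0 Φ = Φ [] := by
  rw [En]

theorem En_succ_eq (μ : Measure (Row d)) (L : Site d →+ ℝ) (n : ℕ)
    (Φ : List (Dir d) → ℝ≥0∞) :
    En μ L (n + 1) Φ = ∑' b : Ir L, wt μ b.1 * En μ L n (fun l => Φ (b.1 ++ l)) := by
  rw [En]

/-- The law of the displacement of one block. -/
noncomputable def kap (μ : Measure (Row d)) (L : Site d →+ ℝ) : Cv (Site d) :=
  ⟨fun x => by classical exact ∑' b : Ir L, if dsp b.1 = x then wt μ b.1 else 0⟩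

/-- The slab. -/
def Db (L : Site d →+ ℝ) (t : ℝ) : Set (Site d) := {x | -1 < L x ∧ L x < t}

/-- Paths from `v` that leave the slab through its bottom. -/
def Ds (L : Site d →+ ℝ) (t : ℝ) (v : Site d) : Set (List (Dir d)) :=
  {ρ | (∀ x ∈ exits v ρ, x ∈ Db L t) ∧ L (v + dsp ρ) ≤ -1}

/-- Weight of the prefix `l` followed by an exit of the slab through the bottom. -/
noncomputable def Eb (μ : Measure (Row d)) (L : Site d →+ ℝ) (t : ℝ) (l : List (Dir d)) : ℝ≥0∞ :=
  ∑' ρ : Ds L t (dsp l), wt μ (l ++ ρ.1)

open Classical in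
/-- Sum over the continuations of the prefix `l`, stopped when they leave `D` and at the latest
after `n` more steps. -/
noncomputable def Ex {R : Type*} [Semiring R] (W : List (Dir d) → R) (D : Set (Site d))
    (F : List (Dir d) → R) : ℕ → List (Dir d) → R
  | 0, l => W l * F l
  | n + 1, l => if dsp l ∈ D then ∑ u : Dir d, Ex W D F n (l ++ [u]) else W l * F l

theorem Ex_zero_eq {R : Type*} [Semiring R] (W : List (Dir d) → R) (D : Set (Site d))
    (F : List (Dir d) → R) (l : List (Dir d)) : Ex W D F 0 l = W l * F l := by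
  rw [Ex]

open Classical in
theorem Ex_succ_eq {R : Type*} [Semiring R] (W : List (Dir d) → R) (D : Set (Site d))
    (F : List (Dir d) → R) (n : ℕ) (l : List (Dir d)) :
    Ex W D F (n + 1) l = if dsp l ∈ D then ∑ u : Dir d, Ex W D F n (l ++ [u])
      else W l * F l := by
  rw [Ex]

open Classical in
/-- The sites seen by the prefix `l`: the departure sites, and the present site if it is
in `D`. -/
noncomputable def sit (D : Set (Site d)) (l : List (Dir d)) : Finset (Site d) :=
  if dsp l ∈ D then insert (dsp l) (exits 0 l) else exits 0 l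

open Classical in
/-- Total weight of the paths of `T`, started at `z`, with a departure site in `S`. -/
noncomputable def kill (μ : Measure (Row d)) (T : Set (List (Dir d))) (z : Site d)
    (S : Finset (Site d)) : ℝ≥0∞ :=
  ∑' ρ : T, if Disjoint (exits z ρ.1) S then 0 else wt μ ρ.1

/-- Downward paths from `z` to level at most `-1`, with a first passage at level `l1` that is a
cut point. -/
def Td (L : Site d →+ ℝ) (l1 : ℝ) (z : Site d) : Set (List (Dir d)) :=
  {ρ | ∃ β₁ ∈ Fp (-L) (L z - l1), ∃ β₂ ∈ Fp (-L) (L (z + dsp β₁) + 1), ρ = β₁ ++ β₂}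

/-- The starting segment of `l` up to its first passage to level `h`. -/
noncomputable def fpre (L : Site d →+ ℝ) (h : ℝ) (l : List (Dir d)) : List (Dir d) :=
  l.take (sInf {i | h ≤ L (dsp (l.take i))})

/-- The box of radius `R`. -/
noncomputable def bx (d R : ℕ) : Finset (Site d) := Fintype.piFinset fun _ => Finset.Icc (-(R : ℤ)) R

/-- Paths that leave the box of radius `R` at their end for the first time, inside the slab of
levels between `-1` and `n`. -/
def Rch (L : Site d →+ ℝ) (n : ℝ) (R : ℕ) : Set (List (Dir d)) :=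
  {π | (∀ x ∈ exits 0 π, x ∈ Db L n ∧ x ∈ bx d R) ∧ dsp π ∈ Db L n ∧ dsp π ∉ bx d R}

/-- Polynomial tails, in a convenient form. -/
def PolyTail (κ : Cv (Site d)) : Prop :=
  ∃ K n0 : ℕ, ∀ n : ℕ, n0 ≤ n →
    ∑' x, (if x ∈ bx d (n ^ K) then 0 else κ.v x) ≤ ((n : ℝ≥0∞) ^ 2)⁻¹

/-- Average total variation distance between the law of a sum of `n` blocks given the first `m`
blocks and its unconditional law (positive part). -/
noncomputable def tv (κ : Cv (Site d)) (n m : ℕ) : ℝ≥0∞ :=
  ∑' η, (κ ^ m).v η * ∑' z, ((κ ^ (n - m)).v (z - η) - (κ ^ n).v z)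

end Vale.Agent.P147.Z
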