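import Vale.Agent.P147.Z.Base

/-!
# Unique factorisation of bridges into irreducible bridges
-/

open MeasureTheory
open scoped ENNReal

namespace Vale.Agent.P147.Z

variable {d : ℕ} {L : Site d →+ ℝ}

lemma mem_Br_nil : ([] : List (Dir d)) ∈ Br L := by
  intro x hx
  simp at hx

lemma zero_mem_exits {l : List (Dir d)} (hl : l ≠ []) : (0 : Site d) ∈ exits 0 l := by
  cases l with
  | nil => exact absurd rfl hl
  | cons u l => simp

lemma Br_pos {l : List (Dir d)} (hl : l ∈ Br L) (h0 : l ≠ []) : 0 < L (dsp l) := by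
  have h := (hl 0 (zero_mem_exits h0)).2
  rwa [map_zero] at h

lemma Br_nonneg {l : List (Dir d)} (hl : l ∈ Br L) : 0 ≤ L (dsp l) := by
  by_cases h0 : l = []
  · subst h0; simp
  · exact (Br_pos hl h0).le

lemma mem_exits_dsp {a l : List (Dir d)} {y : Site d} :
    y ∈ exits (dsp a) l ↔ ∃ x ∈ exits 0 l, y = x + dsp a := by
  have h := exits_add 0 (dsp a) l
  rw [zero_add] at h
  rw [h, Finset.mem_image]
  constructor
  · rintro ⟨x, hx, rfl⟩; exact ⟨x, hx, rfl⟩
  · rintro ⟨x, hx, rfl⟩; exact ⟨x, hx, rfl⟩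

lemma mem_exits_append {a b : List (Dir d)} {y : Site d} :
    y ∈ exits 0 (a ++ b) ↔ y ∈ exits 0 a ∨ ∃ x ∈ exits 0 b, y = x + dsp a := by
  rw [exits_append, Finset.mem_union, zero_add, mem_exits_dsp]

lemma Br_append {a b : List (Dir d)} (ha : a ∈ Br L) (hb : b ∈ Br L) : a ++ b ∈ Br L := by
  intro y hy
  rw [dsp_append, map_add]
  rcases mem_exits_append.1 hy with h | ⟨x, hx, rfl⟩
  · have h1 := ha y h
    have h2 := Br_nonneg hb
    exact ⟨h1.1, by linarith [h1.2]⟩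
  · have h1 := hb x hx
    have h2 := Br_nonneg ha
    rw [map_add]
    exact ⟨by linarith [h1.1], by linarith [h1.2]⟩

/-- The exits of a bridge are disjoint from the exits of a following path at nonnegative
levels. -/
lemma exits_disjoint_Br {a b : List (Dir d)} (ha : a ∈ Br L) (hb : ∀ x ∈ exits 0 b, 0 ≤ L x) :
    Disjoint (exits 0 a) (exits (dsp a) b) := by
  rw [Finset.disjoint_left]
  intro y h1 h2
  obtain ⟨x, hx, rfl⟩ := mem_exits_dsp.1 h2
  have h3 := (ha _ h1).2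
  rw [map_add] at h3
  linarith [hb x hx]

lemma wt_append_Br (μ : Measure (Row d)) [IsProbabilityMeasure μ] {a b : List (Dir d)}
    (ha : a ∈ Br L) (hb : ∀ x ∈ exits 0 b, 0 ≤ L x) : wt μ (a ++ b) = wt μ a * wt μ b :=
  wt_append μ (exits_disjoint_Br ha hb)

lemma Br_up {l : List (Dir d)} (hl : l ∈ Br L) : ∀ x ∈ exits 0 l, 0 ≤ L x :=
  fun x hx => (hl x hx).1

lemma Fp_up {a : ℝ} {l : List (Dir d)} (hl : l ∈ Fp L a) : ∀ x ∈ exits 0 l, 0 ≤ L x :=
  fun x hx => (hl.1 x hx).1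

lemma Fp_subset_Br {a : ℝ} {l : List (Dir d)} (hl : l ∈ Fp L a) : l ∈ Br L :=
  fun x hx => ⟨(hl.1 x hx).1, (hl.1 x hx).2.trans_le hl.2⟩

/-- Nesting: two bridges that start the same path at nonnegative levels. -/
lemma nest {a b a' b' : List (Dir d)} (hb : ∀ x ∈ exits 0 b, 0 ≤ L x)
    (ha' : a' ∈ Br L) (h : a ++ b = a' ++ b') (hlen : a.length ≤ a'.length) :
    ∃ c, a' = a ++ c ∧ b = c ++ b' ∧ c ∈ Br L := by
  have hcase : ∃ c, a' = a ++ c ∧ b = c ++ b' := by
    rcases List.append_eq_append_iff.1 h with ⟨c, h1, h2⟩ | ⟨c, h1, h2⟩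
    · exact ⟨c, h1, h2⟩
    · have hc : c = [] := by
        have := congrArg List.length h1
        rw [List.length_append] at this
        exact List.length_eq_zero_iff.1 (by omega)
      subst hc
      simp only [List.append_nil] at h1
      simp only [List.nil_append] at h2
      exact ⟨[], by simp [h1], by simp [h2]⟩
  obtain ⟨c, rfl, rfl⟩ := hcase
  refine ⟨c, rfl, rfl, fun x hx => ⟨?_, ?_⟩⟩
  · exact hb x (mem_exits_append.2 (Or.inl hx))
  · have h1 := (ha' (x + dsp a) (mem_exits_append.2 (Or.inr ⟨x, hx, rfl⟩))).2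
    rw [map_add, dsp_append, map_add] at h1
    linarith

/-- The first irreducible block is unique. -/
lemma Ir_append_inj {b r b' r' : List (Dir d)} (hb : b ∈ Ir L) (hr : ∀ x ∈ exits 0 r, 0 ≤ L x)
    (hb' : b' ∈ Ir L) (hr' : ∀ x ∈ exits 0 r', 0 ≤ L x) (h : b ++ r = b' ++ r') :
    b = b' ∧ r = r' := by
  have key : ∀ {b r b' r' : List (Dir d)}, b ∈ Ir L → (∀ x ∈ exits 0 r, 0 ≤ L x) → b' ∈ Ir L →
      b ++ r = b' ++ r' → b.length ≤ b'.length → b = b' ∧ r = r' := by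
    intro b r b' r' hb hr hb' h hlen
    obtain ⟨c, rfl, rfl, hc⟩ := nest hr hb'.1 h hlen
    have hc0 : c = [] := by
      rcases hb'.2.2 b c rfl hb.1 hc with h1 | h1
      · exact absurd h1 hb.2.1
      · exact h1
    subst hc0
    simp
  rcases le_total b.length b'.length with hlen | hlen
  · exact key hb hr hb' h hlen
  · obtain ⟨h1, h2⟩ := key hb' hr' hb h.symm hlen
    exact ⟨h1.symm, h2.symm⟩

/-- Existence of the first irreducible block. -/
lemma exists_Ir {l : List (Dir d)} (hl : l ∈ Br L) (h0 : l ≠ []) :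
    ∃ b ∈ Ir L, ∃ r ∈ Br L, l = b ++ r := by
  classical
  have hex : ∃ n, ∃ a b, a.length = n ∧ a ≠ [] ∧ a ∈ Br L ∧ b ∈ Br L ∧ l = a ++ b :=
    ⟨l.length, l, [], rfl, h0, hl, mem_Br_nil, by simp⟩
  obtain ⟨a, b, h1, h2, h3, h4, h5⟩ := Nat.find_spec hex
  have hmin := fun i hi => Nat.find_min hex (m := i) hi
  refine ⟨a, ⟨h3, h2, fun c e hce hc he => ?_⟩, b, h4, h5⟩
  by_contra hcon
  push Not at hcon
  have hlen : c.length < Nat.find hex := by
    rw [← h1, hce, List.length_append]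
    have := List.length_pos_iff.2 hcon.2
    omega
  refine hmin _ hlen ⟨c, e ++ b, rfl, hcon.1, hc, Br_append he h4, ?_⟩
  rw [h5, hce, List.append_assoc]

/-- Products of `n` irreducible bridges. -/
def Wn (L : Site d →+ ℝ) : ℕ → Set (List (Dir d))
  | 0 => {[]}
  | n + 1 => {l | ∃ b ∈ Ir L, ∃ r ∈ Wn L n, l = b ++ r}

lemma mem_Wn_zero {l : List (Dir d)} : l ∈ Wn L 0 ↔ l = [] := by
  simp [Wn]

lemma mem_Wn_succ {n : ℕ} {l : List (Dir d)} :
    l ∈ Wn L (n + 1) ↔ ∃ b ∈ Ir L, ∃ r ∈ Wn L n, l = b ++ r := Iff.rfl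

lemma Wn_subset_Br {n : ℕ} {l : List (Dir d)} (hl : l ∈ Wn L n) : l ∈ Br L := by
  induction n generalizing l with
  | zero => rw [mem_Wn_zero.1 hl]; exact mem_Br_nil
  | succ n ih =>
    obtain ⟨b, hb, r, hr, rfl⟩ := mem_Wn_succ.1 hl
    exact Br_append hb.1 (ih hr)

lemma Wn_append {m n : ℕ} {a b : List (Dir d)} (ha : a ∈ Wn L m) (hb : b ∈ Wn L n) :
    a ++ b ∈ Wn L (m + n) := by
  induction m generalizing a with
  | zero => rw [mem_Wn_zero.1 ha, List.nil_append, Nat.zero_add]; exact hb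
  | succ m ih =>
    obtain ⟨c, hc, r, hr, rfl⟩ := mem_Wn_succ.1 ha
    rw [Nat.add_right_comm]
    exact ⟨c, hc, r ++ b, ih hr, by rw [List.append_assoc]⟩

lemma Wn_unique {m n : ℕ} {l : List (Dir d)} (h1 : l ∈ Wn L m) (h2 : l ∈ Wn L n) : m = n := by
  induction m generalizing n l with
  | zero =>
    rw [mem_Wn_zero] at h1
    subst h1
    cases n with
    | zero => rfl
    | succ n =>
      obtain ⟨b, hb, r, hr, h⟩ := mem_Wn_succ.1 h2
      exact absurd (List.append_eq_nil_iff.1 h.symm).1 hb.2.1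
  | succ m ih =>
    obtain ⟨b, hb, r, hr, rfl⟩ := mem_Wn_succ.1 h1
    cases n with
    | zero => exact absurd (List.append_eq_nil_iff.1 (mem_Wn_zero.1 h2)).1 hb.2.1
    | succ n =>
      obtain ⟨b', hb', r', hr', h⟩ := mem_Wn_succ.1 h2
      obtain ⟨rfl, rfl⟩ := Ir_append_inj hb (Br_up (Wn_subset_Br hr)) hb'
        (Br_up (Wn_subset_Br hr')) h
      rw [ih hr hr']

lemma exists_Wn {l : List (Dir d)} (hl : l ∈ Br L) : ∃ n, l ∈ Wn L n := by
  induction hk : l.length using Nat.strong_induction_on generalizing l with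
  | _ k ih =>
    by_cases h0 : l = []
    · exact ⟨0, mem_Wn_zero.2 h0⟩
    · obtain ⟨b, hb, r, hr, rfl⟩ := exists_Ir hl h0
      have hlt : r.length < k := by
        rw [← hk, List.length_append]
        have := List.length_pos_iff.2 hb.2.1
        omega
      obtain ⟨n, hn⟩ := ih _ hlt hr rfl
      exact ⟨n + 1, b, hb, r, hn, rfl⟩

/-- A path has a unique initial segment in `Wn L m` that is followed by a bridge. -/
lemma Wn_append_inj {m : ℕ} {a r a' r' : List (Dir d)} (ha : a ∈ Wn L m)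
    (hr : ∀ x ∈ exits 0 r, 0 ≤ L x) (ha' : a' ∈ Wn L m) (hr' : ∀ x ∈ exits 0 r', 0 ≤ L x)
    (h : a ++ r = a' ++ r') : a = a' ∧ r = r' := by
  have key : ∀ {a r a' r' : List (Dir d)}, a ∈ Wn L m → (∀ x ∈ exits 0 r, 0 ≤ L x) →
      a' ∈ Wn L m → a ++ r = a' ++ r' → a.length ≤ a'.length → a = a' ∧ r = r' := by
    intro a r a' r' ha hr ha' h hlen
    obtain ⟨c, rfl, rfl, hc⟩ := nest hr (Wn_subset_Br ha') h hlen
    obtain ⟨k, hk⟩ := exists_Wn hc
    have h1 := Wn_unique ha' (Wn_append ha hk)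
    have hk0 : k = 0 := by omega
    subst hk0
    rw [mem_Wn_zero] at hk
    subst hk
    simp
  rcases le_total a.length a'.length with hlen | hlen
  · exact key ha hr ha' h hlen
  · obtain ⟨h1, h2⟩ := key ha' hr' ha h.symm hlen
    exact ⟨h1.symm, h2.symm⟩

/-- Sum over the nonempty bridges, or over the words with `n + 1` blocks. -/
lemma tsum_Wn_succ (n : ℕ) (F : List (Dir d) → ℝ≥0∞) :
    ∑' l : Wn L (n + 1), F l = ∑' b : Ir L, ∑' r : Wn L n, F (b.1 ++ r.1) := by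
  let f : (Σ _ : Ir L, Wn L n) → Wn L (n + 1) := fun p =>
    ⟨p.1.1 ++ p.2.1, ⟨p.1.1, p.1.2, p.2.1, p.2.2, rfl⟩⟩
  have hf : Function.Bijective f := by
    constructor
    · rintro ⟨⟨b, hb⟩, ⟨r, hr⟩⟩ ⟨⟨b', hb'⟩, ⟨r', hr'⟩⟩ h
      obtain ⟨rfl, rfl⟩ := Ir_append_inj hb (Br_up (Wn_subset_Br hr)) hb'
        (Br_up (Wn_subset_Br hr')) (congrArg Subtype.val h)
      rfl
    · rintro ⟨l, b, hb, r, hr, rfl⟩
      exact ⟨⟨⟨b, hb⟩, ⟨r, hr⟩⟩, rfl⟩
  rw [← (Equiv.ofBijective f hf).tsum_eq (fun l : Wn L (n + 1) => F l), ENNReal.tsum_sigma']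
  rfl

/-- Sum over the words with `n` blocks. -/
lemma tsum_Wn (μ : Measure (Row d)) [IsProbabilityMeasure μ] (n : ℕ)
    (Φ : List (Dir d) → ℝ≥0∞) :
    ∑' l : Wn L n, wt μ l.1 * Φ l.1 = En μ L n Φ := by
  induction n generalizing Φ with
  | zero =>
    have h := tsum_singleton ([] : List (Dir d)) (fun l => wt μ l * Φ l)
    rw [wt_nil, one_mul] at h
    exact h
  | succ n ih =>
    rw [tsum_Wn_succ n (fun l => wt μ l * Φ l), En]
    refine tsum_congr fun b => ?_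
    rw [← ih, ← ENNReal.tsum_mul_left]
    refine tsum_congr fun r => ?_
    rw [wt_append_Br μ b.2.1 (Br_up (Wn_subset_Br r.2)), mul_assoc]

lemma iUnion_Wn : ⋃ n, Wn L n = Br L := by
  ext l
  rw [Set.mem_iUnion]
  exact ⟨fun ⟨_, hn⟩ => Wn_subset_Br hn, exists_Wn⟩

/-- Sum over all bridges, by the number of blocks. -/
lemma tsum_Br (F : List (Dir d) → ℝ≥0∞) :
    ∑' l : Br L, F l = ∑' n : ℕ, ∑' l : Wn L n, F l := by
  rw [← iUnion_Wn]
  have hd : Pairwise (Function.onFun Disjoint (Wn L)) := by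
    intro m n hmn
    rw [Function.onFun, Set.disjoint_left]
    exact fun l h1 h2 => hmn (Wn_unique h1 h2)
  rw [← (Set.unionEqSigmaOfDisjoint hd).symm.tsum_eq (fun l : (⋃ n, Wn L n : Set _) => F l),
    ENNReal.tsum_sigma']
  rfl

/-- Sum over all bridges, as a sum over the number of blocks. -/
lemma tsum_Br_words (μ : Measure (Row d)) [IsProbabilityMeasure μ] (Φ : List (Dir d) → ℝ≥0∞) :
    ∑' l : Br L, wt μ l.1 * Φ l.1 = ∑' n : ℕ, En μ L n Φ := by
  rw [tsum_Br (fun l => wt μ l * Φ l)]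
  exact tsum_congr fun n => tsum_Wn μ n Φ

end Vale.Agent.P147.Z
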