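import Vale.Agent.P147.Z.Base

/-!
# Directional zero-one law: tools

Elementary facts on the path sets of `Base`: prefix-free sets, sums over continuations, first
passage segments, the box, and killing weights.
-/

open MeasureTheory
open scoped ENNReal

namespace Vale.Agent.P147.Z

variable {d : ℕ}

/-! ### Departure sites -/

lemma mem_exits_take {x y : Site d} {l : List (Dir d)} :
    y ∈ exits x l ↔ ∃ i < l.length, y = x + dsp (l.take i) := by
  rw [mem_exits]
  constructor
  · rintro ⟨a, b, rfl, hb, rfl⟩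
    refine ⟨a.length, ?_, by simp⟩
    have : 0 < b.length := List.length_pos_iff.2 hb
    simp only [List.length_append]
    omega
  · rintro ⟨i, hi, rfl⟩
    refine ⟨l.take i, l.drop i, (List.take_append_drop i l).symm, ?_, rfl⟩
    intro h
    have := congrArg List.length h
    simp only [List.length_drop, List.length_nil] at this
    omega

lemma exits_subset_append_left (x : Site d) (a b : List (Dir d)) :
    exits x a ⊆ exits x (a ++ b) := by
  rw [exits_append]
  exact Finset.subset_union_left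

lemma exits_subset_append_right (x : Site d) (a b : List (Dir d)) :
    exits (x + dsp a) b ⊆ exits x (a ++ b) := by
  rw [exits_append]
  exact Finset.subset_union_right

lemma exits_take_subset (x : Site d) (l : List (Dir d)) (i : ℕ) :
    exits x (l.take i) ⊆ exits x l := by
  conv_rhs => rw [← List.take_append_drop i l]
  exact exits_subset_append_left _ _ _

lemma start_mem_exits (x : Site d) {l : List (Dir d)} (hl : l ≠ []) : x ∈ exits x l := by
  cases l with
  | nil => exact absurd rfl hl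
  | cons u l => simp

lemma end_mem_exits (x : Site d) (a : List (Dir d)) {b : List (Dir d)} (hb : b ≠ []) :
    x + dsp a ∈ exits x (a ++ b) :=
  mem_exits.2 ⟨a, b, rfl, hb, rfl⟩

lemma mem_exits_shift {x y : Site d} {l : List (Dir d)} :
    y ∈ exits x l ↔ y - x ∈ exits 0 l := by
  have h := exits_add (0 : Site d) x l
  rw [zero_add] at h
  rw [h, Finset.mem_image]
  constructor
  · rintro ⟨a, ha, rfl⟩
    rwa [add_sub_cancel_right]
  · intro h
    exact ⟨y - x, h, by simp⟩

lemma card_exits_le (x : Site d) (l : List (Dir d)) : (exits x l).card ≤ l.length := by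
  induction l generalizing x with
  | nil => simp
  | cons u l ih =>
    rw [exits_cons, List.length_cons]
    exact (Finset.card_insert_le _ _).trans (Nat.add_le_add_right (ih _) 1)

/-! ### Prefix-free sets -/

lemma free_mono {S T : Set (List (Dir d))} (h : S ⊆ T) (hT : Free T) : Free S :=
  fun a ha b hab => hT a (h ha) b (h hab)

/-- In a prefix-free set, two prefixes of the same list are equal. -/
lemma free_unique {S : Set (List (Dir d))} (hS : Free S) {a b c e : List (Dir d)} (ha : a ∈ S)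
    (hb : b ∈ S) (h : a ++ c = b ++ e) : a = b ∧ c = e := by
  have key : a = b := by
    rcases List.append_eq_append_iff.1 h with ⟨r, rfl, rfl⟩ | ⟨r, rfl, rfl⟩
    · rw [hS a ha r hb, List.append_nil]
    · rw [hS b hb r ha, List.append_nil]
  subst key
  exact ⟨rfl, List.append_cancel_left h⟩

lemma Fp_free (L : Site d →+ ℝ) (r : ℝ) : Free (Fp L r) := by
  intro a ha b hab
  by_contra hb
  have h1 := (hab.1 _ (end_mem_exits 0 a hb)).2
  rw [zero_add] at h1
  exact absurd ha.2 (not_le.2 h1)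

lemma Ds_free (L : Site d →+ ℝ) (t : ℝ) (v : Site d) : Free (Ds L t v) := by
  intro a ha b hab
  by_contra hb
  have h1 := (hab.1 _ (end_mem_exits v a hb)).1
  exact absurd ha.2 (not_le.2 h1)

lemma Td_free (L : Site d →+ ℝ) (l1 : ℝ) (z : Site d) : Free (Td L l1 z) := by
  rintro _ ⟨β₁, h1, β₂, h2, rfl⟩ c ⟨γ₁, g1, γ₂, g2, he⟩
  rw [List.append_assoc] at he
  obtain ⟨rfl, he'⟩ := free_unique (Fp_free (-L) (L z - l1)) h1 g1 he
  rw [← he'] at g2
  exact Fp_free _ _ _ h2 _ g2

lemma Rch_free (L : Site d →+ ℝ) (n : ℝ) (R : ℕ) : Free (Rch L n R) := by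
  intro a ha b hab
  by_contra hb
  have h1 := (hab.1 _ (end_mem_exits 0 a hb)).2
  rw [zero_add] at h1
  exact ha.2.2 h1

/-! ### Sums over the continuations of a prefix -/

section law

variable (μ : Measure (Row d)) [IsProbabilityMeasure μ]

lemma tl_tsum_qw_le_one {S : Set (List (Dir d))} (hS : Free S) (ω : Env d) (x : Site d) :
    ∑' l : S, qw ω x (l : List (Dir d)) ≤ 1 := by
  simp only [← quenched_cyl]
  rw [← measure_iUnion]
  · exact prob_le_one
  · intro a b hab
    exact cyl_disjoint hS a.2 b.2 (fun h => hab (Subtype.ext h))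
  · intro a
    exact measurableSet_cyl _ _

lemma free_continuations {S : Set (List (Dir d))} (hS : Free S) (a : List (Dir d)) :
    Free {c : List (Dir d) | a ++ c ∈ S} := by
  intro b hb c hc
  have hc' : (a ++ b) ++ c ∈ S := by rw [List.append_assoc]; exact hc
  exact hS _ hb c hc'

omit [IsProbabilityMeasure μ] in
lemma tsum_append_le_of_free {S : Set (List (Dir d))} (hS : Free S) (a : List (Dir d)) :
    ∑' c : S, wt μ (a ++ c.1) ≤ wt μ a := by
  simp only [wt, qw_append]
  rw [← lintegral_tsum (f := fun (c : S) (ω : Env d) =>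
    qw ω 0 a * qw ω (0 + dsp a) (c : List (Dir d)))
    fun c => ((measurable_qw 0 a).mul (measurable_qw (0 + dsp a) (c : List (Dir d)))).aemeasurable]
  refine lintegral_mono fun ω => ?_
  rw [ENNReal.tsum_mul_left]
  calc qw ω 0 a * ∑' c : S, qw ω (0 + dsp a) (c : List (Dir d)) ≤ qw ω 0 a * 1 := by
        gcongr
        exact tl_tsum_qw_le_one hS ω _
    _ = qw ω 0 a := mul_one _

omit [IsProbabilityMeasure μ] in
lemma tsum_append_le {S : Set (List (Dir d))} (hS : Free S) (a : List (Dir d)) :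
    ∑' c : {c : List (Dir d) | a ++ c ∈ S}, wt μ (a ++ c.1) ≤ wt μ a :=
  tsum_append_le_of_free μ (free_continuations hS a) a

omit [IsProbabilityMeasure μ] in
lemma Eb_le_wt (L : Site d →+ ℝ) (t : ℝ) (l : List (Dir d)) : Eb μ L t l ≤ wt μ l :=
  tsum_append_le_of_free μ (Ds_free L t (dsp l)) l

end law

/-! ### Level functions -/

lemma vec_not (u : Dir d) : vec (u.1, !u.2) = -vec u := by
  obtain ⟨i, s⟩ := u
  cases s <;> simp [vec, Pi.single_neg]

lemma Lvl.neg {L : Site d →+ ℝ} (hL : Lvl L) : Lvl (-L) := by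
  refine ⟨fun u => ?_, ?_⟩
  · rw [AddMonoidHom.neg_apply, abs_neg]
    exact hL.step u
  · obtain ⟨u, hu⟩ := hL.top
    refine ⟨(u.1, !u.2), ?_⟩
    rw [vec_not, AddMonoidHom.neg_apply, map_neg, neg_neg, hu]

lemma Lvl.le_one {L : Site d →+ ℝ} (hL : Lvl L) (u : Dir d) : L (vec u) ≤ 1 :=
  (abs_le.1 (hL.step u)).2

lemma Lvl.neg_one_le {L : Site d →+ ℝ} (hL : Lvl L) (u : Dir d) : -1 ≤ L (vec u) :=
  (abs_le.1 (hL.step u)).1

lemma Lvl.abs_dsp_le {L : Site d →+ ℝ} (hL : Lvl L) (l : List (Dir d)) :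
    |L (dsp l)| ≤ l.length := by
  induction l with
  | nil => simp only [dsp_nil, map_zero, abs_zero, List.length_nil, CharP.cast_eq_zero, Std.le_refl]
  | cons u l ih =>
    rw [dsp_cons, map_add, List.length_cons, Nat.cast_add, Nat.cast_one, add_comm]
    exact (abs_add_le _ _).trans (add_le_add ih (hL.step u))

/-- The end of a first passage path overshoots by less than `1`. -/
lemma Fp_dsp_lt {L : Site d →+ ℝ} (hL : Lvl L) {h : ℝ} (h0 : -1 < h) {γ : List (Dir d)}
    (hγ : γ ∈ Fp L h) : L (dsp γ) < h + 1 := by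
  rcases List.eq_nil_or_concat γ with rfl | ⟨a, u, rfl⟩
  · rw [dsp_nil, map_zero]
    linarith only [h0]
  · rw [List.concat_eq_append] at hγ ⊢
    have h1 := (hγ.1 _ (end_mem_exits 0 a (List.cons_ne_nil u []))).2
    rw [zero_add] at h1
    have h2 := hL.le_one u
    rw [dsp_append, dsp_cons, dsp_nil, add_zero, map_add]
    linarith

/-! ### Downward paths with a cut point -/

lemma Td_sub {L : Site d →+ ℝ} {l1 t : ℝ} {y : Site d} (h0 : 0 ≤ l1) (hy : L y < t) :
    Td L l1 y ⊆ Ds L t y := by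
  rintro _ ⟨β₁, h1, β₂, h2, rfl⟩
  have hmid : L (y + dsp β₁) ≤ L y := by
    rcases eq_or_ne β₁ [] with rfl | hne
    · simp
    · have ha := (h1.1 _ (start_mem_exits 0 hne)).2
      rw [map_zero] at ha
      have hb := h1.2
      rw [AddMonoidHom.neg_apply] at hb
      rw [map_add]
      linarith
  refine ⟨fun x hx => ?_, ?_⟩
  · rw [exits_append, Finset.mem_union] at hx
    rcases hx with hx | hx
    · rw [mem_exits_shift] at hx
      obtain ⟨ha, hb⟩ := h1.1 _ hx
      rw [AddMonoidHom.neg_apply, map_sub] at ha hb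
      exact ⟨by linarith only [h0, hb], by linarith⟩
    · rw [mem_exits_shift] at hx
      obtain ⟨ha, hb⟩ := h2.1 _ hx
      rw [AddMonoidHom.neg_apply, map_sub] at ha hb
      exact ⟨by linarith, by linarith only [hy, hmid, ha]⟩
  · have hb := h2.2
    rw [AddMonoidHom.neg_apply] at hb
    rw [dsp_append, ← add_assoc, map_add]
    linarith

lemma Td_disjoint {L : Site d →+ ℝ} {l1 a : ℝ} {y : Site d} {β₁ β₂ : List (Dir d)}
    (h1 : β₁ ∈ Fp (-L) (L y - l1)) (h2 : β₂ ∈ Fp (-L) a) :
    Disjoint (exits 0 β₁) (exits (dsp β₁) β₂) := by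
  rw [Finset.disjoint_left]
  intro x hx hx'
  rw [mem_exits_shift] at hx'
  have ha := (h1.1 _ hx).2
  have hb := (h2.1 _ hx').1
  have hc := h1.2
  rw [AddMonoidHom.neg_apply] at ha hb hc
  rw [map_sub] at hb
  linarith

section law

variable (μ : Measure (Row d)) [IsProbabilityMeasure μ]

lemma Td_weight {L : Site d →+ ℝ} {p : ℝ≥0∞} (hp : ∀ a, p ≤ fu μ (-L) a) (l1 : ℝ) (y : Site d) :
    p * p ≤ ∑' ρ : Td L l1 y, wt μ ρ.1 := by
  let f : (Σ β₁ : Fp (-L) (L y - l1), Fp (-L) (L (y + dsp β₁.1) + 1)) → Td L l1 y :=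
    fun β => ⟨β.1.1 ++ β.2.1, β.1.1, β.1.2, β.2.1, β.2.2, rfl⟩
  have hf : Function.Injective f := by
    rintro ⟨⟨b, hb⟩, ⟨c, hc⟩⟩ ⟨⟨b', hb'⟩, ⟨c', hc'⟩⟩ h
    have h' : b ++ c = b' ++ c' := congrArg Subtype.val h
    obtain ⟨rfl, rfl⟩ := free_unique (Fp_free (-L) (L y - l1)) hb hb' h'
    rfl
  calc p * p ≤ fu μ (-L) (L y - l1) * p := by gcongr; exact hp _
    _ = ∑' β₁ : Fp (-L) (L y - l1), wt μ β₁.1 * p := by rw [fu, ENNReal.tsum_mul_right]
    _ ≤ ∑' β₁ : Fp (-L) (L y - l1), ∑' β₂ : Fp (-L) (L (y + dsp β₁.1) + 1),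
          wt μ β₁.1 * wt μ β₂.1 := by
        refine ENNReal.tsum_le_tsum fun β₁ => ?_
        rw [ENNReal.tsum_mul_left]
        gcongr
        exact hp _
    _ = ∑' β₁ : Fp (-L) (L y - l1), ∑' β₂ : Fp (-L) (L (y + dsp β₁.1) + 1),
          wt μ (β₁.1 ++ β₂.1) := by
        refine tsum_congr fun β₁ => tsum_congr fun β₂ => ?_
        rw [wt_append μ (Td_disjoint β₁.2 β₂.2)]
    _ = ∑' β, wt μ (f β).1 := by rw [ENNReal.tsum_sigma']
    _ ≤ ∑' ρ : Td L l1 y, wt μ ρ.1 :=
        ENNReal.tsum_comp_le_tsum_of_injective hf (fun ρ : Td L l1 y => wt μ ρ.1)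

lemma Td_weight_le_one (L : Site d →+ ℝ) (l1 : ℝ) (y : Site d) :
    ∑' ρ : Td L l1 y, wt μ ρ.1 ≤ 1 :=
  tsum_wt_le_one μ (Td_free L l1 y)

lemma Ds_weight_le_one (L : Site d →+ ℝ) (t : ℝ) (v : Site d) :
    ∑' ρ : Ds L t v, wt μ ρ.1 ≤ 1 :=
  tsum_wt_le_one μ (Ds_free L t v)

lemma fu_le_one (L : Site d →+ ℝ) (a : ℝ) : fu μ L a ≤ 1 :=
  tsum_wt_le_one μ (Fp_free L a)

end law

/-! ### The box -/

lemma tl_mem_bx {R : ℕ} {x : Site d} : x ∈ bx d R ↔ ∀ i, -(R : ℤ) ≤ x i ∧ x i ≤ R := by
  simp only [bx, Fintype.mem_piFinset, Finset.mem_Icc]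

lemma tl_card_bx (d R : ℕ) : (bx d R).card = (2 * R + 1) ^ d := by
  simp only [bx, Fintype.card_piFinset, Int.card_Icc, Finset.prod_const, Finset.card_univ,
    Fintype.card_fin]
  congr 1
  (clear * -; omega)

lemma tl_card_bx_le (d R : ℕ) : (bx d R).card ≤ (2 * R + 1) ^ d := (tl_card_bx d R).le

lemma tl_bx_mono {R S : ℕ} (h : R ≤ S) : bx d R ⊆ bx d S := by
  intro x hx
  rw [tl_mem_bx] at hx ⊢
  intro i
  have := hx i
  have h' : (R : ℤ) ≤ S := by exact_mod_cast h
  exact ⟨by linarith only [h, this], by linarith only [h, this]⟩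

lemma tl_zero_mem_bx (R : ℕ) : (0 : Site d) ∈ bx d R := by
  rw [tl_mem_bx]
  intro i
  simp only [Pi.zero_apply, Left.neg_nonpos_iff, Nat.cast_nonneg, and_self]

lemma tl_vec_mem_bx (u : Dir d) : vec u ∈ bx d 1 := by
  rw [tl_mem_bx]
  intro i
  obtain ⟨j, s⟩ := u
  rcases eq_or_ne i j with rfl | hij
  · cases s <;> simp [vec]
  · simp only [Nat.cast_one, Int.reduceNeg, vec, Pi.single_eq_of_ne hij, Left.neg_nonpos_iff, zero_le_one, and_self]

lemma tl_add_mem_bx {R S : ℕ} {x y : Site d} (hx : x ∈ bx d R) (hy : y ∈ bx d S) :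
    x + y ∈ bx d (R + S) := by
  rw [tl_mem_bx] at hx hy ⊢
  intro i
  have h1 := hx i
  have h2 := hy i
  rw [Pi.add_apply, Nat.cast_add]
  exact ⟨by linarith only [h1, h2], by linarith only [h1, h2]⟩

lemma tl_dsp_mem_bx (l : List (Dir d)) : dsp l ∈ bx d l.length := by
  induction l with
  | nil => exact tl_zero_mem_bx _
  | cons u l ih =>
    rw [dsp_cons, List.length_cons, add_comm l.length 1]
    exact tl_add_mem_bx (tl_vec_mem_bx u) ih

/-! ### Starting segments up to a first passage -/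

lemma fpre_append_drop (L : Site d →+ ℝ) (h : ℝ) (l : List (Dir d)) :
    fpre L h l ++ l.drop (fpre L h l).length = l := by
  rw [fpre, List.length_take]
  rcases le_total (sInf {i | h ≤ L (dsp (l.take i))}) l.length with hle | hle
  · rw [min_eq_left hle, List.take_append_drop]
  · rw [min_eq_right hle, List.drop_length, List.append_nil, List.take_of_length_le hle]

lemma exists_fpre (L : Site d →+ ℝ) (h : ℝ) (l : List (Dir d)) :
    ∃ r, l = fpre L h l ++ r :=
  ⟨_, (fpre_append_drop L h l).symm⟩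

lemma exits_fpre_subset (L : Site d →+ ℝ) (h : ℝ) (x : Site d) (l : List (Dir d)) :
    exits x (fpre L h l) ⊆ exits x l :=
  exits_take_subset _ _ _

/-- The starting segment is the one prefix that is a first passage path. -/
lemma fpre_append {L : Site d →+ ℝ} {h : ℝ} {a : List (Dir d)} (ha : a ∈ Fp L h)
    (b : List (Dir d)) : fpre L h (a ++ b) = a := by
  have hm : a.length ∈ {i | h ≤ L (dsp ((a ++ b).take i))} := by
    simp only [Set.mem_ofPred_eq, List.take_left']
    exact ha.2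
  have hk : sInf {i | h ≤ L (dsp ((a ++ b).take i))} = a.length := by
    refine le_antisymm (Nat.sInf_le hm) ?_
    refine le_csInf ⟨_, hm⟩ fun i hi => ?_
    by_contra hlt
    push Not at hlt
    simp only [Set.mem_ofPred_eq] at hi
    have hmem : dsp ((a ++ b).take i) ∈ exits 0 a := by
      rw [mem_exits_take]
      refine ⟨i, hlt, ?_⟩
      rw [zero_add, List.take_append_of_le_length hlt.le]
    exact absurd hi (not_le.2 (ha.1 _ hmem).2)
  rw [fpre, hk]
  exact List.take_left' rfl

lemma fpre_mem {L : Site d →+ ℝ} {h N : ℝ} (hN : h ≤ N) {π : List (Dir d)} (hπ : π ∈ Fp L N) :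
    fpre L h π ∈ Fp L h := by
  have hne : π.length ∈ {i | h ≤ L (dsp (π.take i))} := by
    simp only [Set.mem_ofPred_eq, List.take_length]
    exact hN.trans hπ.2
  refine ⟨fun x hx => ⟨(hπ.1 _ (exits_fpre_subset L h 0 π hx)).1, ?_⟩, ?_⟩
  · rw [mem_exits_take] at hx
    obtain ⟨i, hi, rfl⟩ := hx
    rw [fpre, List.length_take] at hi
    rw [zero_add, fpre, List.take_take, min_eq_left (by omega)]
    have := Nat.notMem_of_lt_sInf (lt_of_lt_of_le hi (min_le_left _ _))
    simpa using this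
  · exact Nat.sInf_mem ⟨_, hne⟩

lemma fpre_dsp_lt {L : Site d →+ ℝ} (hL : Lvl L) {h N : ℝ} (h0 : -1 < h) (hN : h ≤ N)
    {π : List (Dir d)} (hπ : π ∈ Fp L N) : L (dsp (fpre L h π)) < h + 1 :=
  Fp_dsp_lt hL h0 (fpre_mem hN hπ)

/-! ### Killing weights -/

section law

variable (μ : Measure (Row d))

open Classical in
lemma kill_mono_right (T : Set (List (Dir d))) (z : Site d) {S S' : Finset (Site d)}
    (h : S ⊆ S') : kill μ T z S ≤ kill μ T z S' := by
  refine ENNReal.tsum_le_tsum fun ρ => ?_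
  by_cases h1 : Disjoint (exits z ρ.1) S
  · rw [if_pos h1]
    exact zero_le
  · rw [if_neg h1, if_neg fun h2 => h1 (Finset.disjoint_of_subset_right h h2)]

open Classical in
lemma kill_mono_left {T T' : Set (List (Dir d))} (h : T ⊆ T') (z : Site d)
    (S : Finset (Site d)) : kill μ T z S ≤ kill μ T' z S := by
  exact ENNReal.tsum_mono_subtype
    (fun ρ : List (Dir d) => if Disjoint (exits z ρ) S then 0 else wt μ ρ) h

open Classical in
lemma kill_le_tsum (T : Set (List (Dir d))) (z : Site d) (S : Finset (Site d)) :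
    kill μ T z S ≤ ∑' ρ : T, wt μ ρ.1 := by
  refine ENNReal.tsum_le_tsum fun ρ => ?_
  split_ifs
  · exact zero_le
  · exact le_rfl

open Classical in
lemma kill_empty (T : Set (List (Dir d))) (z : Site d) : kill μ T z ∅ = 0 := by
  simp only [kill, Finset.disjoint_empty_right, ↓reduceIte, tsum_zero]

open Classical in
lemma kill_union_le (T : Set (List (Dir d))) (z : Site d) (S S' : Finset (Site d)) :
    kill μ T z (S ∪ S') ≤ kill μ T z S + kill μ T z S' := by
  rw [kill, kill, kill, ← ENNReal.tsum_add]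
  refine ENNReal.tsum_le_tsum fun ρ => ?_
  by_cases h1 : Disjoint (exits z ρ.1) S
  · by_cases h2 : Disjoint (exits z ρ.1) S'
    · rw [if_pos h1, if_pos h2, if_pos (Finset.disjoint_union_right.2 ⟨h1, h2⟩)]
      exact zero_le
    · rw [if_neg h2]
      split_ifs
      · exact zero_le
      · exact le_add_self
  · rw [if_neg h1]
    refine le_trans ?_ (le_self_add (a := wt μ ρ.1) (b := _))
    split_ifs
    · exact zero_le
    · exact le_rfl

lemma kill_le_one [IsProbabilityMeasure μ] {T : Set (List (Dir d))} (hT : Free T) (z : Site d)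
    (S : Finset (Site d)) : kill μ T z S ≤ 1 :=
  (kill_le_tsum μ T z S).trans (tsum_wt_le_one μ hT)

end law

end Vale.Agent.P147.Z
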