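import Vale.Agent.P147.Z.Growth
import Vale.Agent.P147.Z.Atoms
import Vale.Agent.P147.Z.Tools
import Vale.Agent.P147.Z.Fact
import Vale.Agent.P147.Z.BlocksB

/-!
# A far downward path does not meet the beginning of the upward path
-/

set_option linter.all false

open MeasureTheory
open scoped ENNReal

namespace Vale.Agent.P147.Z

variable {d : ℕ} (μ : Measure (Row d)) [IsProbabilityMeasure μ]

namespace SF

open Classical in
/-- Only the second half of a downward path can meet a low set. -/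
lemma kill_Td_le {L : Site d →+ ℝ} {l1 : ℝ} {z : Site d} {S : Finset (Site d)}
    (hS : ∀ x ∈ S, L x ≤ l1) :
    kill μ (Td L l1 z) z S ≤ ∑' β : Fp (-L) (L z - l1), wt μ β.1 *
      kill μ (Fp (-L) (L (z + dsp β.1) + 1)) (z + dsp β.1) S := by
  let f : (Σ β₁ : Fp (-L) (L z - l1), Fp (-L) (L (z + dsp β₁.1) + 1)) → Td L l1 z :=
    fun β => ⟨β.1.1 ++ β.2.1, β.1.1, β.1.2, β.2.1, β.2.2, rfl⟩
  have hf : Function.Surjective f := by
    rintro ⟨_, β₁, h1, β₂, h2, rfl⟩
    exact ⟨⟨⟨β₁, h1⟩, ⟨β₂, h2⟩⟩, rfl⟩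
  rw [kill]
  refine (ENNReal.tsum_le_tsum_comp_of_surjective hf _).trans ?_
  rw [ENNReal.tsum_sigma']
  refine ENNReal.tsum_le_tsum fun β₁ => ?_
  rw [kill, ← ENNReal.tsum_mul_left]
  refine ENNReal.tsum_le_tsum fun β₂ => ?_
  change (if Disjoint (exits z (β₁.1 ++ β₂.1)) S then 0 else wt μ (β₁.1 ++ β₂.1)) ≤ _
  have h1 : Disjoint (exits z β₁.1) S := by
    rw [Finset.disjoint_left]
    intro x hx hxS
    rw [mem_exits_shift] at hx
    have ha := (β₁.2.1 _ hx).2
    rw [AddMonoidHom.neg_apply, map_sub] at ha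
    have := hS x hxS
    linarith
  by_cases h2 : Disjoint (exits (z + dsp β₁.1) β₂.1) S
  · have h3 : Disjoint (exits z (β₁.1 ++ β₂.1)) S := by
      rw [exits_append, Finset.disjoint_union_left]
      exact ⟨h1, h2⟩
    rw [if_pos h3]
    exact zero_le
  · have h3 : ¬ Disjoint (exits z (β₁.1 ++ β₂.1)) S := by
      rw [exits_append, Finset.disjoint_union_left]
      exact fun h => h2 h.2
    rw [if_neg h2, if_neg h3, wt_append μ (Td_disjoint β₁.2 β₂.2)]

open Classical in
/-- A first passage path that leaves the box has a prefix that reaches the boundary of the box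
inside the slab. -/
lemma out_le {L : Site d →+ ℝ} {a : ℝ} {N R : ℕ} (ha : a ≤ N) :
    ∑' β : Fp L a, (if exits 0 β.1 ⊆ bx d R then 0 else wt μ β.1) ≤
      ∑' π : Rch L (N : ℝ) R, wt μ π.1 := by
  have key : ∀ β ∈ Fp L a, ¬ exits 0 β ⊆ bx d R →
      ∃ π ∈ Rch L (N : ℝ) R, ∃ c, β = π ++ c := by
    intro β hβ hb
    rw [Finset.not_subset] at hb
    obtain ⟨x, hx, hxb⟩ := hb
    rw [mem_exits_take] at hx
    have hex : ∃ i, i < β.length ∧ dsp (β.take i) ∉ bx d R := by
      obtain ⟨i, hi, rfl⟩ := hx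
      refine ⟨i, hi, ?_⟩
      rwa [zero_add] at hxb
    have hmin := Nat.find_spec hex
    refine ⟨β.take (Nat.find hex), ⟨fun y hy => ?_, ?_, hmin.2⟩, β.drop (Nat.find hex),
      (List.take_append_drop _ _).symm⟩
    · rw [mem_exits_take] at hy
      obtain ⟨j, hj, rfl⟩ := hy
      rw [List.length_take] at hj
      have hj1 : j < Nat.find hex := lt_of_lt_of_le hj (min_le_left _ _)
      have hj2 : j < β.length := lt_of_lt_of_le hj (min_le_right _ _)
      rw [List.take_take, min_eq_left hj1.le, zero_add]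
      have hmem : dsp (β.take j) ∈ exits 0 β := by
        rw [mem_exits_take]
        exact ⟨j, hj2, by rw [zero_add]⟩
      have hlev := hβ.1 _ hmem
      refine ⟨⟨by linarith, by linarith⟩, ?_⟩
      by_contra hc
      exact Nat.find_min hex hj1 ⟨hj2, hc⟩
    · have hmem : dsp (β.take (Nat.find hex)) ∈ exits 0 β := by
        rw [mem_exits_take]
        exact ⟨_, hmin.1, by rw [zero_add]⟩
      have hlev := hβ.1 _ hmem
      exact ⟨by linarith, by linarith⟩
  calc ∑' β : Fp L a, (if exits 0 β.1 ⊆ bx d R then 0 else wt μ β.1)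
      ≤ ∑' s : (Σ π : Rch L (N : ℝ) R, {c : List (Dir d) | π.1 ++ c ∈ Fp L a}),
          wt μ (s.1.1 ++ s.2.1) := by
        have h1 : ∑' β : Fp L a, (if exits 0 β.1 ⊆ bx d R then 0 else wt μ β.1) =
            ∑' β : {β : List (Dir d) | β ∈ Fp L a ∧ ¬ exits 0 β ⊆ bx d R}, wt μ β.1 := by
          rw [tsum_subtype (Fp L a) (fun β => if exits 0 β ⊆ bx d R then 0 else wt μ β),
            tsum_subtype {β : List (Dir d) | β ∈ Fp L a ∧ ¬ exits 0 β ⊆ bx d R}
              (fun β => wt μ β)]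
          refine tsum_congr fun β => ?_
          by_cases hβ : β ∈ Fp L a
          · by_cases hb : exits 0 β ⊆ bx d R
            · rw [Set.indicator_of_mem hβ, if_pos hb, Set.indicator_of_notMem]
              exact fun h => h.2 hb
            · rw [Set.indicator_of_mem hβ, if_neg hb, Set.indicator_of_mem]
              exact ⟨hβ, hb⟩
          · rw [Set.indicator_of_notMem hβ, Set.indicator_of_notMem]
            exact fun h => hβ h.1
        rw [h1]
        choose! pr hpr tl htl using key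
        let g : {β : List (Dir d) | β ∈ Fp L a ∧ ¬ exits 0 β ⊆ bx d R} →
            (Σ π : Rch L (N : ℝ) R, {c : List (Dir d) | π.1 ++ c ∈ Fp L a}) :=
          fun β => ⟨⟨pr β.1, hpr β.1 β.2.1 β.2.2⟩, ⟨tl β.1, by
            show pr β.1 ++ tl β.1 ∈ Fp L a
            rw [← htl β.1 β.2.1 β.2.2]
            exact β.2.1⟩⟩
        have hval : ∀ β, (g β).1.1 ++ (g β).2.1 = β.1 := fun β =>
          (htl β.1 β.2.1 β.2.2).symm
        have hg : Function.Injective g := by
          intro β β' h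
          apply Subtype.ext
          rw [← hval β, ← hval β', h]
        calc ∑' β : {β : List (Dir d) | β ∈ Fp L a ∧ ¬ exits 0 β ⊆ bx d R}, wt μ β.1
            = ∑' β, wt μ ((g β).1.1 ++ (g β).2.1) := tsum_congr fun β => by rw [hval β]
          _ ≤ _ := ENNReal.tsum_comp_le_tsum_of_injective hg
              (fun s : (Σ π : Rch L (N : ℝ) R, {c : List (Dir d) | π.1 ++ c ∈ Fp L a}) =>
                wt μ (s.1.1 ++ s.2.1))
    _ = ∑' π : Rch L (N : ℝ) R, ∑' c : {c : List (Dir d) | π.1 ++ c ∈ Fp L a},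
          wt μ (π.1 ++ c.1) := ENNReal.tsum_sigma' _
    _ ≤ ∑' π : Rch L (N : ℝ) R, wt μ π.1 :=
        ENNReal.tsum_le_tsum fun π => tsum_append_le μ (Fp_free L a) π.1

open Classical in
/-- Atoms of the end of a first passage path. -/
lemma atom_le (L : Site d →+ ℝ) (a : ℝ) (y : Site d) :
    ∑' β : Fp L a, (if dsp β.1 = y then wt μ β.1 else 0) ≤
      ∑' n : ℕ, ((kap μ L) ^ n).v y := by
  calc ∑' β : Fp L a, (if dsp β.1 = y then wt μ β.1 else 0)
      ≤ ∑' β : Br L, (if dsp β.1 = y then wt μ β.1 else 0) := by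
        have hsub : Fp L a ⊆ Br L := fun l hl => Fp_subset_Br hl
        exact ENNReal.tsum_mono_subtype
          (fun β : List (Dir d) => if dsp β = y then wt μ β else 0) hsub
    _ = ∑' β : Br L, wt μ β.1 * (if dsp β.1 = y then 1 else 0) := by
        refine tsum_congr fun β => ?_
        rw [mul_ite, mul_one, mul_zero]
    _ = ∑' n : ℕ, En μ L n (fun l => if dsp l = y then 1 else 0) :=
        tsum_Br_words μ (fun l => if dsp l = y then 1 else 0)
    _ = ∑' n : ℕ, ((kap μ L) ^ n).v y := by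
        refine tsum_congr fun n => ?_
        rw [En_dsp μ n (fun x => if x = y then (1 : ℝ≥0∞) else 0), tsum_eq_single y]
        · rw [if_pos rfl, mul_one]
        · intro x hx
          rw [if_neg hx, mul_zero]

open Classical in
/-- A fixed finite low set is met by a downward path from far above with small weight. -/
lemma fin_set {L : Site d →+ ℝ} (hL : Lvl L) (hd : 2 ≤ d) (hμ : Elliptic μ)
    {p : ℝ≥0∞} (hp0 : p ≠ 0) (hp : ∀ a, p ≤ fu μ (-L) a) (l1 : ℝ) (S : Finset (Site d))
    (hS : ∀ x ∈ S, L x ≤ l1) (ε : ℝ≥0∞) (hε : ε ≠ 0) :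
    ∃ M0 : ℝ, ∀ z : Site d, M0 ≤ L z → kill μ (Td L l1 z) z S ≤ ε := by
  have hLn : Lvl (-L) := hL.neg
  have hε2 : ε / 2 ≠ 0 := (ENNReal.half_pos hε).ne'
  -- the box of the set
  obtain ⟨Rs, hRs⟩ : ∃ Rs : ℕ, S ⊆ bx d Rs := by
    refine ⟨∑ x ∈ S, ∑ i, (x i).natAbs, fun x hx => ?_⟩
    rw [tl_mem_bx]
    intro i
    have h1 : (x i).natAbs ≤ ∑ i, (x i).natAbs :=
      Finset.single_le_sum (f := fun i => (x i).natAbs) (fun _ _ => Nat.zero_le _)
        (Finset.mem_univ i)
    have h2 : ∑ i, (x i).natAbs ≤ ∑ x ∈ S, ∑ i, (x i).natAbs :=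
      Finset.single_le_sum (f := fun x : Site d => ∑ i, (x i).natAbs)
        (fun _ _ => Nat.zero_le _) hx
    omega
  -- tightness
  obtain ⟨K, n0, hK⟩ := growth μ hLn hμ hp0 hp
  obtain ⟨N, hN1, hN2, hN3⟩ : ∃ N : ℕ, n0 ≤ N ∧ l1 + 1 ≤ (N : ℝ) ∧
      ((N : ℝ≥0∞) ^ 2)⁻¹ ≤ ε / 2 := by
    have ht : Filter.Tendsto (fun n : ℕ => (n : ℝ≥0∞)⁻¹) Filter.atTop (nhds 0) :=
      ENNReal.tendsto_inv_nat_nhds_zero
    have h1 : ∀ᶠ n : ℕ in Filter.atTop, (n : ℝ≥0∞)⁻¹ ≤ ε / 2 :=
      (ht.eventually (Iio_mem_nhds (ENNReal.half_pos hε))).mono fun n hn => le_of_lt hn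
    obtain ⟨N1, hN1⟩ := Filter.eventually_atTop.1 h1
    obtain ⟨N2, hN2⟩ := exists_nat_ge (l1 + 1)
    refine ⟨max (max n0 N1) (max N2 1), ?_, ?_, ?_⟩
    · exact (le_max_left _ _).trans (le_max_left _ _)
    · have : (N2 : ℝ) ≤ (max (max n0 N1) (max N2 1) : ℕ) := by
        exact_mod_cast (le_max_left _ _).trans (le_max_right _ _)
      linarith
    · set m := max (max n0 N1) (max N2 1)
      have hm1 : 1 ≤ m := (le_max_right _ _).trans (le_max_right _ _)
      have hm2 : N1 ≤ m := (le_max_right _ _).trans (le_max_left _ _)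
      refine le_trans ?_ (hN1 m hm2)
      rw [ENNReal.inv_le_inv]
      have : (m : ℝ≥0∞) ≤ (m : ℝ≥0∞) * m := by
        have h : m ≤ m * m := Nat.le_mul_of_pos_right m hm1
        exact_mod_cast h
      rw [sq]
      exact this
  set R : ℕ := N ^ K with hR
  -- far cut point
  have hfar : ∀ w : Site d, L w ≤ l1 → w ∉ bx d (Rs + R) →
      kill μ (Fp (-L) (L w + 1)) w S ≤ ε / 2 := by
    intro w hw hwb
    refine le_trans ?_ ((out_le μ (L := -L) (a := L w + 1) (N := N) (R := R)
      (by linarith)).trans ((hK N hN1).trans hN3))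
    rw [kill]
    refine ENNReal.tsum_le_tsum fun β => ?_
    by_cases h1 : Disjoint (exits w β.1) S
    · rw [if_pos h1]
      exact zero_le
    · rw [if_neg h1, if_neg]
      intro hsub
      apply h1
      rw [Finset.disjoint_left]
      intro x hx hxS
      rw [mem_exits_shift] at hx
      have h2 := hsub hx
      have h3 := hRs hxS
      apply hwb
      rw [tl_mem_bx] at h2 h3 ⊢
      intro i
      have h4 := h2 i
      have h5 := h3 i
      rw [Pi.sub_apply] at h4
      push_cast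
      constructor <;> linarith [h4.1, h4.2, h5.1, h5.2]
  -- atoms
  obtain ⟨A, hA⟩ := atoms μ hLn hd hμ hp0 hp (ε / 2 / ((bx d (Rs + R)).card : ℝ≥0∞))
    (ENNReal.div_ne_zero.2 ⟨hε2, ENNReal.natCast_ne_top _⟩)
  refine ⟨l1 + |A| + 1, fun z hz => ?_⟩
  calc kill μ (Td L l1 z) z S
      ≤ ∑' β : Fp (-L) (L z - l1), wt μ β.1 *
          kill μ (Fp (-L) (L (z + dsp β.1) + 1)) (z + dsp β.1) S := kill_Td_le μ hS
    _ ≤ ∑' β : Fp (-L) (L z - l1), (wt μ β.1 * (ε / 2) +
          if z + dsp β.1 ∈ bx d (Rs + R) then wt μ β.1 else 0) := by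
        refine ENNReal.tsum_le_tsum fun β => ?_
        by_cases hb : z + dsp β.1 ∈ bx d (Rs + R)
        · rw [if_pos hb]
          refine le_add_left ?_
          calc wt μ β.1 * kill μ (Fp (-L) (L (z + dsp β.1) + 1)) (z + dsp β.1) S
              ≤ wt μ β.1 * 1 := by
                gcongr
                exact kill_le_one μ (Fp_free _ _) _ _
            _ = wt μ β.1 := mul_one _
        · rw [if_neg hb, add_zero]
          gcongr
          refine hfar _ ?_ hb
          have h := β.2.2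
          rw [AddMonoidHom.neg_apply] at h
          rw [map_add]
          linarith
    _ = (∑' β : Fp (-L) (L z - l1), wt μ β.1) * (ε / 2) +
          ∑' β : Fp (-L) (L z - l1), (if z + dsp β.1 ∈ bx d (Rs + R) then wt μ β.1 else 0) := by
        rw [ENNReal.tsum_add, ENNReal.tsum_mul_right]
    _ ≤ 1 * (ε / 2) + ε / 2 := by
        gcongr
        · exact tsum_wt_le_one μ (Fp_free _ _)
        · calc ∑' β : Fp (-L) (L z - l1), (if z + dsp β.1 ∈ bx d (Rs + R) then wt μ β.1 else 0)
              ≤ ∑' β : Fp (-L) (L z - l1), ∑ w ∈ bx d (Rs + R),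
                  (if dsp β.1 = w - z then wt μ β.1 else 0) := by
                refine ENNReal.tsum_le_tsum fun β => ?_
                by_cases hb : z + dsp β.1 ∈ bx d (Rs + R)
                · rw [if_pos hb]
                  refine le_trans ?_ (Finset.single_le_sum
                    (f := fun w => if dsp β.1 = w - z then wt μ β.1 else 0)
                    (fun _ _ => zero_le) hb)
                  rw [if_pos (by abel)]
                · rw [if_neg hb]
                  exact zero_le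
            _ = ∑ w ∈ bx d (Rs + R), ∑' β : Fp (-L) (L z - l1),
                  (if dsp β.1 = w - z then wt μ β.1 else 0) :=
                Summable.tsum_finsetSum fun _ _ => ENNReal.summable
            _ ≤ ∑ w ∈ bx d (Rs + R), (ε / 2 / ((bx d (Rs + R)).card : ℝ≥0∞)) := by
                refine Finset.sum_le_sum fun w _ => ?_
                by_cases hw : L w ≤ l1
                · refine (atom_le μ (-L) (L z - l1) (w - z)).trans (hA _ ?_)
                  rw [AddMonoidHom.neg_apply, map_sub]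
                  have := le_abs_self A
                  linarith
                · -- no path ends there
                  refine le_of_eq_of_le ?_ zero_le
                  rw [ENNReal.tsum_eq_zero]
                  intro β
                  rw [if_neg]
                  intro he
                  have h := β.2.2
                  rw [AddMonoidHom.neg_apply, he, map_sub] at h
                  apply hw
                  linarith
            _ = ((bx d (Rs + R)).card : ℝ≥0∞) * (ε / 2 / ((bx d (Rs + R)).card : ℝ≥0∞)) := by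
                rw [Finset.sum_const, nsmul_eq_mul]
            _ ≤ ε / 2 := ENNReal.mul_div_le
    _ = ε := by rw [one_mul, ENNReal.add_halves]

end SF

open Classical in
/-- The part of the upward path below a fixed level is met by a downward path from far above with
small weight. -/
theorem start_fin {L : Site d →+ ℝ} (hL : Lvl L) (hd : 2 ≤ d) (hμ : Elliptic μ)
    {p : ℝ≥0∞} (hp0 : p ≠ 0) (hp : ∀ a, p ≤ fu μ (-L) a) (l0 l1 : ℝ) (h01 : l0 ≤ l1)
    (ε : ℝ≥0∞) (hε : ε ≠ 0) :
    ∃ M0 : ℝ, ∀ z : Site d, M0 ≤ L z →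
      ∑' γ : Fp L l0, wt μ γ.1 * kill μ (Td L l1 z) z (exits 0 γ.1) ≤ ε := by
  have hε2 : ε / 2 ≠ 0 := (ENNReal.half_pos hε).ne'
  -- a finite part carries most of the weight
  have hsum : ∑' γ : Fp L l0, wt μ γ.1 ≠ ⊤ :=
    ne_top_of_le_ne_top ENNReal.one_ne_top (tsum_wt_le_one μ (Fp_free L l0))
  obtain ⟨G, hG⟩ : ∃ G : Finset (Fp L l0), ∑' γ : {γ // γ ∉ G}, wt μ γ.1.1 ≤ ε / 2 := by
    have ht := ENNReal.tendsto_tsum_compl_atTop_zero hsum
    obtain ⟨G, hG⟩ := (ht.eventually (Iio_mem_nhds (ENNReal.half_pos hε))).exists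
    exact ⟨G, le_of_lt hG⟩
  set S : Finset (Site d) := G.biUnion fun γ => exits 0 γ.1 with hSdef
  have hS : ∀ x ∈ S, L x ≤ l1 := by
    intro x hx
    rw [hSdef, Finset.mem_biUnion] at hx
    obtain ⟨γ, _, hx⟩ := hx
    have := (γ.2.1 x hx).2
    linarith
  obtain ⟨M0, hM0⟩ := SF.fin_set μ hL hd hμ hp0 hp l1 S hS (ε / 2) hε2
  refine ⟨M0, fun z hz => ?_⟩
  have h1 : ∀ γ : Fp L l0, wt μ γ.1 * kill μ (Td L l1 z) z (exits 0 γ.1) ≤
      wt μ γ.1 * (ε / 2) + {γ : Fp L l0 | γ ∉ G}.indicator (fun γ => wt μ γ.1) γ := by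
    intro γ
    by_cases hγ : γ ∈ G
    · refine le_add_right (mul_le_mul_right ?_ _)
      refine (kill_mono_right μ _ z ?_).trans (hM0 z hz)
      exact Finset.subset_biUnion_of_mem (fun γ : Fp L l0 => exits 0 γ.1) hγ
    · rw [Set.indicator_of_mem (show γ ∈ {γ : Fp L l0 | γ ∉ G} from hγ)]
      refine le_add_left ?_
      calc wt μ γ.1 * kill μ (Td L l1 z) z (exits 0 γ.1) ≤ wt μ γ.1 * 1 :=
            mul_le_mul_right (kill_le_one μ (Td_free L l1 z) z _) _
        _ = wt μ γ.1 := mul_one _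
  have h2 : ∑' γ : Fp L l0, {γ : Fp L l0 | γ ∉ G}.indicator (fun γ => wt μ γ.1) γ ≤ ε / 2 := by
    rw [← tsum_subtype {γ : Fp L l0 | γ ∉ G} (fun γ => wt μ γ.1)]
    exact hG
  calc _ ≤ ∑' γ : Fp L l0, (wt μ γ.1 * (ε / 2) +
          {γ : Fp L l0 | γ ∉ G}.indicator (fun γ => wt μ γ.1) γ) := ENNReal.tsum_le_tsum h1
    _ = (∑' γ : Fp L l0, wt μ γ.1) * (ε / 2) +
          ∑' γ : Fp L l0, {γ : Fp L l0 | γ ∉ G}.indicator (fun γ => wt μ γ.1) γ := by
        rw [ENNReal.tsum_add, ENNReal.tsum_mul_right]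
    _ ≤ 1 * (ε / 2) + ε / 2 :=
        add_le_add (mul_le_mul_left (tsum_wt_le_one μ (Fp_free L l0)) _) h2
    _ = ε := by rw [one_mul, ENNReal.add_halves]

end Vale.Agent.P147.Z
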