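import Vale.Agent.P147.Z.Expo
import Vale.Agent.P147.Z.Tools
import Vale.Agent.P147.Z.StartFin

/-!
# The START side: a fixed far site is rarely killed by the walk
-/

open MeasureTheory
open scoped ENNReal

namespace Vale.Agent.P147.Z

variable {d : ℕ} (μ : Measure (Row d)) [IsProbabilityMeasure μ]

namespace StartC

open Expo

omit [IsProbabilityMeasure μ] in
open Classical in
lemma Ex_through {D : Set (Site d)} (γ c : List (Dir d))
    (hc : ∀ a b, c = a ++ b → b ≠ [] → dsp (γ ++ a) ∈ D) {n : ℕ} (hn : c.length ≤ n) :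
    wt μ (γ ++ c) ≤ Ex (wt μ) D (fun l' => if γ ++ c <+: l' then 1 else 0) n γ := by
  induction c generalizing γ n with
  | nil =>
    rw [List.append_nil]
    calc wt μ γ = Ex (wt μ) D (fun _ => 1) n γ := (Ex_one μ n γ).symm
      _ ≤ _ := Ex_mono n fun c => by
        rw [if_pos (List.prefix_append γ c)]
  | cons u c ih =>
    obtain ⟨n, rfl⟩ : ∃ n', n = n' + 1 := ⟨n - 1, by simp at hn; omega⟩
    have hD : dsp γ ∈ D := by simpa using hc [] (u :: c) rfl (by simp)
    rw [Ex_succ_mem hD]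
    have h1 := ih (γ ++ [u]) (fun a b hab hb => by
      have := hc (u :: a) b (by rw [hab]; rfl) hb
      simpa using this) (n := n) (by simpa using hn)
    have h2 : γ ++ [u] ++ c = γ ++ u :: c := by simp
    rw [h2] at h1
    exact h1.trans (Finset.single_le_sum
      (f := fun v => Ex (wt μ) D (fun l' => if γ ++ u :: c <+: l' then 1 else 0) n (γ ++ [v]))
      (fun v _ => zero_le) (Finset.mem_univ u))

omit [IsProbabilityMeasure μ] in
lemma Ex_sum {ι : Type*} {D : Set (Site d)} (s : Finset ι) (F : ι → List (Dir d) → ℝ≥0∞) (n : ℕ)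
    (l : List (Dir d)) :
    Ex (wt μ) D (fun l' => ∑ i ∈ s, F i l') n l = ∑ i ∈ s, Ex (wt μ) D (F i) n l := by
  classical
  induction s using Finset.induction_on with
  | empty =>
    simp only [Finset.sum_empty]
    have := Ex_const μ (D := D) 0 n l
    rw [zero_mul] at this
    exact this
  | insert a s ha ih =>
    simp only [Finset.sum_insert ha]
    rw [Ex_add, ih]

omit [IsProbabilityMeasure μ] in
open Classical in
/-- Weighted version. -/
lemma sum_through {D : Set (Site d)} {S : Set (List (Dir d))} (hS : Free S) (γ : List (Dir d))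
    (P : Finset (List (Dir d))) (hP : ∀ c ∈ P, γ ++ c ∈ S)
    (hD : ∀ c ∈ P, ∀ a b, c = a ++ b → b ≠ [] → dsp (γ ++ a) ∈ D)
    (v : List (Dir d) → ℝ≥0∞)
    (H : List (Dir d) → ℝ≥0∞) (hH : ∀ c ∈ P, ∀ e, v c ≤ H (γ ++ c ++ e)) {n : ℕ}
    (hn : ∀ c ∈ P, c.length ≤ n) :
    ∑ c ∈ P, wt μ (γ ++ c) * v c ≤ Ex (wt μ) D H n γ := by
  calc ∑ c ∈ P, wt μ (γ ++ c) * v c
      ≤ ∑ c ∈ P, Ex (wt μ) D (fun l' => v c * if γ ++ c <+: l' then 1 else 0) n γ := by
        refine Finset.sum_le_sum fun c hc => ?_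
        rw [Ex_mul_left, mul_comm]
        gcongr
        exact Ex_through μ γ c (hD c hc) (hn c hc)
    _ = Ex (wt μ) D (fun l' => ∑ c ∈ P, v c * if γ ++ c <+: l' then 1 else 0) n γ :=
        (Ex_sum μ P _ n γ).symm
    _ ≤ _ := by
        refine Ex_mono n fun e => ?_
        by_cases hex : ∃ c0 ∈ P, γ ++ c0 <+: γ ++ e
        · obtain ⟨c0, hc0, e0, he0⟩ := hex
          rw [Finset.sum_eq_single c0]
          · rw [if_pos ⟨e0, he0⟩, ← he0, mul_one]
            exact hH c0 hc0 e0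
          · intro c hc hne
            rw [if_neg, mul_zero]
            rintro ⟨e1, he1⟩
            apply hne
            have := (free_unique hS (hP c hc) (hP c0 hc0) (he1.trans he0.symm)).1
            exact List.append_cancel_left this
          · intro h; exact absurd hc0 h
        · have h0 : ∑ c ∈ P, (v c * if γ ++ c <+: γ ++ e then (1 : ℝ≥0∞) else 0) = 0 := by
            refine Finset.sum_eq_zero fun c hc => ?_
            rw [if_neg, mul_zero]
            intro hcc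
            exact hex ⟨c, hc, hcc⟩
          rw [h0]
          exact zero_le

/-- The paths from `0` that reach level at most `-1` for the first time. -/
def Bt (L : Site d →+ ℝ) : Set (List (Dir d)) :=
  {π | (∀ x ∈ exits 0 π, -1 < L x) ∧ L (dsp π) ≤ -1}

omit [IsProbabilityMeasure μ] in
lemma Bt_free (L : Site d →+ ℝ) : Free (Bt L) := by
  intro a ha b hab
  by_contra hb
  have h1 := hab.1 _ (end_mem_exits 0 a hb)
  rw [zero_add] at h1
  exact absurd ha.2 (not_le.2 h1)

/-- The walk does not come back from a great height to the bottom. -/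
lemma bot_small (L : Site d →+ ℝ) (ε : ℝ≥0∞) (hε : ε ≠ 0) :
    ∃ l0 : ℝ, 0 ≤ l0 ∧ ∀ t : ℝ, ∑' γ : Fp L l0, Eb μ L t γ.1 ≤ ε := by
  classical
  have hsum : ∑' π : Bt L, wt μ π.1 ≠ ⊤ :=
    ne_top_of_le_ne_top ENNReal.one_ne_top (tsum_wt_le_one μ (Bt_free L))
  have htail := ENNReal.tendsto_tsum_compl_atTop_zero hsum
  obtain ⟨s, hs⟩ := (htail.eventually_le_const (pos_iff_ne_zero.2 hε)).exists
  -- a level above all sites of the finite set of paths
  obtain ⟨l0, hl0, hlev⟩ : ∃ l0 : ℝ, 0 ≤ l0 ∧ ∀ π ∈ s, ∀ x ∈ exits 0 (π : List (Dir d)), L x < l0 := by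
    refine ⟨∑ π ∈ s, ∑ x ∈ exits 0 (π : List (Dir d)), |L x| + 1, ?_, ?_⟩
    · positivity
    · intro π hπ x hx
      have h1 : |L x| ≤ ∑ x ∈ exits 0 (π : List (Dir d)), |L x| :=
        Finset.single_le_sum (f := fun x => |L x|) (fun x _ => abs_nonneg _) hx
      have h2 : ∑ x ∈ exits 0 (π : List (Dir d)), |L x| ≤
          ∑ π ∈ s, ∑ x ∈ exits 0 (π : List (Dir d)), |L x| :=
        Finset.single_le_sum (f := fun π : Bt L => ∑ x ∈ exits 0 (π : List (Dir d)), |L x|)
          (fun π _ => Finset.sum_nonneg fun x _ => abs_nonneg _) hπ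
      linarith [le_abs_self (L x)]
  refine ⟨l0, hl0, fun t => ?_⟩
  refine le_trans ?_ hs
  simp only [Eb]
  rw [← ENNReal.tsum_sigma' (fun p : (Σ γ : Fp L l0, Ds L t (dsp γ.1)) => wt μ (p.1.1 ++ p.2.1))]
  have hmem : ∀ p : (Σ γ : Fp L l0, Ds L t (dsp γ.1)), p.1.1 ++ p.2.1 ∈ Bt L := by
    rintro ⟨⟨γ, hγ⟩, ⟨ρ, hρ⟩⟩
    refine ⟨fun x hx => ?_, ?_⟩
    · rw [exits_append, Finset.mem_union, zero_add] at hx
      rcases hx with hx | hx
      · linarith [(hγ.1 x hx).1]
      · exact (hρ.1 x hx).1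
    · have := hρ.2
      rwa [← dsp_append] at this
  have hns : ∀ p : (Σ γ : Fp L l0, Ds L t (dsp γ.1)),
      (⟨p.1.1 ++ p.2.1, hmem p⟩ : Bt L) ∉ s := by
    rintro ⟨⟨γ, hγ⟩, ⟨ρ, hρ⟩⟩ hin
    have hne : ρ ≠ [] := by
      rintro rfl
      have h1 := hρ.2
      rw [dsp_nil, add_zero] at h1
      linarith [hγ.2]
    have h2 := hlev _ hin (dsp γ) (by
      have := end_mem_exits (0 : Site d) γ hne
      rwa [zero_add] at this)
    linarith [hγ.2]
  let f : (Σ γ : Fp L l0, Ds L t (dsp γ.1)) → {π : Bt L // π ∉ s} := fun p =>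
    ⟨⟨p.1.1 ++ p.2.1, hmem p⟩, hns p⟩
  have hinj : Function.Injective f := by
    rintro ⟨⟨γ, hγ⟩, ⟨ρ, hρ⟩⟩ ⟨⟨γ', hγ'⟩, ⟨ρ', hρ'⟩⟩ h
    simp only [f, Subtype.mk.injEq] at h
    obtain ⟨rfl, rfl⟩ := free_unique (Fp_free L l0) hγ hγ' h
    rfl
  exact ENNReal.tsum_comp_le_tsum_of_injective hinj (fun π => wt μ π.1.1)

end StartC

open StartC Expo

theorem start_bound {L : Site d →+ ℝ} (hL : Lvl L) (hd : 2 ≤ d) (hμ : Elliptic μ)
    {q p : ℝ≥0∞} (hq0 : q ≠ 0) (hq : ∀ a, q ≤ fu μ L a) (hp0 : p ≠ 0)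
    (hp : ∀ a, p ≤ fu μ (-L) a) (ε : ℝ≥0∞) (hε : ε ≠ 0) :
    ∃ l1 : ℝ, 0 ≤ l1 ∧ ∃ M0 : ℝ, ∀ M : ℝ, M0 ≤ M → ∀ z : Site d, M ≤ L z →
      ∑' π : Fp L M, wt μ π.1 * kill μ (Td L l1 z) z (exits 0 π.1) ≤ ε := by
  classical
  -- reduce to finite ε
  obtain ⟨ε', hε'0, hε't, hε'⟩ : ∃ ε' : ℝ≥0∞, ε' ≠ 0 ∧ ε' ≠ ⊤ ∧ 3 * ε' ≤ ε := by
    rcases eq_or_ne ε ⊤ with rfl | ht
    · exact ⟨1, one_ne_zero, ENNReal.one_ne_top, le_top⟩
    · refine ⟨ε / 3, ENNReal.div_ne_zero.2 ⟨hε, by norm_num⟩, ENNReal.div_ne_top ht (by norm_num), ?_⟩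
      rw [ENNReal.mul_div_cancel (by norm_num) (by norm_num)]
  -- m
  set m : ℝ := min 1 ε'.toReal with hm
  have hm0 : 0 < m := lt_min one_pos (ENNReal.toReal_pos hε'0 hε't)
  have hm1 : m ≤ 1 := min_le_left _ _
  have hmε : ENNReal.ofReal m ≤ ε' := by
    rw [← ENNReal.ofReal_toReal hε't]
    exact ENNReal.ofReal_le_ofReal (min_le_right _ _)
  -- l0
  set lg : ℝ≥0∞ := ENNReal.ofReal (Real.log (1 / m)) with hlg
  obtain ⟨l0, hl0, hbot⟩ := bot_small μ L (ε' / (lg + 1))
    (ENNReal.div_ne_zero.2 ⟨hε'0, by finiteness⟩)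
  obtain ⟨M1, hM1⟩ := start_fin μ hL hd hμ hp0 hp l0 l0 le_rfl ε' hε'0
  refine ⟨l0, hl0, max M1 (l0 + 1), fun M hM z hz => ?_⟩
  have hM1' : M1 ≤ L z := (le_max_left _ _).trans (hM.trans hz)
  have hMl : l0 + 1 ≤ M := (le_max_right _ _).trans hM
  set T := Td L l0 z with hT
  set t : ℝ := L z + 1 with ht
  have hTs : T ⊆ Ds L t z := Td_sub hl0 (by rw [ht]; linarith)
  -- new kill
  let K : List (Dir d) → List (Dir d) → ℝ≥0∞ := fun γ l' => ∑' ρ : T,
    if Disjoint (exits z ρ.1) (exits 0 γ) ∧ ¬ Disjoint (exits z ρ.1) (sit (Db L t) l')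
      then wt μ ρ.1 else 0
  have hkill : ∀ γ c, kill μ T z (exits 0 (γ ++ c)) ≤
      kill μ T z (exits 0 γ) + K γ (γ ++ c) := by
    intro γ c
    simp only [kill, K]
    rw [← ENNReal.tsum_add]
    refine ENNReal.tsum_le_tsum fun ρ => ?_
    by_cases h1 : Disjoint (exits z ρ.1) (exits 0 (γ ++ c))
    · rw [if_pos h1]; exact zero_le
    · rw [if_neg h1]
      by_cases h2 : Disjoint (exits z ρ.1) (exits 0 γ)
      · rw [if_pos h2, zero_add, if_pos]
        refine ⟨h2, fun h3 => h1 ?_⟩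
        have h4 := exits_sub_sit (Db L t) (γ ++ c) []
        rw [List.append_nil] at h4
        exact h3.mono_right h4
      · rw [if_neg h2]
        exact le_self_add
  have hKmono : ∀ γ l' e, K γ l' ≤ K γ (l' ++ e) := by
    intro γ l' e
    refine ENNReal.tsum_le_tsum fun ρ => ?_
    by_cases h1 : Disjoint (exits z ρ.1) (exits 0 γ) ∧
        ¬ Disjoint (exits z ρ.1) (sit (Db L t) l')
    · rw [if_pos h1, if_pos]
      refine ⟨h1.1, fun h3 => h1.2 ?_⟩
      refine h3.mono_right ?_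
      cases e with
      | nil => rw [List.append_nil]
      | cons u e =>
        have h4 : sit (Db L t) l' ⊆ exits 0 (l' ++ u :: e) := by
          intro x hx
          rw [sit] at hx
          split_ifs at hx
          · rw [Finset.mem_insert] at hx
            rcases hx with rfl | hx
            · have := end_mem_exits (0 : Site d) l' (b := u :: e) (by simp)
              rwa [zero_add] at this
            · exact exits_subset_append_left _ _ _ hx
          · exact exits_subset_append_left _ _ _ hx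
        have h5 := exits_sub_sit (Db L t) (l' ++ u :: e) []
        rw [List.append_nil] at h5
        exact h4.trans h5
    · rw [if_neg h1]; exact zero_le
  have hγ : ∀ γ ∈ Fp L l0, ∑' c : {c : List (Dir d) | γ ++ c ∈ Fp L M},
      wt μ (γ ++ c.1) * K γ (γ ++ c.1) ≤ ε' * wt μ γ + lg * Eb μ L t γ := by
    intro γ hγ
    have hγD : dsp γ ∈ Db L t := by
      have h1 := Fp_dsp_lt hL (by linarith) hγ
      exact ⟨by linarith [hγ.2], by rw [ht]; linarith⟩
    rw [ENNReal.tsum_eq_iSup_sum]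
    refine iSup_le fun P => ?_
    let P' : Finset (List (Dir d)) := P.map ⟨Subtype.val, Subtype.val_injective⟩
    have hP' : ∀ c ∈ P', γ ++ c ∈ Fp L M := by
      intro c hc
      rw [Finset.mem_map] at hc
      obtain ⟨c', _, rfl⟩ := hc
      exact c'.2
    have hsum : ∑ c ∈ P, wt μ (γ ++ c.1) * K γ (γ ++ c.1) =
        ∑ c ∈ P', wt μ (γ ++ c) * K γ (γ ++ c) := by
      rw [Finset.sum_map]
      rfl
    rw [hsum]
    calc ∑ c ∈ P', wt μ (γ ++ c) * K γ (γ ++ c)
        ≤ Ex (wt μ) (Db L t) (K γ) (P'.sup List.length) γ := by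
          refine sum_through μ (Fp_free L M) γ P' hP' ?_ (fun c => K γ (γ ++ c)) _ ?_
            (fun c hc => Finset.le_sup (f := List.length) hc)
          · intro c hc a b hab hb
            have h1 := (hP' c hc).1 (dsp (γ ++ a)) (mem_exits.2 ⟨γ ++ a, b, by
              rw [hab, List.append_assoc], hb, by simp⟩)
            exact ⟨by linarith [h1.1], by rw [ht]; linarith [h1.2]⟩
          · intro c _ e
            exact hKmono γ (γ ++ c) e
      _ ≤ ENNReal.ofReal m * wt μ γ + ENNReal.ofReal (Real.log (1 / m)) * Eb μ L t γ :=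
          aprime μ hγD hTs hm0 hm1 _
      _ ≤ _ := by gcongr
  -- assemble
  calc ∑' π : Fp L M, wt μ π.1 * kill μ T z (exits 0 π.1)
      ≤ ∑' γ : Fp L l0, ∑' c : {c : List (Dir d) | γ.1 ++ c ∈ Fp L M},
          wt μ (γ.1 ++ c.1) * kill μ T z (exits 0 (γ.1 ++ c.1)) := by
        rw [← ENNReal.tsum_sigma' (fun p : (Σ γ : Fp L l0,
          {c : List (Dir d) | γ.1 ++ c ∈ Fp L M}) =>
          wt μ (p.1.1 ++ p.2.1) * kill μ T z (exits 0 (p.1.1 ++ p.2.1)))]
        let f : Fp L M → (Σ γ : Fp L l0, {c : List (Dir d) | γ.1 ++ c ∈ Fp L M}) := fun π =>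
          ⟨⟨fpre L l0 π.1, fpre_mem (by linarith) π.2⟩, ⟨π.1.drop (fpre L l0 π.1).length, by
            change fpre L l0 π.1 ++ _ ∈ Fp L M
            rw [fpre_append_drop]
            exact π.2⟩⟩
        have hf : ∀ π, (f π).1.1 ++ (f π).2.1 = π.1 := fun π => fpre_append_drop L l0 π.1
        have hinj : Function.Injective f := by
          intro π π' hππ
          apply Subtype.ext
          rw [← hf π, ← hf π', hππ]
        have h3 := ENNReal.tsum_comp_le_tsum_of_injective hinj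
          (fun p => wt μ (p.1.1 ++ p.2.1) * kill μ T z (exits 0 (p.1.1 ++ p.2.1)))
        refine le_trans (le_of_eq ?_) h3
        refine tsum_congr fun π => ?_
        rw [hf π]
    _ ≤ ∑' γ : Fp L l0, (wt μ γ.1 * kill μ T z (exits 0 γ.1) +
          (ε' * wt μ γ.1 + lg * Eb μ L t γ.1)) := by
        refine ENNReal.tsum_le_tsum fun γ => ?_
        calc ∑' c : {c : List (Dir d) | γ.1 ++ c ∈ Fp L M},
              wt μ (γ.1 ++ c.1) * kill μ T z (exits 0 (γ.1 ++ c.1))
            ≤ ∑' c : {c : List (Dir d) | γ.1 ++ c ∈ Fp L M},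
              (wt μ (γ.1 ++ c.1) * kill μ T z (exits 0 γ.1) +
                wt μ (γ.1 ++ c.1) * K γ.1 (γ.1 ++ c.1)) := by
              refine ENNReal.tsum_le_tsum fun c => ?_
              rw [← mul_add]
              gcongr
              exact hkill _ _
          _ = (∑' c : {c : List (Dir d) | γ.1 ++ c ∈ Fp L M}, wt μ (γ.1 ++ c.1)) *
                kill μ T z (exits 0 γ.1) + ∑' c : {c : List (Dir d) | γ.1 ++ c ∈ Fp L M},
                wt μ (γ.1 ++ c.1) * K γ.1 (γ.1 ++ c.1) := by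
              rw [ENNReal.tsum_add, ENNReal.tsum_mul_right]
          _ ≤ _ := by
              gcongr
              · exact tsum_append_le μ (Fp_free L M) γ.1
              · exact hγ γ.1 γ.2
    _ = (∑' γ : Fp L l0, wt μ γ.1 * kill μ T z (exits 0 γ.1)) +
          (ε' * ∑' γ : Fp L l0, wt μ γ.1 + lg * ∑' γ : Fp L l0, Eb μ L t γ.1) := by
        rw [ENNReal.tsum_add, ENNReal.tsum_add, ENNReal.tsum_mul_left, ENNReal.tsum_mul_left]
    _ ≤ ε' + (ε' * 1 + lg * (ε' / (lg + 1))) := by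
        gcongr
        · exact hM1 z hM1'
        · exact tsum_wt_le_one μ (Fp_free L l0)
        · exact hbot t
    _ ≤ ε' + (ε' * 1 + ε') := by
        gcongr
        calc lg * (ε' / (lg + 1)) ≤ (lg + 1) * (ε' / (lg + 1)) := by gcongr; exact le_self_add
          _ = ε' := ENNReal.mul_div_cancel (by simp) (by finiteness)
    _ = 3 * ε' := by ring
    _ ≤ ε := hε'

end Vale.Agent.P147.Z
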