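import Vale.Agent.P147.Z.CrE
import Vale.Agent.P147.Z.Start
attribute [-instance] ProperSMul.toContinuousSMul IsTopologicalTorsor.toContinuousSMul IdemSemiring.toCanonicallyOrderedAdd IdemSemiring.toMulLeftMono IdemSemiring.toMulRightMono AddQuantale.instAddLeftMono AddQuantale.instAddRightMono Quantale.instMulLeftMono Quantale.instMulRightMono FiniteDimensional.rclike_to_real IsScalarTower.complexToReal FiniteDimensional.complexToReal

open MeasureTheory Filter Topology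
open scoped ENNReal

namespace Vale.Agent.P147.Z

open Cr

variable {d : ℕ} (μ : Measure (Row d)) [IsProbabilityMeasure μ] {L : Site d →+ ℝ}

/-- A small multiple of a finite number. -/
lemma exists_mul_le {a δ : ℝ≥0∞} (ha : a ≠ ⊤) (hδ : δ ≠ 0) : ∃ ε : ℝ≥0∞, ε ≠ 0 ∧ ε ≠ ⊤ ∧
    a * ε ≤ δ := by
  rcases eq_or_ne δ ⊤ with rfl | hδt
  · exact ⟨1, one_ne_zero, ENNReal.one_ne_top, le_top⟩
  · refine ⟨δ / (a + 1), ?_, ?_, ?_⟩
    · exact ENNReal.div_ne_zero.2 ⟨hδ, by finiteness⟩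
    · exact ENNReal.div_ne_top hδt (by simp)
    · calc a * (δ / (a + 1)) ≤ (a + 1) * (δ / (a + 1)) := by gcongr; exact le_self_add
        _ = δ := ENNReal.mul_div_cancel (by simp) (by finiteness)

theorem core (hd : 2 ≤ d) (hμ : Elliptic μ) {L : Site d →+ ℝ} (hL : Lvl L) {q p : ℝ≥0∞}
    (hq0 : q ≠ 0) (hq : ∀ a, q ≤ fu μ L a) (hp0 : p ≠ 0) (hp : ∀ a, p ≤ fu μ (-L) a) :
    False := by
  classical
  have hfu : ∀ (L' : Site d →+ ℝ) a, fu μ L' a ≤ 1 := fun L' a =>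
    tsum_wt_le_one μ (Fp_free' L' a)
  have hq1 : q ≤ 1 := (hq 0).trans (hfu _ _)
  have hp1 : p ≤ 1 := (hp 0).trans (hfu _ _)
  have hqt : q ≠ ⊤ := ne_top_of_le_ne_top ENNReal.one_ne_top hq1
  have hpt : p ≠ ⊤ := ne_top_of_le_ne_top ENNReal.one_ne_top hp1
  set w0 : ℝ≥0∞ := p * p with hw0
  have hw1 : w0 ≤ 1 := mul_le_one' hp1 hp1
  have hw0' : w0 ≠ 0 := mul_ne_zero hp0 hp0
  set A : ℝ≥0∞ := w0 * q with hA
  have hA0 : A ≠ 0 := mul_ne_zero hw0' hq0
  have hAt : A ≠ ⊤ := ne_top_of_le_ne_top ENNReal.one_ne_top (mul_le_one' hw1 hq1)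
  set δ : ℝ≥0∞ := A / 32 with hδ
  have hδ0 : δ ≠ 0 := ENNReal.div_ne_zero.2 ⟨hA0, by norm_num⟩
  have hδt : δ ≠ ⊤ := ENNReal.div_ne_top hAt (by norm_num)
  have hδr : 0 < δ.toReal := ENNReal.toReal_pos hδ0 hδt
  have hδo : ENNReal.ofReal δ.toReal = δ := ENNReal.ofReal_toReal hδt
  -- block facts
  have h1 := tsum_Ir μ hL hq0 hq
  have hrho : rho μ L < 1 := rho_lt μ hL hq0 hq
  have hmh : mh μ L ≠ ⊤ := mean_height μ hL hq0 hq
  have hrt : rho μ L ≠ ⊤ := (hrho.trans ENNReal.one_lt_top).ne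
  set r : ℝ := (rho μ L).toReal with hr
  have hr0 : 0 ≤ r := ENNReal.toReal_nonneg
  have hr1 : r < 1 := by
    have := (ENNReal.toReal_lt_toReal hrt ENNReal.one_ne_top).2 hrho
    simpa only [gt_iff_lt, ENNReal.toReal_one] using this
  have hro : ENNReal.ofReal r = rho μ L := ENNReal.ofReal_toReal hrt
  -- C
  obtain ⟨C, hC⟩ : ∃ C : ℕ, ENNReal.ofReal (Real.exp 3) * rho μ L ^ C < 1 := by
    have h2 := (ENNReal.tendsto_pow_atTop_nhds_zero_of_lt_one hrho)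
    have h3 := ENNReal.Tendsto.const_mul (a := ENNReal.ofReal (Real.exp 3)) h2
      (Or.inr ENNReal.ofReal_ne_top)
    rw [mul_zero] at h3
    exact (h3.eventually_lt_const zero_lt_one).exists
  -- c1
  obtain ⟨c1, hc10, hc11, hc1r⟩ : ∃ c1 : ℝ, 0 < c1 ∧ c1 ≤ 1 ∧
      ENNReal.ofReal (Real.exp c1) * rho μ L < 1 := by
    have h2 : 0 < Real.log (2 / (1 + r)) := Real.log_pos (by
      rw [lt_div_iff₀ (by linarith only [hr0])]; linarith only [hr1])
    refine ⟨min 1 (Real.log (2 / (1 + r))), lt_min one_pos h2, min_le_left _ _, ?_⟩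
    rw [← hro, ← ENNReal.ofReal_mul (Real.exp_nonneg _), ← ENNReal.ofReal_one,
      ENNReal.ofReal_lt_ofReal_iff one_pos]
    calc Real.exp (min 1 (Real.log (2 / (1 + r)))) * r
        ≤ Real.exp (Real.log (2 / (1 + r))) * r := by
          gcongr
          exact min_le_right _ _
      _ = 2 / (1 + r) * r := by rw [Real.exp_log (by (clear * -; positivity))]
      _ < 1 := by
          rw [div_mul_eq_mul_div, div_lt_one (by linarith only [hr0])]
          linarith only [hr1]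
  -- kc
  obtain ⟨kc, hkc⟩ : ∃ kc : ℕ, ((2 : ℝ≥0∞)⁻¹) ^ kc ≤ δ := by
    have h2 := ENNReal.tendsto_pow_atTop_nhds_zero_of_lt_one
      (r := (2 : ℝ≥0∞)⁻¹) (by norm_num)
    exact (h2.eventually_le_const (pos_iff_ne_zero.2 hδ0)).exists
  -- start
  obtain ⟨εs, hεs0, -, hεs⟩ := exists_mul_le (a := (C + 1 : ℝ≥0∞) * q⁻¹)
    (by finiteness) hδ0
  obtain ⟨l1, hl1, M0, hM0⟩ := start_bound μ hL hd hμ hq0 hq hp0 hp εs hεs0
  -- k0
  obtain ⟨k0, hk0⟩ : ∃ k0 : ℕ, ∀ k, k0 ≤ k → (C + 1 : ℝ≥0∞) * (((2 : ℝ≥0∞)⁻¹) ^ k * mh μ L) ≤ δ := by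
    have h2 := ENNReal.tendsto_pow_atTop_nhds_zero_of_lt_one
      (r := (2 : ℝ≥0∞)⁻¹) (by norm_num)
    have h3 := ENNReal.Tendsto.mul_const (b := mh μ L) h2 (Or.inr hmh)
    have h4 := ENNReal.Tendsto.const_mul (a := (C + 1 : ℝ≥0∞)) h3 (Or.inr (by finiteness))
    rw [zero_mul, mul_zero] at h4
    obtain ⟨k0, hk0⟩ := eventually_atTop.1 (h4.eventually_le_const (pos_iff_ne_zero.2 hδ0))
    exact ⟨k0, hk0⟩
  -- good scales
  have hκ : (kap μ L).mass = 1 := by rw [kap_mass, h1]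
  obtain ⟨k, hk0k, hkck, J0, hJ0⟩ := good_scales (kap μ L) hκ (kap_polyTail μ hL hμ hq0 hq)
    kc C k0 δ hδ0
  -- growth
  obtain ⟨K, n0, hgr⟩ := growth μ hL hμ hq0 hq
  -- thresholds
  obtain ⟨c', hc', hbox⟩ := box_small hδr ((K + 1) * d + d)
  -- backtracks
  set c : ℝ := c1 / 2 ^ k with hc
  have hc0 : 0 < c := by (clear * - hc10; positivity)
  have hdj := dj_sum μ hL (c := c) hc0
  set dj : ℕ → ℝ≥0∞ := fun j => ∑' γ : Fp L (c * 2 ^ j), Eb μ L (2 ^ (j + 1) + 2) γ.1 with hdjdef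
  have hdjt : ∀ j, dj j ≠ ⊤ := fun j => ne_top_of_le_ne_top hdj (ENNReal.le_tsum j)
  have hsum : Summable (fun j => (dj j).toReal) := ENNReal.summable_toReal hdj
  -- all eventual conditions
  have ev1 : ∀ᶠ j : ℕ in atTop, n0 ≤ 2 * 2 ^ j + 2 := by
    filter_upwards [eventually_ge_atTop n0] with j hj
    have : j < 2 ^ j := Nat.lt_two_pow_self
    omega
  have hpow2 : Tendsto (fun j : ℕ => 2 ^ j) atTop (atTop : Filter ℕ) :=
    tendsto_pow_atTop_atTop_of_one_lt (by norm_num)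
  have ev2 : ∀ᶠ j : ℕ in atTop, (((2 * 2 ^ j + 2 : ℕ) : ℝ≥0∞) ^ 2)⁻¹ ≤ δ := by
    have h2 : Tendsto (fun n : ℕ => (((n : ℕ) : ℝ≥0∞))⁻¹) atTop (𝓝 0) :=
      ENNReal.tendsto_inv_nat_nhds_zero
    have h3 : Tendsto (fun j : ℕ => 2 * 2 ^ j + 2) atTop (atTop : Filter ℕ) := by
      apply tendsto_atTop_mono (fun j => ?_) hpow2
      omega
    have h4 := (h2.comp h3).eventually_le_const (pos_iff_ne_zero.2 hδ0)
    filter_upwards [h4] with j hj
    refine le_trans ?_ hj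
    simp only [Function.comp]
    apply ENNReal.inv_le_inv.2
    have : (1 : ℝ≥0∞) ≤ ((2 * 2 ^ j + 2 : ℕ) : ℝ≥0∞) := by
      exact_mod_cast (by omega : 1 ≤ 2 * 2 ^ j + 2)
    exact le_self_pow₀ this (by norm_num)
  have ev3 : ∀ᶠ j : ℕ in atTop, M0 ≤ ((2 ^ j : ℕ) : ℝ) :=
    (tendsto_natCast_atTop_atTop.comp hpow2).eventually_ge_atTop M0
  have ev4 : ∀ᶠ j : ℕ in atTop, (C + 1 : ℝ≥0∞) *
      (ENNReal.ofReal (Real.exp c1) * rho μ L) ^ (2 ^ (j - k)) ≤ δ := by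
    have h2 := ENNReal.tendsto_pow_atTop_nhds_zero_of_lt_one hc1r
    have h3 : Tendsto (fun j : ℕ => 2 ^ (j - k)) atTop (atTop : Filter ℕ) :=
      hpow2.comp (tendsto_sub_atTop_nat k)
    have h4 := ENNReal.Tendsto.const_mul (a := (C + 1 : ℝ≥0∞)) (h2.comp h3)
      (Or.inr (by finiteness))
    rw [mul_zero] at h4
    exact h4.eventually_le_const (pos_iff_ne_zero.2 hδ0)
  have ev5 : ∀ᶠ j : ℕ in atTop, (ENNReal.ofReal (Real.exp 3) * rho μ L ^ C) ^ (2 ^ j) *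
      (1 - rho μ L)⁻¹ ≤ δ := by
    have h2 := ENNReal.tendsto_pow_atTop_nhds_zero_of_lt_one hC
    have h4 := ENNReal.Tendsto.mul_const (b := (1 - rho μ L)⁻¹) (h2.comp hpow2)
      (Or.inr (by
        rw [ne_eq, ENNReal.inv_eq_top, tsub_eq_zero_iff_le, not_le]
        exact hrho))
    rw [zero_mul] at h4
    exact h4.eventually_le_const (pos_iff_ne_zero.2 hδ0)
  obtain ⟨N, hN⟩ := eventually_atTop.1 (((((ev1.and ev2).and ev3).and ev4).and ev5).and
    ((hbox δ.toReal hδr).and (eventually_ge_atTop k)))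
  obtain ⟨j, hjN, hjB, hjd⟩ := scales_meet (fun j => (dj j).toReal)
    (fun j => ENNReal.toReal_nonneg) hsum {j | ¬ (∑ n ∈ Finset.Icc (2 ^ (j - kc)) (C * 2 ^ j),
      tv (kap μ L) n (2 ^ (j - k)) ≤ δ * 2 ^ j)} ⟨J0, fun J hJ => by
        convert hJ0 J hJ⟩ (c := δ.toReal * c')
      (by (clear * - hδr hc'; positivity)) N
  obtain ⟨⟨⟨⟨⟨e1, e2⟩, e3⟩, e4⟩, e5⟩, ⟨hlam0, hlam1, hb⟩, hkj⟩ := hN j hjN
  have htv : ∑ n ∈ Finset.Icc (2 ^ (j - kc)) (C * 2 ^ j), tv (kap μ L) n (2 ^ (j - k)) ≤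
      δ * 2 ^ j := by
    by_contra hcon
    exact hjB hcon
  have hC1 : 1 ≤ C := by
    by_contra hcon
    have hC0 : C = 0 := by omega
    rw [hC0, pow_zero, mul_one] at hC
    have : (1 : ℝ) < Real.exp 3 := Real.one_lt_exp_iff.2 (by norm_num)
    rw [← ENNReal.ofReal_one, ENNReal.ofReal_lt_ofReal_iff one_pos] at hC
    linarith only [hC, this]
  set M : ℕ := 2 ^ j with hMdef
  have hMr : ((M : ℕ) : ℝ) = 2 ^ j := by rw [hMdef]; push_cast; rfl
  have hMe : ((M : ℕ) : ℝ≥0∞) = 2 ^ j := by rw [hMdef]; push_cast; rfl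
  have hM1 : 1 ≤ M := Nat.one_le_two_pow
  have hM1e : (1 : ℝ≥0∞) ≤ M := by exact_mod_cast hM1
  set lam : ℝ := c' / ((j : ℝ) * Real.log j) with hlam
  set m : ℕ := 2 ^ (j - k) with hmdef
  have hmM : m * 2 ^ k = M := by
    rw [hmdef, hMdef, ← pow_add]
    congr 1
    omega
  have hmr : (m : ℝ) = 2 ^ j / 2 ^ k := by
    rw [eq_div_iff (by positivity), ← hMr, ← hmM]
    push_cast
    rfl
  set h : ℝ := c * 2 ^ j with hh
  have hhm : h = c1 * m := by
    rw [hh, hc, hmr]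
    ring
  have hh0 : 0 ≤ h := by positivity
  have hhM : h ≤ M := by
    rw [hhm]
    calc c1 * m ≤ 1 * m := by (clear * - hc11; gcongr)
      _ ≤ M := by
        rw [one_mul]
        have : m ≤ M := by
          rw [hmdef, hMdef]
          exact Nat.pow_le_pow_right (by norm_num) (by omega)
        exact_mod_cast this
  -- apply the main inequality
  have key := main_ineq μ hL (εs := εs) (w0 := w0) hq0 hqt hq hw1 h1
    (M := M) (R := (2 * 2 ^ j + 2) ^ K) (n1 := 2 ^ (j - kc)) (n2 := C * 2 ^ j) (m := m)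
    (by omega)
    (by
      calc 2 ^ (j - kc) ≤ 2 ^ j := Nat.pow_le_pow_right (by norm_num) (by omega)
        _ ≤ C * 2 ^ j := Nat.le_mul_of_pos_left _ (by omega))
    (Nat.pow_le_pow_right (by norm_num) (by omega)) (l1 := l1) (h := h) hl1 hh0 hhM
    (fun z l1' => tsum_wt_le_one μ (Td_free L l1' z))
    (fun z t hz => Td_sub hl1 hz)
    (fun z => Td_weight μ hp l1 z)
    (fun z hz => hM0 M e3 z hz) (lam := lam) (x := δ.toReal) hlam0 hlam1 hδr.le
  -- estimates of the terms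
  have t1 : ∑' π : Rch L (2 * M + 2) ((2 * 2 ^ j + 2) ^ K), wt μ π.1 ≤ δ := by
    have h2 := hgr (2 * 2 ^ j + 2) e1
    have h3 : ((2 * 2 ^ j + 2 : ℕ) : ℝ) = 2 * M + 2 := by rw [hMdef]; push_cast; rfl
    rw [h3] at h2
    exact h2.trans e2
  have t2 : (ENNReal.ofReal lam)⁻¹ * ∑' γ : Fp L h, Eb μ L (2 * M + 2) γ.1 ≤ δ := by
    have h2 : (2 : ℝ) * M + 2 = 2 ^ (j + 1) + 2 := by rw [hMr]; ring
    rw [h2]
    have h3 : dj j ≤ δ * ENNReal.ofReal lam := by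
      rw [← ENNReal.ofReal_toReal (hdjt j)]
      conv_rhs => rw [← hδo]
      rw [← ENNReal.ofReal_mul hδr.le]
      apply ENNReal.ofReal_le_ofReal
      refine hjd.trans (le_of_eq ?_)
      rw [hlam]
      ring
    rw [← ENNReal.div_eq_inv_mul]
    exact ENNReal.div_le_of_le_mul h3
  have t3 : ((Bf L M ((2 * 2 ^ j + 2) ^ K)).card : ℝ≥0∞) *
      ENNReal.ofReal (2 * Real.exp (-δ.toReal / (2 * (lam * (1 + Real.log (1 / lam)))))) ≤ δ := by
    calc _ ≤ ENNReal.ofReal (Real.exp ((j + 2) * ((K + 1) * d + d : ℕ))) *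
          ENNReal.ofReal (2 * Real.exp (-δ.toReal / (2 * (lam * (1 + Real.log (1 / lam)))))) := by
          gcongr
          exact card_Bf_exp K j
      _ = ENNReal.ofReal (Real.exp ((j + 2) * ((K + 1) * d + d : ℕ)) *
          (2 * Real.exp (-δ.toReal / (2 * (lam * (1 + Real.log (1 / lam))))))) := by
          rw [← ENNReal.ofReal_mul (Real.exp_nonneg _)]
      _ ≤ ENNReal.ofReal δ.toReal := ENNReal.ofReal_le_ofReal hb
      _ = δ := hδo
  have t5 : ((2 ^ (j - kc) : ℕ) : ℝ≥0∞) ≤ M * δ := by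
    have h2 : ((2 ^ (j - kc) : ℕ) : ℝ≥0∞) = M * ((2 : ℝ≥0∞)⁻¹) ^ kc := by
      rw [hMe, ← ENNReal.inv_pow, ← div_eq_mul_inv, ENNReal.eq_div_iff (by simp only [ne_eq, pow_eq_zero_iff', OfNat.ofNat_ne_zero, false_and, not_false_eq_true]) (by finiteness)]
      push_cast
      rw [← pow_add]
      congr 1
      (clear * - hkck hkj; omega)
    rw [h2]
    (clear * - hkc; gcongr)
  have t6 : (C + 1 : ℝ≥0∞) * (ENNReal.ofReal (Real.exp h) * rho μ L ^ m) ≤ δ := by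
    refine le_trans (le_of_eq ?_) e4
    rw [mul_pow, ← ENNReal.ofReal_pow (Real.exp_nonneg _), ← Real.exp_nat_mul, hhm]
    ring_nf
  have t7 : (C + 1 : ℝ≥0∞) * ((ENNReal.ofReal M)⁻¹ * (m * mh μ L)) ≤ δ := by
    refine le_trans (le_of_eq ?_) (hk0 k hk0k)
    congr 1
    rw [← mul_assoc]
    congr 1
    rw [ENNReal.ofReal_natCast, ← hmM]
    push_cast
    rw [← ENNReal.inv_pow, ← ENNReal.div_eq_inv_mul]
    have hm0 : (m : ℝ≥0∞) ≠ 0 := by
      rw [hmdef]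
      push_cast
      positivity
    rw [ENNReal.div_eq_inv_mul, ENNReal.mul_inv (Or.inl hm0) (Or.inl (by finiteness)),
      mul_comm, ← mul_assoc, ENNReal.mul_inv_cancel hm0 (by finiteness), one_mul]
  have t8 : (C + 1 : ℝ≥0∞) * (q⁻¹ * εs) ≤ δ := by
    rw [← mul_assoc]
    exact hεs
  have t9 : ENNReal.ofReal (Real.exp (2 * M + 1)) *
      (rho μ L ^ (C * 2 ^ j + 1) * (1 - rho μ L)⁻¹) ≤ M * δ := by
    calc ENNReal.ofReal (Real.exp (2 * M + 1)) *
          (rho μ L ^ (C * 2 ^ j + 1) * (1 - rho μ L)⁻¹)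
        ≤ ENNReal.ofReal (Real.exp (M * 3)) * (rho μ L ^ (C * 2 ^ j) * (1 - rho μ L)⁻¹) := by
          gcongr ENNReal.ofReal (Real.exp ?_) * (?_ * _)
          · have : (1 : ℝ) ≤ M := by exact_mod_cast hM1
            linarith only [this]
          · exact pow_le_pow_of_le_one zero_le hrho.le (by omega)
      _ = (ENNReal.ofReal (Real.exp 3) * rho μ L ^ C) ^ (2 ^ j) * (1 - rho μ L)⁻¹ := by
          rw [mul_pow, ← pow_mul, ← ENNReal.ofReal_pow (Real.exp_nonneg _), ← Real.exp_nat_mul,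
            ← mul_assoc]
      _ ≤ δ := e5
      _ = 1 * δ := (one_mul _).symm
      _ ≤ M * δ := by (clear * - hM1e; gcongr)
  -- final
  have hfin : (M : ℝ≥0∞) * A ≤ M * (14 * δ) := by
    calc (M : ℝ≥0∞) * A ≤ (M + 1) * (w0 * q) := by
          rw [hA]
          gcongr
          exact le_self_add
      _ ≤ _ := key
      _ ≤ (M + M) * (δ + (δ + δ) + δ) + (M * δ + (((M * (C + 1)) * (ENNReal.ofReal (Real.exp h) *
          rho μ L ^ m + (ENNReal.ofReal M)⁻¹ * (m * mh μ L) + q⁻¹ * εs)) + M * δ) + M * δ) := by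
          have hcast : (((C * 2 ^ j : ℕ) : ℝ≥0∞) + 1) ≤ M * (C + 1) := by
            rw [mul_add, mul_one, hMdef]
            push_cast
            rw [mul_comm ((2 : ℝ≥0∞) ^ j) (C : ℝ≥0∞)]
            gcongr
            exact one_le_pow₀ (by norm_num)
          have htv' : ∑ n ∈ Finset.Icc (2 ^ (j - kc)) (C * 2 ^ j),
              tv (kap μ L) n m ≤ M * δ :=
            htv.trans (le_of_eq (by rw [hMe, mul_comm δ]))
          have hxx : ENNReal.ofReal δ.toReal ≤ δ := hδo.le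
          (clear * - hM1e t1 t2 t3 hxx t5 hcast htv' t9; gcongr)
      _ = (M + M) * (4 * δ) + (M * δ + (M * ((C + 1) * (ENNReal.ofReal (Real.exp h) *
          rho μ L ^ m) + (C + 1) * ((ENNReal.ofReal M)⁻¹ * (m * mh μ L)) +
          (C + 1) * (q⁻¹ * εs)) + M * δ) + M * δ) := by ring
      _ ≤ (M + M) * (4 * δ) + (M * δ + (M * (δ + δ + δ) + M * δ) + M * δ) := by (clear * - t6 t7 t8; gcongr)
      _ = M * (14 * δ) := by ring
  have hM0e : (M : ℝ≥0∞) ≠ 0 := (zero_lt_one.trans_le hM1e).ne'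
  have h14 : A ≤ 14 * δ := (ENNReal.mul_le_mul_iff_right hM0e (by finiteness)).1 hfin
  have h32 : A = 32 * δ := by
    rw [hδ, ENNReal.mul_div_cancel (by norm_num) (by norm_num)]
  rw [h32] at h14
  have h33 : (32 : ℝ≥0∞) ≤ 14 := (ENNReal.mul_le_mul_iff_left hδ0 hδt).1 h14
  norm_num at h33

end Vale.Agent.P147.Z
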