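import Vale.Agent.P147.Z.Base

open MeasureTheory
open scoped ENNReal

namespace Vale.Agent.P147.Z.Cr

variable {d : ℕ} (μ : Measure (Row d)) {L : Site d →+ ℝ}

lemma En_mono (n : ℕ) {Φ Ψ : List (Dir d) → ℝ≥0∞} (h : ∀ l, Φ l ≤ Ψ l) :
    En μ L n Φ ≤ En μ L n Ψ := by
  induction n generalizing Φ Ψ with
  | zero => exact h []
  | succ n ih =>
    rw [En, En]
    exact ENNReal.tsum_le_tsum fun b => mul_le_mul_right (ih fun l => h _) _

lemma En_add_fun (n : ℕ) (Φ Ψ : List (Dir d) → ℝ≥0∞) :
    En μ L n (fun l => Φ l + Ψ l) = En μ L n Φ + En μ L n Ψ := by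
  induction n generalizing Φ Ψ with
  | zero => rfl
  | succ n ih =>
    rw [En, En, En, ← ENNReal.tsum_add]
    refine tsum_congr fun b => ?_
    rw [ih, mul_add]

lemma En_const_mul (n : ℕ) (c : ℝ≥0∞) (Φ : List (Dir d) → ℝ≥0∞) :
    En μ L n (fun l => c * Φ l) = c * En μ L n Φ := by
  induction n generalizing Φ with
  | zero => rfl
  | succ n ih =>
    rw [En, En, ← ENNReal.tsum_mul_left]
    refine tsum_congr fun b => ?_
    rw [ih]
    ring

lemma En_const (h1 : ∑' b : Ir L, wt μ b.1 = 1) (n : ℕ) (c : ℝ≥0∞) :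
    En μ L n (fun _ => c) = c := by
  induction n with
  | zero => rfl
  | succ n ih =>
    rw [En]
    simp only [ih]
    rw [ENNReal.tsum_mul_right, h1, one_mul]

lemma En_tsum {ι : Type*} (n : ℕ) (Φ : ι → List (Dir d) → ℝ≥0∞) :
    En μ L n (fun l => ∑' i, Φ i l) = ∑' i, En μ L n (Φ i) := by
  induction n generalizing Φ with
  | zero => rfl
  | succ n ih =>
    simp only [En]
    rw [ENNReal.tsum_comm]
    refine tsum_congr fun b => ?_
    rw [ih, ENNReal.tsum_mul_left]

/-- Laplace transform. -/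
lemma En_exp (n : ℕ) :
    En μ L n (fun l => ENNReal.ofReal (Real.exp (-L (dsp l)))) =
      (∑' b : Ir L, wt μ b.1 * ENNReal.ofReal (Real.exp (-L (dsp b.1)))) ^ n := by
  induction n with
  | zero => simp [En]
  | succ n ih =>
    rw [En, pow_succ', ← ENNReal.tsum_mul_right]
    refine tsum_congr fun b => ?_
    rw [mul_assoc, ← ih, ← En_const_mul μ n (ENNReal.ofReal (Real.exp (-L (dsp b.1))))]
    congr 2
    funext l
    rw [← ENNReal.ofReal_mul (Real.exp_nonneg _), ← Real.exp_add, dsp_append, map_add]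
    congr 2
    ring

open Classical in
/-- Few blocks reach a given height slowly. -/
lemma En_low (n : ℕ) (h : ℝ) :
    En μ L n (fun l => if L (dsp l) < h then 1 else 0) ≤ ENNReal.ofReal (Real.exp h) *
      (∑' b : Ir L, wt μ b.1 * ENNReal.ofReal (Real.exp (-L (dsp b.1)))) ^ n := by
  rw [← En_exp, ← En_const_mul]
  refine En_mono μ n fun l => ?_
  split_ifs with hl
  · rw [← ENNReal.ofReal_mul (Real.exp_nonneg _), ← Real.exp_add, ← ENNReal.ofReal_one]
    apply ENNReal.ofReal_le_ofReal
    rw [← Real.exp_zero]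
    apply Real.exp_le_exp.2
    linarith
  · exact zero_le

lemma En_height (h1 : ∑' b : Ir L, wt μ b.1 = 1) (n : ℕ) :
    En μ L n (fun l => ENNReal.ofReal (L (dsp l))) ≤
      n * ∑' b : Ir L, wt μ b.1 * ENNReal.ofReal (L (dsp b.1)) := by
  induction n with
  | zero => simp [En]
  | succ n ih =>
    rw [En]
    calc ∑' b : Ir L, wt μ b.1 * En μ L n (fun l => ENNReal.ofReal (L (dsp (b.1 ++ l))))
        ≤ ∑' b : Ir L, (wt μ b.1 * ENNReal.ofReal (L (dsp b.1)) + wt μ b.1 *
            En μ L n (fun l => ENNReal.ofReal (L (dsp l)))) := by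
          refine ENNReal.tsum_le_tsum fun b => ?_
          rw [← mul_add]
          refine mul_le_mul_right ?_ _
          calc _ ≤ En μ L n (fun l => ENNReal.ofReal (L (dsp b.1)) +
                ENNReal.ofReal (L (dsp l))) := by
                refine En_mono μ n fun l => ?_
                rw [dsp_append, map_add]
                exact ENNReal.ofReal_add_le
            _ = _ := by rw [En_add_fun, En_const μ h1]
      _ = (∑' b : Ir L, wt μ b.1 * ENNReal.ofReal (L (dsp b.1))) +
            En μ L n (fun l => ENNReal.ofReal (L (dsp l))) := by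
          rw [ENNReal.tsum_add, ENNReal.tsum_mul_right, h1, one_mul]
      _ ≤ _ := by
          push_cast
          rw [add_mul, one_mul, add_comm]
          gcongr

open Classical in
lemma En_high (h1 : ∑' b : Ir L, wt μ b.1 = 1) (n : ℕ) {M : ℝ} (hM : 0 < M) :
    En μ L n (fun l => if M < L (dsp l) then 1 else 0) ≤ (ENNReal.ofReal M)⁻¹ *
      (n * ∑' b : Ir L, wt μ b.1 * ENNReal.ofReal (L (dsp b.1))) := by
  have hM' : ENNReal.ofReal M ≠ 0 := by simpa using hM
  calc _ ≤ En μ L n (fun l => (ENNReal.ofReal M)⁻¹ * ENNReal.ofReal (L (dsp l))) := by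
        refine En_mono μ n fun l => ?_
        split_ifs with hl
        · rw [← ENNReal.div_eq_inv_mul, ENNReal.le_div_iff_mul_le (Or.inl hM')
            (Or.inl ENNReal.ofReal_ne_top), one_mul]
          exact ENNReal.ofReal_le_ofReal hl.le
        · exact zero_le
    _ = (ENNReal.ofReal M)⁻¹ * En μ L n (fun l => ENNReal.ofReal (L (dsp l))) :=
        En_const_mul μ n _ _
    _ ≤ _ := by
        gcongr
        exact En_height μ h1 n

lemma kap_mass : (kap μ L).mass = ∑' b : Ir L, wt μ b.1 := by
  classical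
  rw [Cv.mass]
  simp only [kap]
  rw [ENNReal.tsum_comm]
  refine tsum_congr fun b => ?_
  rw [tsum_eq_single (dsp b.1)]
  · simp
  · intro x hx
    rw [if_neg (Ne.symm hx)]

lemma tsum_kap_mul (g : Site d → ℝ≥0∞) :
    ∑' y, (kap μ L).v y * g y = ∑' b : Ir L, wt μ b.1 * g (dsp b.1) := by
  classical
  simp only [kap, ← ENNReal.tsum_mul_right]
  rw [ENNReal.tsum_comm]
  refine tsum_congr fun b => ?_
  rw [tsum_eq_single (dsp b.1)]
  · rw [if_pos rfl]
  · intro x hx
    rw [if_neg (Ne.symm hx), zero_mul]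

lemma En_dsp' (n : ℕ) (f : Site d → ℝ≥0∞) :
    En μ L n (fun l => f (dsp l)) = ∑' x, ((kap μ L) ^ n).v x * f x := by
  classical
  induction n generalizing f with
  | zero =>
    rw [pow_zero, tsum_eq_single (0 : Site d)]
    · simp [En, Cv.one_def]
    · intro x hx
      rw [Cv.one_def, Cv.pt_v_ne hx, zero_mul]
  | succ n ih =>
    rw [En, pow_succ']
    simp only [Cv.mul_v]
    calc ∑' b : Ir L, wt μ b.1 * En μ L n (fun l => f (dsp (b.1 ++ l)))
        = ∑' b : Ir L, wt μ b.1 * ∑' x, ((kap μ L) ^ n).v x * f (dsp b.1 + x) := by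
          refine tsum_congr fun b => ?_
          rw [← ih (fun x => f (dsp b.1 + x))]
          simp only [dsp_append]
      _ = ∑' y, (kap μ L).v y * ∑' x, ((kap μ L) ^ n).v x * f (y + x) :=
          (tsum_kap_mul μ (fun y => ∑' x, ((kap μ L) ^ n).v x * f (y + x))).symm
      _ = ∑' y, ∑' x, (kap μ L).v y * (((kap μ L) ^ n).v (x - y) * f x) := by
          refine tsum_congr fun y => ?_
          rw [ENNReal.tsum_mul_left, ← (Equiv.subRight y).tsum_eq
            (fun x => ((kap μ L) ^ n).v x * f (y + x))]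
          congr 2
          funext x
          simp
      _ = _ := by
          rw [ENNReal.tsum_comm]
          refine tsum_congr fun x => ?_
          rw [← ENNReal.tsum_mul_right]
          refine tsum_congr fun y => ?_
          ring

end Vale.Agent.P147.Z.Cr
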