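import Vale.Agent.P147.Z.Base

/-!
# Summability of the backtrack probabilities over dyadic scales
-/

open MeasureTheory
open scoped ENNReal

namespace Vale.Agent.P147.Z

variable {d : ℕ} (μ : Measure (Row d)) [IsProbabilityMeasure μ]

/-- Paths that reach level at most `-1` for the first time at their end. -/
def DjDn (L : Site d →+ ℝ) : Set (List (Dir d)) :=
  {l | (∀ x ∈ exits 0 l, -1 < L x) ∧ L (dsp l) ≤ -1}

lemma dj_mem_exits_append {a b : List (Dir d)} (hb : b ≠ []) : dsp a ∈ exits 0 (a ++ b) := by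
  rw [mem_exits]
  exact ⟨a, b, rfl, hb, by simp⟩

lemma DjDn_free (L : Site d →+ ℝ) : Free (DjDn L) := by
  intro a ha b hb
  by_contra hb0
  have h1 := hb.1 (dsp a) (dj_mem_exits_append hb0)
  exact absurd ha.2 (not_le.2 h1)

lemma dj_Fp_free (L : Site d →+ ℝ) (a : ℝ) : Free (Fp L a) := by
  intro l hl b hb
  by_contra hb0
  have h1 := hb.1 (dsp l) (dj_mem_exits_append hb0)
  exact absurd hl.2 (not_le.2 h1.2)

/-- The path first reaches level `a` and then leaves the slab through the bottom. -/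
def DjE (L : Site d →+ ℝ) (a t : ℝ) (l : List (Dir d)) : Prop :=
  ∃ γ ∈ Fp L a, ∃ ρ ∈ Ds L t (dsp γ), l = γ ++ ρ

lemma dj_mem_DjDn {L : Site d →+ ℝ} {a t : ℝ} {γ ρ : List (Dir d)} (hγ : γ ∈ Fp L a)
    (hρ : ρ ∈ Ds L t (dsp γ)) : γ ++ ρ ∈ DjDn L := by
  refine ⟨fun x hx => ?_, ?_⟩
  · rw [exits_append, Finset.mem_union, zero_add] at hx
    rcases hx with hx | hx
    · have := (hγ.1 x hx).1
      linarith only [this]
    · exact (hρ.1 x hx).1
  · rw [dsp_append]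
    exact hρ.2

omit [IsProbabilityMeasure μ] in
open Classical in
lemma dj_single {L : Site d →+ ℝ} (a t : ℝ) :
    ∑' γ : Fp L a, Eb μ L t γ.1 ≤ ∑' l : DjDn L, if DjE L a t l.1 then wt μ l.1 else 0 := by
  simp only [Eb]
  rw [← ENNReal.tsum_sigma' (fun p : (γ : Fp L a) × Ds L t (dsp γ.1) => wt μ (p.1.1 ++ p.2.1))]
  let φ : ((γ : Fp L a) × Ds L t (dsp γ.1)) → DjDn L :=
    fun p => ⟨p.1.1 ++ p.2.1, dj_mem_DjDn p.1.2 p.2.2⟩
  have hφ : Function.Injective φ := by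
    rintro ⟨⟨γ, hγ⟩, ⟨ρ, hρ⟩⟩ ⟨⟨γ', hγ'⟩, ⟨ρ', hρ'⟩⟩ heq
    have heq' : γ ++ ρ = γ' ++ ρ' := congrArg Subtype.val heq
    have h0 : γ = γ' := by
      rcases List.append_eq_append_iff.1 heq' with ⟨c, h1, -⟩ | ⟨c, h1, -⟩
      · have := dj_Fp_free L a γ hγ c (h1 ▸ hγ')
        rw [h1, this, List.append_nil]
      · have := dj_Fp_free L a γ' hγ' c (h1 ▸ hγ)
        rw [h1, this, List.append_nil]
    subst h0
    have h1 : ρ = ρ' := List.append_cancel_left heq'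
    subst h1
    rfl
  calc ∑' p : (γ : Fp L a) × Ds L t (dsp γ.1), wt μ (p.1.1 ++ p.2.1)
      = ∑' p : (γ : Fp L a) × Ds L t (dsp γ.1),
          (if DjE L a t (φ p).1 then wt μ (φ p).1 else 0) := by
        refine tsum_congr fun p => ?_
        rw [if_pos ⟨p.1.1, p.1.2, p.2.1, p.2.2, rfl⟩]
    _ ≤ _ := ENNReal.tsum_comp_le_tsum_of_injective hφ
        (fun l : DjDn L => if DjE L a t l.1 then wt μ l.1 else 0)

lemma dj_bounds {L : Site d →+ ℝ} {a t : ℝ} {l : List (Dir d)} (ha : 0 ≤ a) (h : DjE L a t l) :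
    (∃ x ∈ exits 0 l, a ≤ L x) ∧ ∀ x ∈ exits 0 l, L x < t := by
  obtain ⟨γ, hγ, ρ, hρ, rfl⟩ := h
  have hne : ρ ≠ [] := by
    rintro rfl
    have h1 := hρ.2
    have h2 := hγ.2
    simp only [dsp_nil, add_zero] at h1
    linarith only [ha, h2, h1]
  have hin : dsp γ ∈ exits (dsp γ) ρ := by
    rw [mem_exits]
    exact ⟨[], ρ, rfl, hne, by simp⟩
  have hat : a < t := lt_of_le_of_lt hγ.2 (hρ.1 _ hin).2
  refine ⟨⟨dsp γ, dj_mem_exits_append hne, hγ.2⟩, fun x hx => ?_⟩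
  rw [exits_append, Finset.mem_union, zero_add] at hx
  rcases hx with hx | hx
  · exact (hγ.1 x hx).2.trans hat
  · exact (hρ.1 x hx).2

lemma dj_diff {L : Site d →+ ℝ} {c : ℝ} (hc : 0 < c) {K : ℕ} (hK : 4 ≤ c * 2 ^ K)
    {l : List (Dir d)} {i j : ℕ} (hi : DjE L (c * 2 ^ i) (2 ^ (i + 1) + 2) l)
    (hj : DjE L (c * 2 ^ j) (2 ^ (j + 1) + 2) l) : j < i + K := by
  obtain ⟨⟨x, hx, h1⟩, -⟩ := dj_bounds (by positivity) hj
  have h2 := (dj_bounds (by positivity) hi).2 x hx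
  by_contra hcon
  push Not at hcon
  have h3 : c * 2 ^ (i + K) ≤ c * (2 : ℝ) ^ j := by
    gcongr
    norm_num
  have h4 : (1 : ℝ) ≤ 2 ^ i := one_le_pow₀ (by norm_num)
  have h5 : 4 * (2 : ℝ) ^ i ≤ c * 2 ^ (i + K) := by
    rw [pow_add]
    nlinarith only [hK, h4]
  rw [pow_succ] at h2
  linarith only [h1, h2, h3, h4, h5]

open Classical in
lemma dj_count {L : Site d →+ ℝ} {c : ℝ} (hc : 0 < c) {K : ℕ} (hK : 4 ≤ c * 2 ^ K)
    (l : List (Dir d)) (w : ℝ≥0∞) :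
    ∑' j : ℕ, (if DjE L (c * 2 ^ j) (2 ^ (j + 1) + 2) l then w else 0) ≤ K * w := by
  by_cases hex : ∃ j, DjE L (c * 2 ^ j) (2 ^ (j + 1) + 2) l
  · set i := Nat.find hex with hi
    have hi1 := Nat.find_spec hex
    rw [← hi] at hi1
    rw [tsum_eq_sum (s := Finset.Ico i (i + K))]
    · calc _ ≤ ∑ _j ∈ Finset.Ico i (i + K), w := by
            refine Finset.sum_le_sum fun j _ => ?_
            split_ifs
            · exact le_rfl
            · exact zero_le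
        _ = _ := by simp only [Finset.sum_const, Nat.card_Ico, add_tsub_cancel_left, nsmul_eq_mul]
    · intro j hj
      rw [if_neg]
      intro hE
      apply hj
      rw [Finset.mem_Ico]
      exact ⟨Nat.find_min' hex hE, dj_diff hc hK hi1 hE⟩
  · push Not at hex
    simp only [hex, ↓reduceIte, tsum_zero, zero_le]

theorem dj_sum {L : Site d →+ ℝ} (hL : Lvl L) {c : ℝ} (hc : 0 < c) :
    ∑' j : ℕ, ∑' γ : Fp L (c * 2 ^ j), Eb μ L (2 ^ (j + 1) + 2) γ.1 ≠ ⊤ := by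
  classical
  obtain ⟨K, hK⟩ : ∃ K : ℕ, 4 ≤ c * 2 ^ K := by
    obtain ⟨K, hK⟩ := pow_unbounded_of_one_lt (4 / c) (by norm_num : (1 : ℝ) < 2)
    refine ⟨K, ?_⟩
    rw [div_lt_iff₀ hc] at hK
    linarith
  have hle : ∑' j : ℕ, ∑' γ : Fp L (c * 2 ^ j), Eb μ L (2 ^ (j + 1) + 2) γ.1 ≤ K := by
    calc _ ≤ ∑' j : ℕ, ∑' l : DjDn L,
          (if DjE L (c * 2 ^ j) (2 ^ (j + 1) + 2) l.1 then wt μ l.1 else 0) :=
          ENNReal.tsum_le_tsum fun j => dj_single μ _ _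
      _ = ∑' l : DjDn L, ∑' j : ℕ,
          (if DjE L (c * 2 ^ j) (2 ^ (j + 1) + 2) l.1 then wt μ l.1 else 0) := ENNReal.tsum_comm
      _ ≤ ∑' l : DjDn L, K * wt μ l.1 := ENNReal.tsum_le_tsum fun l => dj_count hc hK _ _
      _ = K * ∑' l : DjDn L, wt μ l.1 := ENNReal.tsum_mul_left
      _ ≤ K * 1 := by gcongr; exact tsum_wt_le_one μ (DjDn_free L)
      _ = K := mul_one _
  exact ne_top_of_le_ne_top (ENNReal.natCast_ne_top K) hle

end Vale.Agent.P147.Z
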