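import Vale.Agent.P147.Z.Expo
import Vale.Agent.P147.Z.Tools

/-!
# The end side

`end_bound`: with high probability the last part of a first passage path does not meet too much of
the downward paths that start at its end.
-/

open MeasureTheory
open scoped ENNReal

namespace Vale.Agent.P147.Z

variable {d : ℕ}

namespace EndB

open Expo

variable (μ : Measure (Row d))

lemma wt_mul_le_Ex {D : Set (Site d)} {F : List (Dir d) → ℝ≥0∞} {l : List (Dir d)} {a : ℝ≥0∞}
    (h : ∀ c, a ≤ F (l ++ c)) (n : ℕ) : a * wt μ l ≤ Ex (wt μ) D F n l := by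
  rw [← Ex_const μ (D := D) a n l]
  exact Ex_mono n h

lemma Ex_finset_sum {D : Set (Site d)} {ι : Type*} (B : Finset ι)
    (F : ι → List (Dir d) → ℝ≥0∞) (n : ℕ) (l : List (Dir d)) :
    Ex (wt μ) D (fun l' => ∑ y ∈ B, F y l') n l = ∑ y ∈ B, Ex (wt μ) D (F y) n l := by
  classical
  induction B using Finset.induction_on with
  | empty =>
    simp only [Finset.sum_empty]
    rw [Ex_const, zero_mul]
  | insert y B hy ih =>
    rw [Finset.sum_insert hy, ← ih, ← Ex_add]
    exact Ex_congr n fun c => Finset.sum_insert hy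

/-- Sum over the members of a prefix-free set of bounded length. -/
lemma tree_le {D : Set (Site d)} {S : Set (List (Dir d))} (hS : Free S)
    (hSD : ∀ π ∈ S, ∀ x ∈ exits 0 π, x ∈ D) {F c : List (Dir d) → ℝ≥0∞}
    (hc : ∀ π ∈ S, ∀ r, c π ≤ F (π ++ r)) (n : ℕ) (l0 : List (Dir d)) :
    ∑' r : {r : List (Dir d) | l0 ++ r ∈ S ∧ r.length ≤ n}, c (l0 ++ r.1) * wt μ (l0 ++ r.1) ≤
      Ex (wt μ) D F n l0 := by
  induction n generalizing l0 with
  | zero =>
    have hsub : {r : List (Dir d) | l0 ++ r ∈ S ∧ r.length ≤ 0} ⊆ {r | r = [] ∧ l0 ∈ S} := by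
      rintro r ⟨h1, h2⟩
      have hr : r = [] := List.length_eq_zero_iff.1 (Nat.le_zero.1 h2)
      subst hr
      exact ⟨rfl, by simpa using h1⟩
    by_cases hl : l0 ∈ S
    · calc ∑' r : {r : List (Dir d) | l0 ++ r ∈ S ∧ r.length ≤ 0},
            c (l0 ++ r.1) * wt μ (l0 ++ r.1)
          ≤ ∑' r : ({[]} : Set (List (Dir d))), c (l0 ++ r.1) * wt μ (l0 ++ r.1) :=
            ENNReal.tsum_mono_subtype (fun r => c (l0 ++ r) * wt μ (l0 ++ r))
              fun r hr => (hsub hr).1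
        _ = c l0 * wt μ l0 := by
            rw [tsum_singleton ([] : List (Dir d)) fun r => c (l0 ++ r) * wt μ (l0 ++ r),
              List.append_nil]
        _ ≤ Ex (wt μ) D F 0 l0 := wt_mul_le_Ex μ (hc l0 hl) 0
    · have : IsEmpty {r : List (Dir d) | l0 ++ r ∈ S ∧ r.length ≤ 0} :=
        ⟨fun r => hl (hsub r.2).2⟩
      rw [tsum_empty]
      exact zero_le
  | succ n ih =>
    by_cases hl : l0 ∈ S
    · calc ∑' r : {r : List (Dir d) | l0 ++ r ∈ S ∧ r.length ≤ n + 1},
            c (l0 ++ r.1) * wt μ (l0 ++ r.1)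
          ≤ ∑' r : ({[]} : Set (List (Dir d))), c (l0 ++ r.1) * wt μ (l0 ++ r.1) :=
            ENNReal.tsum_mono_subtype (fun r => c (l0 ++ r) * wt μ (l0 ++ r))
              fun r hr => hS l0 hl r hr.1
        _ = c l0 * wt μ l0 := by
            rw [tsum_singleton ([] : List (Dir d)) fun r => c (l0 ++ r) * wt μ (l0 ++ r),
              List.append_nil]
        _ ≤ Ex (wt μ) D F (n + 1) l0 := wt_mul_le_Ex μ (hc l0 hl) _
    · by_cases hD : dsp l0 ∈ D
      · rw [Ex_succ_mem hD]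
        let A : Dir d → Set (List (Dir d)) := fun u =>
          {r : List (Dir d) | (l0 ++ [u]) ++ r ∈ S ∧ r.length ≤ n}
        let f : (Σ u : Dir d, A u) → {r : List (Dir d) | l0 ++ r ∈ S ∧ r.length ≤ n + 1} :=
          fun p => ⟨p.1 :: p.2.1, by
            have := p.2.2.1
            simpa using this, by
            have := p.2.2.2
            simpa using this⟩
        have hf : Function.Surjective f := by
          rintro ⟨r, h1, h2⟩
          cases r with
          | nil => exact absurd (by simpa using h1) hl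
          | cons u r =>
            exact ⟨⟨u, r, by simpa using h1, by simpa using h2⟩, rfl⟩
        calc ∑' r : {r : List (Dir d) | l0 ++ r ∈ S ∧ r.length ≤ n + 1},
              c (l0 ++ r.1) * wt μ (l0 ++ r.1)
            ≤ ∑' p, c (l0 ++ (f p).1) * wt μ (l0 ++ (f p).1) :=
              ENNReal.tsum_le_tsum_comp_of_surjective hf
                fun r => c (l0 ++ r.1) * wt μ (l0 ++ r.1)
          _ = ∑' u : Dir d, ∑' r : A u, c ((l0 ++ [u]) ++ r.1) * wt μ ((l0 ++ [u]) ++ r.1) := by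
              rw [ENNReal.tsum_sigma']
              refine tsum_congr fun u => tsum_congr fun r => ?_
              simp only [f, List.append_assoc, List.singleton_append]
          _ = ∑ u : Dir d, ∑' r : A u, c ((l0 ++ [u]) ++ r.1) * wt μ ((l0 ++ [u]) ++ r.1) :=
              tsum_fintype _
          _ ≤ ∑ u : Dir d, Ex (wt μ) D F n (l0 ++ [u]) :=
              Finset.sum_le_sum fun u _ => ih (l0 ++ [u])
      · have : IsEmpty {r : List (Dir d) | l0 ++ r ∈ S ∧ r.length ≤ n + 1} := by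
          refine ⟨fun r => ?_⟩
          obtain ⟨r, h1, -⟩ := r
          have hr : r ≠ [] := by
            rintro rfl
            exact hl (by simpa using h1)
          have := hSD _ h1 _ (end_mem_exits 0 l0 hr)
          rw [zero_add] at this
          exact hD this
        rw [tsum_empty]
        exact zero_le

/-- Sum over the members of a prefix-free set. -/
lemma tree_le_of_forall {D : Set (Site d)} {S : Set (List (Dir d))} (hS : Free S)
    (hSD : ∀ π ∈ S, ∀ x ∈ exits 0 π, x ∈ D) {F c : List (Dir d) → ℝ≥0∞}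
    (hc : ∀ π ∈ S, ∀ r, c π ≤ F (π ++ r)) (l0 : List (Dir d)) {K : ℝ≥0∞}
    (hK : ∀ n, Ex (wt μ) D F n l0 ≤ K) :
    ∑' r : {r : List (Dir d) | l0 ++ r ∈ S}, c (l0 ++ r.1) * wt μ (l0 ++ r.1) ≤ K := by
  classical
  refine ENNReal.summable.tsum_le_of_sum_le fun s => ?_
  let n : ℕ := s.sup fun r => r.1.length
  let s' : Finset (List (Dir d)) := s.image Subtype.val
  have hs' : (s' : Set (List (Dir d))) ⊆ {r | l0 ++ r ∈ S ∧ r.length ≤ n} := by
    intro r hr
    rw [Finset.mem_coe, Finset.mem_image] at hr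
    obtain ⟨r', hr', rfl⟩ := hr
    exact ⟨r'.2, Finset.le_sup (f := fun r : {r : List (Dir d) | l0 ++ r ∈ S} => r.1.length) hr'⟩
  calc ∑ r ∈ s, c (l0 ++ r.1) * wt μ (l0 ++ r.1)
      = ∑ r ∈ s', c (l0 ++ r) * wt μ (l0 ++ r) := by
        rw [Finset.sum_image fun a _ b _ h => Subtype.ext h]
    _ = ∑' r : (s' : Set (List (Dir d))), c (l0 ++ r.1) * wt μ (l0 ++ r.1) :=
        (Finset.tsum_subtype' s' fun r => c (l0 ++ r) * wt μ (l0 ++ r)).symm
    _ ≤ ∑' r : {r : List (Dir d) | l0 ++ r ∈ S ∧ r.length ≤ n},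
          c (l0 ++ r.1) * wt μ (l0 ++ r.1) :=
        ENNReal.tsum_mono_subtype (fun r => c (l0 ++ r) * wt μ (l0 ++ r)) hs'
    _ ≤ Ex (wt μ) D F n l0 := tree_le μ hS hSD hc n l0
    _ ≤ K := hK n

open Classical in
lemma kill_eq_of_mem {T : Set (List (Dir d))} {y : Site d} {L : Site d →+ ℝ} {t : ℝ}
    (hT : T ⊆ Ds L t y) (hy : y ∈ Db L t) {S : Finset (Site d)} (hS : y ∈ S) :
    ∑' ρ : T, wt μ ρ.1 ≤ kill μ T y S := by
  refine ENNReal.tsum_le_tsum fun ρ => ?_
  have hne : ρ.1 ≠ [] := by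
    intro h
    have h2 := (hT ρ.2).2
    rw [h, dsp_nil, add_zero] at h2
    exact absurd hy.1 (not_lt.2 h2)
  rw [if_neg]
  intro hdis
  exact (Finset.disjoint_left.1 hdis) (start_mem_exits y hne) hS

lemma mem_sit {D : Set (Site d)} (π r : List (Dir d)) (h : dsp π ∈ D) :
    dsp π ∈ sit D (π ++ r) := by
  classical
  by_cases hr : r = []
  · subst hr
    rw [List.append_nil, sit, if_pos h]
    exact Finset.mem_insert_self _ _
  · have h1 : dsp π ∈ exits 0 (π ++ r) := by
      have := end_mem_exits 0 π hr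
      rwa [zero_add] at this
    rw [sit]
    split_ifs
    · exact Finset.mem_insert_of_mem h1
    · exact h1

end EndB

open Expo EndB

variable (μ : Measure (Row d)) [IsProbabilityMeasure μ]

open Classical in
theorem end_bound {L : Site d →+ ℝ} (hL : Lvl L) {t h N : ℝ} (h0 : 0 ≤ h) (hhN : h ≤ N)
    (hNt : N + 1 ≤ t) (B : Finset (Site d)) (T : Site d → Set (List (Dir d)))
    (hT : ∀ y ∈ B, T y ⊆ Ds L t y) (hTF : ∀ y ∈ B, ∑' ρ : T y, wt μ ρ.1 ≤ 1)
    (hB : ∀ y ∈ B, y ∈ Db L t) {w0 : ℝ≥0∞}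
    (hw : ∀ y ∈ B, w0 ≤ ∑' ρ : T y, wt μ ρ.1) {lam x : ℝ} (hlam : 0 < lam) (hlam1 : lam ≤ 1)
    (hx : 0 ≤ x) :
    ∑' π : Fp L N, (if dsp π.1 ∈ B ∧
        kill μ (T (dsp π.1)) (dsp π.1) (exits 0 (fpre L h π.1)) + ENNReal.ofReal x < w0
        then wt μ π.1 else 0) ≤
      (ENNReal.ofReal lam)⁻¹ * ∑' γ : Fp L h, Eb μ L t γ.1 +
        B.card * ENNReal.ofReal (2 * Real.exp (-x / (2 * (lam * (1 + Real.log (1 / lam)))))) := by
  set K : ℝ≥0∞ := ENNReal.ofReal (2 * Real.exp (-x / (2 * (lam * (1 + Real.log (1 / lam)))))) with hKdef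
  have hlam0 : ENNReal.ofReal lam ≠ 0 := by
    rw [Ne, ENNReal.ofReal_eq_zero, not_le]
    exact hlam
  -- the bound for a fixed beginning
  have main : ∀ γ : Fp L h,
      ∑' r : {r : List (Dir d) | γ.1 ++ r ∈ Fp L N}, (if dsp (γ.1 ++ r.1) ∈ B ∧
        kill μ (T (dsp (γ.1 ++ r.1))) (dsp (γ.1 ++ r.1)) (exits 0 γ.1) + ENNReal.ofReal x < w0
        then wt μ (γ.1 ++ r.1) else 0) ≤
      (ENNReal.ofReal lam)⁻¹ * Eb μ L t γ.1 + B.card * K * wt μ γ.1 := by
    rintro ⟨l0, hl0⟩
    have hl0D : dsp l0 ∈ Db L t := by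
      have h1 := Fp_dsp_lt hL (by linarith : (-1 : ℝ) < h) hl0
      have h2 := hl0.2
      exact ⟨by linarith, by linarith⟩
    let bad : List (Dir d) → Prop := fun l' => ∃ i, l0.length ≤ i ∧ i ≤ l'.length ∧
        dsp (l'.take i) ∈ Db L t ∧
        ENNReal.ofReal lam * wt μ (l'.take i) < Eb μ L t (l'.take i)
    let G : Site d → List (Dir d) → Prop := fun y l' =>
      (∀ i, l0.length ≤ i → i ≤ l'.length →
        dsp (l'.take i) ∈ Db L t → Eb μ L t (l'.take i) ≤ ENNReal.ofReal lam * wt μ (l'.take i)) ∧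
        kill μ (T y) y (exits 0 l0) + ENNReal.ofReal x ≤ kill μ (T y) y (sit (Db L t) l')
    let F1 : List (Dir d) → ℝ≥0∞ := fun l' => if bad l' then 1 else 0
    let F2 : Site d → List (Dir d) → ℝ≥0∞ := fun y l' => if G y l' then 1 else 0
    let F : List (Dir d) → ℝ≥0∞ := fun l' => F1 l' + ∑ y ∈ B, F2 y l'
    let c : List (Dir d) → ℝ≥0∞ := fun π => if dsp π ∈ B ∧
        kill μ (T (dsp π)) (dsp π) (exits 0 l0) + ENNReal.ofReal x < w0 then 1 else 0
    have hSD : ∀ π ∈ Fp L N, ∀ x ∈ exits 0 π, x ∈ Db L t := by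
      intro π hπ x hx
      have := hπ.1 x hx
      exact ⟨by linarith [this.1], by linarith [this.2]⟩
    have hc : ∀ π ∈ Fp L N, ∀ r, c π ≤ F (π ++ r) := by
      intro π hπ r
      by_cases hcond : dsp π ∈ B ∧
        kill μ (T (dsp π)) (dsp π) (exits 0 l0) + ENNReal.ofReal x < w0
      · simp only [c, if_pos hcond, F]
        by_cases hb : bad (π ++ r)
        · simp only [F1, if_pos hb]
          exact le_self_add
        · refine le_trans ?_ le_add_self
          have hG : G (dsp π) (π ++ r) := by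
            refine ⟨fun i h1 h2 h3 => ?_, ?_⟩
            · by_contra hlt
              exact hb ⟨i, h1, h2, h3, not_le.1 hlt⟩
            · refine hcond.2.le.trans ((hw _ hcond.1).trans ?_)
              exact kill_eq_of_mem μ (hT _ hcond.1) (hB _ hcond.1)
                (mem_sit π r (hB _ hcond.1))
          calc (1 : ℝ≥0∞) = F2 (dsp π) (π ++ r) := by simp only [F2, if_pos hG]
            _ ≤ ∑ y ∈ B, F2 y (π ++ r) :=
                Finset.single_le_sum (f := fun y => F2 y (π ++ r)) (fun _ _ => zero_le) hcond.1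
      · simp only [c, if_neg hcond]
        exact zero_le
    have hEx : ∀ n, Ex (wt μ) (Db L t) F n l0 ≤
        (ENNReal.ofReal lam)⁻¹ * Eb μ L t l0 + B.card * K * wt μ l0 := by
      intro n
      have e1 : Ex (wt μ) (Db L t) F n l0 = Ex (wt μ) (Db L t) F1 n l0 +
          ∑ y ∈ B, Ex (wt μ) (Db L t) (F2 y) n l0 := by
        rw [← Ex_finset_sum, ← Ex_add]
      rw [e1]
      refine add_le_add ?_ ?_
      · rw [← ENNReal.mul_le_iff_le_inv hlam0 ENNReal.ofReal_ne_top]
        exact doob_e μ l0 (ENNReal.ofReal lam) n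
      · calc ∑ y ∈ B, Ex (wt μ) (Db L t) (F2 y) n l0 ≤ ∑ _y ∈ B, K * wt μ l0 := by
              refine Finset.sum_le_sum fun y hy => ?_
              exact tail_kill μ hl0D (hT y hy) (hTF y hy) hlam hlam1 hx n
          _ = B.card * K * wt μ l0 := by
              rw [Finset.sum_const, nsmul_eq_mul, mul_assoc]
    have key := tree_le_of_forall μ (Fp_free L N) hSD hc l0 hEx
    refine le_trans (le_of_eq (tsum_congr fun r => ?_)) key
    simp only [c]
    split_ifs
    · rw [one_mul]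
    · rw [zero_mul]
  -- decomposition at the first passage to level `h`
  let f : (Σ γ : Fp L h, {r : List (Dir d) | γ.1 ++ r ∈ Fp L N}) → Fp L N :=
    fun p => ⟨p.1.1 ++ p.2.1, p.2.2⟩
  have hf : Function.Surjective f := by
    rintro ⟨π, hπ⟩
    obtain ⟨r, hr⟩ := exists_fpre L h π
    refine ⟨⟨⟨fpre L h π, fpre_mem hhN hπ⟩, ⟨r, ?_⟩⟩, ?_⟩
    · simp only [Set.mem_ofPred_eq]
      rw [← hr]
      exact hπ
    · exact Subtype.ext hr.symm
  calc ∑' π : Fp L N, (if dsp π.1 ∈ B ∧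
        kill μ (T (dsp π.1)) (dsp π.1) (exits 0 (fpre L h π.1)) + ENNReal.ofReal x < w0
        then wt μ π.1 else 0)
      ≤ ∑' p, (if dsp (f p).1 ∈ B ∧
        kill μ (T (dsp (f p).1)) (dsp (f p).1) (exits 0 (fpre L h (f p).1)) + ENNReal.ofReal x < w0
        then wt μ (f p).1 else 0) :=
        ENNReal.tsum_le_tsum_comp_of_surjective hf fun π => (if dsp π.1 ∈ B ∧
          kill μ (T (dsp π.1)) (dsp π.1) (exits 0 (fpre L h π.1)) + ENNReal.ofReal x < w0
          then wt μ π.1 else 0)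
    _ = ∑' γ : Fp L h, ∑' r : {r : List (Dir d) | γ.1 ++ r ∈ Fp L N},
          (if dsp (γ.1 ++ r.1) ∈ B ∧
        kill μ (T (dsp (γ.1 ++ r.1))) (dsp (γ.1 ++ r.1)) (exits 0 γ.1) + ENNReal.ofReal x < w0
        then wt μ (γ.1 ++ r.1) else 0) := by
        rw [ENNReal.tsum_sigma']
        refine tsum_congr fun γ => tsum_congr fun r => ?_
        simp only [f]
        rw [fpre_append γ.2]
    _ ≤ ∑' γ : Fp L h, ((ENNReal.ofReal lam)⁻¹ * Eb μ L t γ.1 + B.card * K * wt μ γ.1) :=
        ENNReal.tsum_le_tsum main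
    _ = (ENNReal.ofReal lam)⁻¹ * ∑' γ : Fp L h, Eb μ L t γ.1 +
          B.card * K * ∑' γ : Fp L h, wt μ γ.1 := by
        rw [ENNReal.tsum_add, ENNReal.tsum_mul_left, ENNReal.tsum_mul_left]
    _ ≤ (ENNReal.ofReal lam)⁻¹ * ∑' γ : Fp L h, Eb μ L t γ.1 + B.card * K := by
        refine add_le_add le_rfl ?_
        calc B.card * K * ∑' γ : Fp L h, wt μ γ.1 ≤ B.card * K * 1 :=
              mul_le_mul_right (tsum_wt_le_one μ (Fp_free L h)) _
          _ = B.card * K := mul_one _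

end Vale.Agent.P147.Z
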