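import Vale.Agent.P147.Z.Base
attribute [-instance] ProperSMul.toContinuousSMul IsTopologicalTorsor.toContinuousSMul IdemSemiring.toCanonicallyOrderedAdd IdemSemiring.toMulLeftMono IdemSemiring.toMulRightMono AddQuantale.instAddLeftMono AddQuantale.instAddRightMono Quantale.instMulLeftMono Quantale.instMulRightMono FiniteDimensional.rclike_to_real IsScalarTower.complexToReal FiniteDimensional.complexToReal

set_option linter.all false

/-!
# Entropy, total variation and telescoping over scales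

For a probability mass function `κ` on an abelian group with convolution powers `κ ^ n` (law of
`S_n`): the total variation cost of forgetting `S_m` when looking at `S_n` is controlled by the
entropy increment `H (S_n) - H (S_{n-m})`, and entropy grows at most logarithmically, so at most
scales this cost is small.
-/

open scoped ENNReal
open Real

namespace Vale.Agent.P147.Z
namespace Ent

section general

variable {G : Type*} [AddCommGroup G]

/-- The total variation cost: mean over `S_m` of the positive part of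
`law (S_n | S_m) - law (S_n)`. -/
noncomputable def tvg (κ : Cv G) (n m : ℕ) : ℝ≥0∞ :=
  ∑' w, (κ ^ m).v w * ∑' z, ((κ ^ (n - m)).v (z - w) - (κ ^ n).v z)

/-- Convolution powers as real functions. -/
noncomputable def pr (κ : Cv G) (n : ℕ) (z : G) : ℝ := ((κ ^ n).v z).toReal

/-- Entropy of the convolution power. -/
noncomputable def He (κ : Cv G) (n : ℕ) : ℝ≥0∞ := ∑' z, ENNReal.ofReal (negMulLog (pr κ n z))

variable {κ : Cv G} (hκ : Cv.mass κ = 1)

include hκ

lemma mass_pw (n : ℕ) : ∑' z, (κ ^ n).v z = 1 := by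
  have := Cv.mass_pow κ n
  rw [hκ, one_pow] at this
  exact this

lemma v_le_one (n : ℕ) (z : G) : (κ ^ n).v z ≤ 1 := by
  rw [← mass_pw hκ n]; exact ENNReal.le_tsum z

lemma v_ne_top (n : ℕ) (z : G) : (κ ^ n).v z ≠ ∞ :=
  ne_top_of_le_ne_top ENNReal.one_ne_top (v_le_one hκ n z)

lemma ofReal_pr (n : ℕ) (z : G) : ENNReal.ofReal (pr κ n z) = (κ ^ n).v z :=
  ENNReal.ofReal_toReal (v_ne_top hκ n z)

omit hκ in
lemma pr_nonneg (n : ℕ) (z : G) : 0 ≤ pr κ n z := ENNReal.toReal_nonneg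

lemma pr_le_one (n : ℕ) (z : G) : pr κ n z ≤ 1 := by
  have := ENNReal.toReal_mono ENNReal.one_ne_top (v_le_one hκ n z)
  simpa only [pr, ge_iff_le, ENNReal.toReal_one] using this

omit hκ in
lemma conv_v (m k : ℕ) (z : G) : ∑' w, (κ ^ m).v w * (κ ^ k).v (z - w) = (κ ^ (m + k)).v z := by
  rw [pow_add, Cv.mul_v]

omit hκ in
lemma ptw {Q R η : ℝ} (hQ : 0 ≤ Q) (hR : 0 ≤ R) (hη : 0 < η) (h : R = 0 → Q = 0) :
    max (Q - R) 0 + η⁻¹ * (negMulLog Q + Q) ≤ η * Q + η⁻¹ * (Q * (-Real.log R) + R) := by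
  rcases hR.eq_or_lt with h0 | hR
  · have := h h0.symm
    subst this
    subst h0
    simp
  rcases hQ.eq_or_lt with h0 | hQ
  · subst h0
    simp only [zero_sub, negMulLog_zero, zero_add, mul_zero, zero_mul, add_zero]
    rw [max_eq_right (by linarith)]
    positivity
  -- KL integrand
  set s := Real.sqrt Q with hs
  set t := Real.sqrt R with ht
  have hs0 : 0 < s := Real.sqrt_pos.2 hQ
  have ht0 : 0 < t := Real.sqrt_pos.2 hR
  have hsQ : s ^ 2 = Q := Real.sq_sqrt hQ.le
  have htR : t ^ 2 = R := Real.sq_sqrt hR.le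
  have hlogQ : Real.log Q = 2 * Real.log s := by rw [← hsQ, Real.log_pow]; norm_num
  have hlogR : Real.log R = 2 * Real.log t := by rw [← htR, Real.log_pow]; norm_num
  have hlog : Real.log t - Real.log s ≤ t / s - 1 := by
    rw [← Real.log_div ht0.ne' hs0.ne']
    exact Real.log_le_sub_one_of_pos (by positivity)
  have h1 : s ^ 2 * (Real.log t - Real.log s) ≤ s * t - s ^ 2 := by
    have := mul_le_mul_of_nonneg_left hlog (sq_nonneg s)
    have e : s ^ 2 * (t / s - 1) = s * t - s ^ 2 := by (clear * - hs0; field_simp)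
    linarith only [this, e]
  have hKL : (s - t) ^ 2 ≤ -negMulLog Q - Q * Real.log R - Q + R := by
    rw [negMulLog, hlogQ, hlogR, ← hsQ, ← htR]
    linarith
  -- positive part
  have hpos : max (Q - R) 0 ≤ η * Q + η⁻¹ * (s - t) ^ 2 := by
    refine max_le ?_ (by (clear * - hη hQ; positivity))
    have e1 : Q - R = (s - t) * (s + t) := by rw [← hsQ, ← htR]; ring
    rcases le_total s t with hst | hst
    · have : Q - R ≤ 0 := by rw [e1]; nlinarith only [hs0, hst]
      have : 0 ≤ η * Q + η⁻¹ * (s - t) ^ 2 := by (clear * - hη hQ; positivity)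
      (clear h hs ht ht0 hlogQ hlogR hlog h1 hKL; linarith)
    · have h2 : Q - R ≤ 2 * s * (s - t) := by rw [e1]; nlinarith
      have h3 : 2 * s * (s - t) ≤ η * s ^ 2 + η⁻¹ * (s - t) ^ 2 := by
        have h4 : 0 ≤ η⁻¹ * (η * s - (s - t)) ^ 2 := by (clear * - hη; positivity)
        have e2 : η⁻¹ * (η * s - (s - t)) ^ 2 =
            η * s ^ 2 - 2 * s * (s - t) + η⁻¹ * (s - t) ^ 2 := by
          field_simp
          ring
        linarith only [h4, e2]
      rw [hsQ] at h3
      linarith only [h2, h3]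
  have h5 : η⁻¹ * (s - t) ^ 2 ≤ η⁻¹ * (-negMulLog Q - Q * Real.log R - Q + R) :=
    mul_le_mul_of_nonneg_left hKL (by positivity)
  have e3 : η⁻¹ * (-negMulLog Q - Q * Real.log R - Q + R) =
      η⁻¹ * (Q * (-Real.log R) + R) - η⁻¹ * (negMulLog Q + Q) := by ring
  linarith only [hpos, h5]

lemma negMulLog_pr_nonneg (n : ℕ) (z : G) : 0 ≤ negMulLog (pr κ n z) :=
  negMulLog_nonneg (pr_nonneg n z) (pr_le_one hκ n z)

lemma neg_log_pr_nonneg (n : ℕ) (z : G) : 0 ≤ -Real.log (pr κ n z) := by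
  have := Real.log_nonpos (pr_nonneg n z) (pr_le_one hκ n z)
  linarith only [this]

/-- The basic inequality, in extended nonnegative reals. -/
lemma basic {n m : ℕ} (hmn : m ≤ n) {η : ℝ} (hη : 0 < η) :
    tvg κ n m + ENNReal.ofReal η⁻¹ * (He κ (n - m) + 1) ≤
      ENNReal.ofReal η + ENNReal.ofReal η⁻¹ * (He κ n + 1) := by
  have hcv : ∀ z, ∑' w, (κ ^ m).v w * (κ ^ (n - m)).v (z - w) = (κ ^ n).v z := by
    intro z
    rw [conv_v, Nat.add_sub_cancel' hmn]
  have hshift : ∀ (f : G → ℝ≥0∞) (w : G), ∑' z, f (z - w) = ∑' z, f z := by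
    intro f w
    exact (Equiv.subRight w).tsum_eq f
  -- pointwise inequality
  have hp : ∀ w z, (κ ^ m).v w * ((κ ^ (n - m)).v (z - w) - (κ ^ n).v z) +
      ENNReal.ofReal η⁻¹ * ((κ ^ m).v w * ENNReal.ofReal (negMulLog (pr κ (n - m) (z - w))) +
        (κ ^ m).v w * (κ ^ (n - m)).v (z - w)) ≤
      ENNReal.ofReal η * ((κ ^ m).v w * (κ ^ (n - m)).v (z - w)) +
      ENNReal.ofReal η⁻¹ * ((κ ^ m).v w * (κ ^ (n - m)).v (z - w) *
        ENNReal.ofReal (-Real.log (pr κ n z)) + (κ ^ m).v w * (κ ^ n).v z) := by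
    intro w z
    by_cases hP : (κ ^ m).v w = 0
    · rw [hP]; simp only [zero_mul, add_zero, mul_zero, Std.le_refl]
    set Q := pr κ (n - m) (z - w) with hQ
    set R := pr κ n z with hR
    have hQ0 : 0 ≤ Q := pr_nonneg _ _
    have hR0 : 0 ≤ R := pr_nonneg _ _
    have hQR : R = 0 → Q = 0 := by
      intro h0
      have h1 : (κ ^ n).v z = 0 := by rw [← ofReal_pr hκ, ← hR, h0, ENNReal.ofReal_zero]
      have h2 : (κ ^ m).v w * (κ ^ (n - m)).v (z - w) ≤ 0 := by
        rw [← h1, ← hcv z]; exact ENNReal.le_tsum w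
      have h3 := mul_eq_zero.1 (nonpos_iff_eq_zero.1 h2)
      have h4 : (κ ^ (n - m)).v (z - w) = 0 := h3.resolve_left hP
      rw [hQ, pr, h4]; simp
    have key := ptw hQ0 hR0 hη hQR
    have keyE := ENNReal.ofReal_le_ofReal key
    have hnm := negMulLog_pr_nonneg hκ (n - m) (z - w)
    rw [← hQ] at hnm
    have hlr := neg_log_pr_nonneg hκ n z
    rw [← hR] at hlr
    rw [ENNReal.ofReal_add (le_max_right _ _) (by (clear * - hη hnm hQ0; positivity)),
      ENNReal.ofReal_mul (by positivity), ENNReal.ofReal_add hnm hQ0,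
      ENNReal.ofReal_add (by (clear * - hη hQ0; positivity)) (by (clear * - hη hQ0 hlr hR0; positivity)),
      ENNReal.ofReal_mul hη.le, ENNReal.ofReal_mul (inv_nonneg.2 hη.le),
      ENNReal.ofReal_add (by (clear * - hQ0 hlr; positivity)) hR0, ENNReal.ofReal_mul hQ0,
      ENNReal.ofReal_max, ENNReal.ofReal_zero, max_eq_left zero_le',
      ENNReal.ofReal_sub _ hR0] at keyE
    rw [hQ, hR, ofReal_pr hκ, ofReal_pr hκ, ← hQ, ← hR] at keyE
    calc _ = (κ ^ m).v w * ((κ ^ (n - m)).v (z - w) - (κ ^ n).v z +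
          ENNReal.ofReal η⁻¹ * (ENNReal.ofReal (negMulLog Q) + (κ ^ (n - m)).v (z - w))) := by ring
      _ ≤ (κ ^ m).v w * (ENNReal.ofReal η * (κ ^ (n - m)).v (z - w) +
          ENNReal.ofReal η⁻¹ * ((κ ^ (n - m)).v (z - w) * ENNReal.ofReal (-Real.log R) +
            (κ ^ n).v z)) := by (clear * - keyE; gcongr)
      _ = _ := by ring
  have hsum := ENNReal.tsum_le_tsum fun w => ENNReal.tsum_le_tsum fun z => hp w z
  simp only [ENNReal.tsum_add, ENNReal.tsum_mul_left] at hsum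
  -- evaluate the sums
  have e1 : ∀ w, ∑' z, (κ ^ (n - m)).v (z - w) = 1 := fun w => by
    rw [hshift (κ ^ (n - m)).v w]; exact mass_pw hκ _
  have e2 : ∀ w, ∑' z, ENNReal.ofReal (negMulLog (pr κ (n - m) (z - w))) = He κ (n - m) :=
    fun w => hshift (fun z => ENNReal.ofReal (negMulLog (pr κ (n - m) z))) w
  have e3 : ∑' w, ∑' z, (κ ^ m).v w * (κ ^ (n - m)).v (z - w) *
        ENNReal.ofReal (-Real.log (pr κ n z)) = He κ n := by
    rw [ENNReal.tsum_comm, He]
    refine tsum_congr fun z => ?_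
    rw [ENNReal.tsum_mul_right, hcv z, negMulLog, neg_mul, ← mul_neg,
      ENNReal.ofReal_mul (pr_nonneg n z), ofReal_pr hκ]
  have e4 : ∑' w, (κ ^ m).v w = 1 := mass_pw hκ m
  have e5 : ∑' z, (κ ^ n).v z = 1 := mass_pw hκ n
  simp only [e1, e2, e3, e5, mul_one] at hsum
  rw [e4, ENNReal.tsum_mul_right, e4, one_mul, mul_one] at hsum
  exact hsum

/-- Entropy is nondecreasing. -/
lemma He_mono {n k : ℕ} (hkn : k ≤ n) : He κ k ≤ He κ n := by
  refine ENNReal.le_of_forall_pos_le_add fun ε hε htop => ?_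
  have hε' : (0 : ℝ) < ε := by exact_mod_cast hε
  set η : ℝ := Real.sqrt ε with hη
  have hη0 : 0 < η := Real.sqrt_pos.2 hε'
  have hsq : η * η = ε := Real.mul_self_sqrt hε'.le
  have h := basic hκ (n := n) (m := n - k) (Nat.sub_le _ _) hη0
  rw [Nat.sub_sub_self hkn] at h
  have h1 : ENNReal.ofReal η⁻¹ * (He κ k + 1) ≤
      ENNReal.ofReal η + ENNReal.ofReal η⁻¹ * (He κ n + 1) := le_trans le_add_self h
  have hinv : ENNReal.ofReal η * ENNReal.ofReal η⁻¹ = 1 := by
    rw [← ENNReal.ofReal_mul hη0.le, mul_inv_cancel₀ hη0.ne', ENNReal.ofReal_one]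
  have h3 : He κ k + 1 ≤ (He κ n + ε) + 1 := by
    calc He κ k + 1 = ENNReal.ofReal η * (ENNReal.ofReal η⁻¹ * (He κ k + 1)) := by
          rw [← mul_assoc, hinv, one_mul]
      _ ≤ ENNReal.ofReal η * (ENNReal.ofReal η + ENNReal.ofReal η⁻¹ * (He κ n + 1)) := by (clear * - h1; gcongr)
      _ = ENNReal.ofReal η * ENNReal.ofReal η + (He κ n + 1) := by
          rw [mul_add, ← mul_assoc (ENNReal.ofReal η) (ENNReal.ofReal η⁻¹), hinv, one_mul]
      _ = (He κ n + ε) + 1 := by
          rw [← ENNReal.ofReal_mul hη0.le, hsq, ENNReal.ofReal_coe_nnreal]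
          ring
  exact (ENNReal.add_le_add_iff_right ENNReal.one_ne_top).1 h3

/-- The entropy as a real number. -/
noncomputable def Hr (κ : Cv G) (n : ℕ) : ℝ := (He κ n).toReal

omit hκ in
lemma Hr_nonneg (n : ℕ) : 0 ≤ Hr κ n := ENNReal.toReal_nonneg

lemma Hr_mono (hfin : ∀ n, He κ n ≠ ∞) {n k : ℕ} (hkn : k ≤ n) : Hr κ k ≤ Hr κ n :=
  ENNReal.toReal_mono (hfin n) (He_mono hκ hkn)

lemma tvg_le (hfin : ∀ n, He κ n ≠ ∞) {n m : ℕ} (hmn : m ≤ n) {η : ℝ} (hη : 0 < η) :
    tvg κ n m ≤ ENNReal.ofReal (η + η⁻¹ * (Hr κ n - Hr κ (n - m))) := by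
  have h := basic hκ hmn hη
  have e : ∀ k, He κ k + 1 = ENNReal.ofReal (Hr κ k + 1) := fun k => by
    rw [ENNReal.ofReal_add (Hr_nonneg k) zero_le_one, Hr, ENNReal.ofReal_toReal (hfin k),
      ENNReal.ofReal_one]
  rw [e, e, ← ENNReal.ofReal_mul (by positivity), ← ENNReal.ofReal_mul (by positivity),
    ← ENNReal.ofReal_add hη.le (by have := Hr_nonneg (κ := κ) n; positivity)] at h
  have h2 : tvg κ n m ≤ ENNReal.ofReal (η + η⁻¹ * (Hr κ n + 1)) -
      ENNReal.ofReal (η⁻¹ * (Hr κ (n - m) + 1)) :=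
    ENNReal.le_sub_of_add_le_right ENNReal.ofReal_ne_top h
  rw [← ENNReal.ofReal_sub _ (by have := Hr_nonneg (κ := κ) (n - m); positivity)] at h2
  refine h2.trans (le_of_eq ?_)
  congr 1
  ring

omit hκ in
lemma tele (H : ℕ → ℝ) (hH : Monotone H) (m : ℕ) {A B : ℕ} (hmA : m ≤ A) (hAB : A ≤ B) :
    ∑ n ∈ Finset.Ico A B, (H n - H (n - m)) ≤ m * (H (B - 1) - H (A - m)) := by
  induction m with
  | zero => simp only [tsub_zero, sub_self, Finset.sum_const_zero, CharP.cast_eq_zero, zero_mul, Std.le_refl]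
  | succ m ih =>
    have h1 := ih (by omega)
    have h2 : ∀ B, A ≤ B → ∑ n ∈ Finset.Ico A B, (H (n - m) - H (n - (m + 1))) =
        H (B - 1 - m) - H (A - 1 - m) := by
      intro B hB
      induction B, hB using Nat.le_induction with
      | base => simp only [Std.le_refl, Finset.Ico_eq_empty_of_le, Finset.sum_sub_distrib, Finset.sum_empty, sub_self]
      | succ B hB ihB =>
        rw [Finset.sum_Ico_succ_top hB, ihB]
        have e1 : B + 1 - 1 - m = B - m := by omega
        have e2 : B - 1 - m = B - (m + 1) := by omega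
        rw [e1, e2]
        ring
    have h3 : ∑ n ∈ Finset.Ico A B, (H n - H (n - (m + 1))) =
        ∑ n ∈ Finset.Ico A B, (H n - H (n - m)) +
          ∑ n ∈ Finset.Ico A B, (H (n - m) - H (n - (m + 1))) := by
      rw [← Finset.sum_add_distrib]
      exact Finset.sum_congr rfl fun n _ => by ring
    rw [h3, h2 B hAB]
    have h4 : H (B - 1 - m) ≤ H (B - 1) := hH (by omega)
    have h5 : H (A - (m + 1)) ≤ H (A - m) := hH (by omega)
    have h6 : H (A - 1 - m) = H (A - (m + 1)) := by congr 1; omega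
    rw [h6]
    have h7 : (m : ℝ) * (H (B - 1) - H (A - m)) ≤ m * (H (B - 1) - H (A - (m + 1))) := by
      (clear * - h5; gcongr)
    push_cast
    linarith only [h1, h4, h7]

/-- Good scales: most scales have a bounded entropy bracket, and there the total variation cost
is small, once the forgotten part is a small fraction. -/
theorem scales (hfin : ∀ n, He κ n ≠ ∞) {C₅ : ℝ} (hC₅ : 0 ≤ C₅)
    (hgrow : ∀ i : ℕ, Hr κ (2 ^ i) ≤ C₅ * (1 + i)) (a b : ℕ) {ε : ℝ} (hε : 0 < ε) :
    ∃ (e₀ : ℕ) (GS : Set ℕ), b < e₀ ∧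
      (∀ J, 8 * (Set.ncard {j | b + 1 ≤ j ∧ j < J ∧ j ∉ GS}) ≤ J) ∧
      ∀ e ≥ e₀, ∀ j ∈ GS, e ≤ j →
        ∑ n ∈ Finset.Icc (2 ^ (j - b)) (2 ^ (j + a)), tvg κ n (2 ^ (j - e)) ≤
          ENNReal.ofReal (ε * 2 ^ j) := by
  classical
  set F : ℕ → ℝ := fun i => Hr κ (2 ^ i) with hF
  have hFm : Monotone F := fun i k hik =>
    Hr_mono hκ hfin (Nat.pow_le_pow_right (by norm_num) hik)
  have hF0 : ∀ i, 0 ≤ F i := fun i => Hr_nonneg _
  set br : ℕ → ℝ := fun j => F (j + a) - F (j - (b + 1)) with hbr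
  have hbr0 : ∀ j, 0 ≤ br j := fun j => sub_nonneg.2 (hFm (by omega))
  set C₆ : ℝ := ((a + b + 1 : ℕ) : ℝ) * (C₅ * (2 + a)) + 1 with hC₆
  have hC₆0 : 0 < C₆ := by (clear * - hC₅; positivity)
  have hsumbr : ∀ J, 1 ≤ J → ∑ j ∈ Finset.Ico (b + 1) J, br j ≤ C₆ * J := by
    intro J hJ
    rcases lt_or_ge J (b + 1) with h | h
    · rw [Finset.Ico_eq_empty (by omega), Finset.sum_empty]; (clear * - hC₅ hJ; positivity)
    have h1 : ∑ j ∈ Finset.Ico (b + 1) J, br j =
        ∑ n ∈ Finset.Ico (b + 1 + a) (J + a), (F n - F (n - (a + b + 1))) := by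
      rw [← Finset.sum_Ico_add' (fun n => F n - F (n - (a + b + 1))) (b + 1) J a]
      refine Finset.sum_congr rfl fun j hj => ?_
      rw [hbr]
      simp only
      congr 2
      omega
    rw [h1]
    have h2 := tele F hFm (a + b + 1) (A := b + 1 + a) (B := J + a) (by omega) (by omega)
    refine h2.trans ?_
    have h3 : F (J + a - 1) ≤ C₅ * (1 + (J + a : ℕ)) := (hFm (by omega)).trans (hgrow _)
    have h4 := hF0 (b + 1 + a - (a + b + 1))
    have h5 : F (J + a - 1) - F (b + 1 + a - (a + b + 1)) ≤ C₅ * (2 + a) * J := by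
      have hJ' : (1 : ℝ) ≤ J := by exact_mod_cast hJ
      have h6 : C₅ * (1 + ((J + a : ℕ) : ℝ)) ≤ C₅ * (2 + a) * J := by
        rw [mul_assoc]
        refine mul_le_mul_of_nonneg_left ?_ hC₅
        push_cast
        have : (a : ℝ) ≤ a * J := by
          have ha : (0 : ℝ) ≤ a := by (clear * -; positivity)
          nlinarith only [hJ']
        nlinarith only [hJ']
      linarith only [h3, h4, h6]
    have h7 : ((a + b + 1 : ℕ) : ℝ) * (F (J + a - 1) - F (b + 1 + a - (a + b + 1))) ≤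
        ((a + b + 1 : ℕ) : ℝ) * (C₅ * (2 + a) * J) := by (clear * - h5; gcongr)
    refine h7.trans ?_
    rw [hC₆]
    have : (0 : ℝ) ≤ J := by positivity
    nlinarith only []
  set C₂ : ℝ := 8 * C₆ with hC₂
  have hC₂0 : 0 < C₂ := by (clear * - hC₅; positivity)
  set GS : Set ℕ := {j | b + 1 ≤ j ∧ br j ≤ C₂} with hGS
  set η : ℝ := ε / (2 * (2 ^ a + 1)) with hη
  have hη0 : 0 < η := by positivity
  obtain ⟨e₁, he₁⟩ := pow_unbounded_of_one_lt (2 * C₂ / (ε * η)) (one_lt_two : (1 : ℝ) < 2)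
  refine ⟨max e₁ (b + 1), GS, lt_of_lt_of_le (Nat.lt_succ_self b) (le_max_right _ _), ?_, ?_⟩
  · intro J
    set Bad : Finset ℕ := {j ∈ Finset.Ico (b + 1) J | ¬ br j ≤ C₂} with hBad
    have hset : {j | b + 1 ≤ j ∧ j < J ∧ j ∉ GS} = (Bad : Set ℕ) := by
      ext j
      simp only [hBad, hGS, Finset.coe_filter, Finset.mem_Ico, Set.mem_ofPred_eq]
      constructor
      · rintro ⟨h1, h2, h3⟩
        exact ⟨⟨h1, h2⟩, fun h4 => h3 ⟨h1, h4⟩⟩
      · rintro ⟨⟨h1, h2⟩, h3⟩
        exact ⟨h1, h2, fun h4 => h3 h4.2⟩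
    rw [hset, Set.ncard_coe_finset]
    rcases Nat.eq_zero_or_pos J with hJ0 | hJ0
    · subst hJ0
      simp only [hBad, not_le, le_add_iff_nonneg_left, zero_le, Finset.Ico_eq_empty_of_le, Finset.filter_empty, Finset.card_empty, mul_zero, Std.le_refl]
    have h1 : (Bad.card : ℝ) * C₂ ≤ C₆ * J := by
      calc (Bad.card : ℝ) * C₂ = ∑ _j ∈ Bad, C₂ := by rw [Finset.sum_const, nsmul_eq_mul]
        _ ≤ ∑ j ∈ Bad, br j := by
            refine Finset.sum_le_sum fun j hj => ?_
            rw [hBad, Finset.mem_filter] at hj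
            exact (not_le.1 hj.2).le
        _ ≤ ∑ j ∈ Finset.Ico (b + 1) J, br j :=
            Finset.sum_le_sum_of_subset_of_nonneg (Finset.filter_subset _ _)
              fun j _ _ => hbr0 j
        _ ≤ C₆ * J := hsumbr J hJ0
    have h2 : (8 * Bad.card : ℝ) ≤ J := by
      rw [hC₂] at h1
      have : C₆ * (8 * Bad.card : ℝ) ≤ C₆ * J := by linarith only [h1]
      exact le_of_mul_le_mul_left this hC₆0
    exact_mod_cast h2
  · intro e he j hj hej
    have he1 : e₁ ≤ e := le_trans (le_max_left _ _) he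
    have heb : b + 1 ≤ e := le_trans (le_max_right _ _) he
    obtain ⟨hj1, hj2⟩ := hj
    set m := 2 ^ (j - e) with hm
    set A := 2 ^ (j - b) with hA
    set B := 2 ^ (j + a) with hB
    have hmA : m ≤ 2 ^ (j - (b + 1)) := Nat.pow_le_pow_right (by norm_num) (by omega)
    have hA2 : A = 2 * 2 ^ (j - (b + 1)) := by
      rw [hA, ← pow_succ']; congr 1; omega
    have hAB : A ≤ B := Nat.pow_le_pow_right (by norm_num) (by omega)
    have hHm : Monotone (Hr κ) := fun i k hik => Hr_mono hκ hfin hik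
    calc ∑ n ∈ Finset.Icc A B, tvg κ n m
        ≤ ∑ n ∈ Finset.Icc A B, ENNReal.ofReal (η + η⁻¹ * (Hr κ n - Hr κ (n - m))) := by
          refine Finset.sum_le_sum fun n hn => tvg_le hκ hfin ?_ hη0
          rw [Finset.mem_Icc] at hn
          omega
      _ = ENNReal.ofReal (∑ n ∈ Finset.Icc A B, (η + η⁻¹ * (Hr κ n - Hr κ (n - m)))) := by
          rw [ENNReal.ofReal_sum_of_nonneg]
          intro n hn
          have : 0 ≤ Hr κ n - Hr κ (n - m) := sub_nonneg.2 (hHm (Nat.sub_le _ _))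
          (clear * - hε this; positivity)
      _ ≤ ENNReal.ofReal (ε * 2 ^ j) := by
          apply ENNReal.ofReal_le_ofReal
          have hIcc : Finset.Icc A B = Finset.Ico A (B + 1) := by
            ext n; simp only [Finset.mem_Icc, Finset.mem_Ico]; omega
          rw [Finset.sum_add_distrib, ← Finset.mul_sum, Finset.sum_const, nsmul_eq_mul, hIcc,
            Nat.card_Ico]
          have h1 := tele (Hr κ) hHm m (A := A) (B := B + 1) (by omega) (by omega)
          rw [Nat.add_sub_cancel] at h1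
          have h2 : Hr κ (2 ^ (j - (b + 1))) ≤ Hr κ (A - m) := hHm (by omega)
          have h3 : Hr κ B - Hr κ (A - m) ≤ C₂ := by
            have : br j = Hr κ B - Hr κ (2 ^ (j - (b + 1))) := rfl
            rw [this] at hj2
            linarith only [hj2, h2]
          have h4 : ((B + 1 - A : ℕ) : ℝ) ≤ (2 ^ a + 1) * 2 ^ j := by
            have h41 : B + 1 - A ≤ 2 ^ a * 2 ^ j + 2 ^ j := by
              have : B = 2 ^ a * 2 ^ j := by rw [hB, pow_add]; ring
              have h42 : 1 ≤ 2 ^ j := Nat.one_le_two_pow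
              omega
            calc ((B + 1 - A : ℕ) : ℝ) ≤ ((2 ^ a * 2 ^ j + 2 ^ j : ℕ) : ℝ) := by exact_mod_cast h41
              _ = _ := by push_cast; ring
          have h5 : ((B + 1 - A : ℕ) : ℝ) * η ≤ ε * 2 ^ j / 2 := by
            calc ((B + 1 - A : ℕ) : ℝ) * η ≤ ((2 ^ a + 1) * 2 ^ j) * η := by (clear * - h4 hε; gcongr)
              _ = ε * 2 ^ j / 2 := by rw [hη]; field_simp
          have h6 : (m : ℝ) * 2 ^ e = 2 ^ j := by
            rw [hm]
            push_cast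
            rw [← pow_add, Nat.sub_add_cancel hej]
          have h7 : (2 : ℝ) ^ e₁ ≤ 2 ^ e := pow_le_pow_right₀ (by norm_num) he1
          have h8 : 2 * C₂ / (ε * η) ≤ 2 ^ e := he₁.le.trans h7
          have h9 : η⁻¹ * ((m : ℝ) * C₂) ≤ ε * 2 ^ j / 2 := by
            rw [← h6]
            rw [div_le_iff₀ (by positivity)] at h8
            have h10 : (m : ℝ) * (2 * C₂) ≤ m * (2 ^ e * (ε * η)) :=
              mul_le_mul_of_nonneg_left h8 (by positivity)
            have h11 : η⁻¹ * ((m : ℝ) * (2 * C₂)) ≤ η⁻¹ * (m * (2 ^ e * (ε * η))) :=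
              mul_le_mul_of_nonneg_left h10 (by positivity)
            have h12 : η⁻¹ * (m * (2 ^ e * (ε * η))) = ε * (m * 2 ^ e) := by
              (clear * - hη0 hε; field_simp)
            have h13 : η⁻¹ * ((m : ℝ) * (2 * C₂)) = 2 * (η⁻¹ * (m * C₂)) := by ring
            linarith only [h11, h12]
          have h14 : η⁻¹ * ∑ n ∈ Finset.Ico A (B + 1), (Hr κ n - Hr κ (n - m)) ≤
              η⁻¹ * ((m : ℝ) * C₂) := by
            refine mul_le_mul_of_nonneg_left (h1.trans ?_) (by positivity)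
            (clear * - h3; gcongr)
          linarith only [h5, h9, h14]

end general

section lattice

variable {d : ℕ}

lemma summable_w1 : Summable (fun k : ℤ => ((1 + |(k : ℝ)|) ^ 2)⁻¹) := by
  have h : Summable (fun n : ℕ => ((1 + |((n : ℤ) : ℝ)|) ^ 2)⁻¹) := by
    have h0 := (summable_nat_add_iff 1).2 (Real.summable_nat_pow_inv.2 one_lt_two)
    refine h0.congr fun n => ?_
    have : |((n : ℤ) : ℝ)| = n := by simp
    rw [this]
    push_cast
    ring
  refine Summable.of_nat_of_neg h ?_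
  refine h.congr fun n => ?_
  simp

/-- Normalising constant. -/
noncomputable def Z1 : ℝ := ∑' k : ℤ, ((1 + |(k : ℝ)|) ^ 2)⁻¹

lemma one_le_Z1 : 1 ≤ Z1 := by
  have h := summable_w1.le_tsum 0 (fun k _ => by positivity)
  simpa only [Z1, ge_iff_le, Int.cast_zero, abs_zero, add_zero, one_pow, inv_one] using h

/-- One-dimensional reference weights. -/
noncomputable def w1 (k : ℤ) : ℝ := ((1 + |(k : ℝ)|) ^ 2)⁻¹ / Z1

lemma w1_pos (k : ℤ) : 0 < w1 k := by
  have := one_le_Z1
  unfold w1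
  positivity

lemma tsum_w1 : ∑' k : ℤ, ENNReal.ofReal (w1 k) = 1 := by
  rw [← ENNReal.ofReal_tsum_of_nonneg (fun k => (w1_pos k).le) (summable_w1.div_const _)]
  unfold w1
  rw [tsum_div_const]
  have := one_le_Z1
  rw [show (∑' k : ℤ, ((1 + |(k : ℝ)|) ^ 2)⁻¹) = Z1 from rfl, div_self (by positivity),
    ENNReal.ofReal_one]

/-- Reference weights. -/
noncomputable def nu (z : Site d) : ℝ := ∏ i, w1 (z i)

lemma nu_pos (z : Site d) : 0 < nu z := Finset.prod_pos fun i _ => w1_pos _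

lemma ofReal_nu (z : Site d) : ENNReal.ofReal (nu z) = ∏ i, ENNReal.ofReal (w1 (z i)) := by
  rw [nu, ENNReal.ofReal_prod_of_nonneg fun i _ => (w1_pos _).le]

lemma sum_nu_le (s : Finset (Site d)) : ∑ z ∈ s, ENNReal.ofReal (nu z) ≤ 1 := by
  classical
  simp only [ofReal_nu]
  have hsub : s ⊆ Fintype.piFinset (fun i => s.image fun z => z i) := by
    intro z hz
    rw [Fintype.mem_piFinset]
    exact fun i => Finset.mem_image_of_mem _ hz
  refine (Finset.sum_le_sum_of_subset hsub).trans ?_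
  have h2 := Finset.prod_univ_sum (fun i => s.image fun z : Site d => z i)
    (fun _ k => ENNReal.ofReal (w1 k))
  rw [← h2]
  refine Finset.prod_le_one' fun i _ => ?_
  rw [← tsum_w1]
  exact ENNReal.sum_le_tsum _

lemma tsum_nu : ∑' z : Site d, ENNReal.ofReal (nu z) ≤ 1 := by
  rw [ENNReal.tsum_eq_iSup_sum]
  exact iSup_le fun s => sum_nu_le s

lemma neg_log_nu (z : Site d) :
    -Real.log (nu z) ≤ d * Real.log Z1 + 2 * d * Real.log (1 + ‖z‖) := by
  have hZ := one_le_Z1
  rw [nu, Real.log_prod (fun i _ => (w1_pos _).ne'), ← Finset.sum_neg_distrib]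
  calc ∑ i, -Real.log (w1 (z i)) ≤ ∑ _i : Fin d, (Real.log Z1 + 2 * Real.log (1 + ‖z‖)) := by
        refine Finset.sum_le_sum fun i _ => ?_
        unfold w1
        rw [Real.log_div (by positivity) (by positivity), Real.log_inv, Real.log_pow]
        have h1 : |(z i : ℝ)| ≤ ‖z‖ := by
          have := norm_le_pi_norm z i
          rwa [Int.norm_eq_abs] at this
        have h2 : Real.log (1 + |(z i : ℝ)|) ≤ Real.log (1 + ‖z‖) :=
          Real.log_le_log (by positivity) (by linarith)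
        push_cast
        linarith only [h2]
    _ = _ := by
        rw [Finset.sum_const, Finset.card_univ, Fintype.card_fin, nsmul_eq_mul]
        ring

/-- Upper bound for the entropy by the cross entropy with the reference weights. -/
lemma He_le_cross {κ : Cv (Site d)} (hκ : Cv.mass κ = 1) (n : ℕ) :
    He κ n ≤ ∑' z, (κ ^ n).v z * ENNReal.ofReal (-Real.log (nu z)) := by
  have hw1le : ∀ z : Site d, nu z ≤ 1 := by
    intro z
    have h := (ENNReal.le_tsum z).trans (tsum_nu (d := d))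
    exact ENNReal.ofReal_le_one.1 h
  have hpt : ∀ z, ENNReal.ofReal (negMulLog (pr κ n z)) + (κ ^ n).v z ≤
      (κ ^ n).v z * ENNReal.ofReal (-Real.log (nu z)) + ENNReal.ofReal (nu z) := by
    intro z
    have h0 := pr_nonneg (κ := κ) n z
    have hnu := nu_pos z
    have hln : 0 ≤ -Real.log (nu z) := by
      have := Real.log_nonpos hnu.le (hw1le z); linarith only [this]
    have key : negMulLog (pr κ n z) + pr κ n z ≤ pr κ n z * (-Real.log (nu z)) + nu z := by
      rcases h0.eq_or_lt with h | h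
      · rw [← h]; simp only [negMulLog_zero, add_zero, mul_neg, zero_mul, neg_zero, zero_add]; exact hnu.le
      · have h1 : Real.log (nu z) - Real.log (pr κ n z) ≤ nu z / pr κ n z - 1 := by
          rw [← Real.log_div hnu.ne' h.ne']
          exact Real.log_le_sub_one_of_pos (by positivity)
        have h2 := mul_le_mul_of_nonneg_left h1 h.le
        have e : pr κ n z * (nu z / pr κ n z - 1) = nu z - pr κ n z := by (clear * - h; field_simp)
        rw [negMulLog]
        linarith only [h2, e]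
    have h3 := ENNReal.ofReal_le_ofReal key
    rw [ENNReal.ofReal_add (negMulLog_pr_nonneg hκ n z) h0, ENNReal.ofReal_add (by positivity)
      hnu.le, ENNReal.ofReal_mul h0, ofReal_pr hκ] at h3
    exact h3
  have hs := ENNReal.tsum_le_tsum hpt
  rw [ENNReal.tsum_add, ENNReal.tsum_add, mass_pw hκ n] at hs
  have h4 := hs.trans (add_le_add_right (tsum_nu (d := d)) _)
  exact (ENNReal.add_le_add_iff_right ENNReal.one_ne_top).1 h4

/-- Concave weight. -/
noncomputable def wth (θ : ℝ) (z : Site d) : ℝ := (1 + ‖z‖) ^ θ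

lemma wth_pos (θ : ℝ) (z : Site d) : 0 < wth θ z := Real.rpow_pos_of_pos (by positivity) _

lemma wth_add {θ : ℝ} (h0 : 0 ≤ θ) (h1 : θ ≤ 1) (y z : Site d) :
    wth θ (y + z) ≤ wth θ y + wth θ z := by
  unfold wth
  calc (1 + ‖y + z‖) ^ θ ≤ ((1 + ‖y‖) + (1 + ‖z‖)) ^ θ := by
        refine Real.rpow_le_rpow (by positivity) ?_ h0
        have := norm_add_le y z
        linarith
    _ ≤ _ := Real.rpow_add_le_add_rpow (by positivity) (by positivity) h0 h1

lemma mean_wth {κ : Cv (Site d)} (hκ : Cv.mass κ = 1) {θ : ℝ} (h0 : 0 ≤ θ) (h1 : θ ≤ 1)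
    {A : ℝ≥0∞} (hA : ∑' z, κ.v z * ENNReal.ofReal (wth θ z) ≤ A) (n : ℕ) :
    ∑' z, (κ ^ n).v z * ENNReal.ofReal (wth θ z) ≤ 1 + n * A := by
  induction n with
  | zero =>
    rw [pow_zero, tsum_eq_single 0]
    · simp [Cv.one_def, wth]
    · intro z hz
      rw [Cv.one_def, Cv.pt_v_ne hz, zero_mul]
  | succ n ih =>
    have hsub : ∀ y z : Site d, ENNReal.ofReal (wth θ z) ≤
        ENNReal.ofReal (wth θ y) + ENNReal.ofReal (wth θ (z - y)) := by
      intro y z
      rw [← ENNReal.ofReal_add (wth_pos _ _).le (wth_pos _ _).le]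
      refine ENNReal.ofReal_le_ofReal ?_
      have := wth_add h0 h1 y (z - y)
      rwa [add_sub_cancel] at this
    calc ∑' z, (κ ^ (n + 1)).v z * ENNReal.ofReal (wth θ z)
        = ∑' z, ∑' y, (κ ^ n).v y * κ.v (z - y) * ENNReal.ofReal (wth θ z) := by
          refine tsum_congr fun z => ?_
          rw [pow_succ, Cv.mul_v, ENNReal.tsum_mul_right]
      _ ≤ ∑' z, ∑' y, ((κ ^ n).v y * ENNReal.ofReal (wth θ y) * κ.v (z - y) +
            (κ ^ n).v y * (κ.v (z - y) * ENNReal.ofReal (wth θ (z - y)))) := by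
          refine ENNReal.tsum_le_tsum fun z => ENNReal.tsum_le_tsum fun y => ?_
          calc _ ≤ (κ ^ n).v y * κ.v (z - y) *
                (ENNReal.ofReal (wth θ y) + ENNReal.ofReal (wth θ (z - y))) := by
                gcongr; exact hsub y z
            _ = _ := by ring
      _ = ∑' y, ∑' z, ((κ ^ n).v y * ENNReal.ofReal (wth θ y) * κ.v (z - y) +
            (κ ^ n).v y * (κ.v (z - y) * ENNReal.ofReal (wth θ (z - y)))) := ENNReal.tsum_comm
      _ = ∑' y, ((κ ^ n).v y * ENNReal.ofReal (wth θ y) +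
            (κ ^ n).v y * ∑' z, κ.v z * ENNReal.ofReal (wth θ z)) := by
          refine tsum_congr fun y => ?_
          have hs1 : ∑' z, κ.v (z - y) = 1 := ((Equiv.subRight y).tsum_eq κ.v).trans hκ
          have hs2 : ∑' z, κ.v (z - y) * ENNReal.ofReal (wth θ (z - y)) =
              ∑' z, κ.v z * ENNReal.ofReal (wth θ z) :=
            (Equiv.subRight y).tsum_eq (fun z => κ.v z * ENNReal.ofReal (wth θ z))
          rw [ENNReal.tsum_add, ENNReal.tsum_mul_left, ENNReal.tsum_mul_left, hs1, hs2, mul_one]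
      _ ≤ (1 + n * A) + 1 * A := by
          rw [ENNReal.tsum_add, ENNReal.tsum_mul_right, mass_pw hκ n]
          (clear * - ih hA; gcongr)
      _ = 1 + (n + 1 : ℕ) * A := by push_cast; ring

lemma norm_le_of_mem_bx {R : ℕ} {x : Site d} (hx : x ∈ bx d R) : ‖x‖ ≤ R := by
  rw [bx, Fintype.mem_piFinset] at hx
  rw [pi_norm_le_iff_of_nonneg (by positivity)]
  intro i
  have := hx i
  rw [Finset.mem_Icc] at this
  rw [Int.norm_eq_abs, abs_le]
  constructor
  · have h := this.1; exact_mod_cast h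
  · have h := this.2; exact_mod_cast h

lemma wth_le_count (K : ℕ) (x : Site d) :
    ENNReal.ofReal (wth (1 / (K + 1 : ℝ)) x) ≤
      2 + ∑' n : ℕ, (if x ∈ bx d (n ^ K) then 0 else 1 : ℝ≥0∞) := by
  classical
  by_cases hex : ∃ n : ℕ, x ∈ bx d (n ^ K)
  · set m := Nat.find hex with hm
    have hmem : x ∈ bx d (m ^ K) := Nat.find_spec hex
    have h1 : (m : ℝ≥0∞) ≤ ∑' n : ℕ, (if x ∈ bx d (n ^ K) then 0 else 1 : ℝ≥0∞) := by
      calc (m : ℝ≥0∞) = ∑ n ∈ Finset.range m, 1 := by simp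
        _ = ∑ n ∈ Finset.range m, (if x ∈ bx d (n ^ K) then 0 else 1 : ℝ≥0∞) := by
            refine Finset.sum_congr rfl fun n hn => ?_
            rw [if_neg (Nat.find_min hex (Finset.mem_range.1 hn))]
        _ ≤ _ := ENNReal.sum_le_tsum _
    have h2 : wth (1 / (K + 1 : ℝ)) x ≤ 2 + m := by
      have hn := norm_le_of_mem_bx hmem
      unfold wth
      have h3 : 1 + ‖x‖ ≤ (2 + (m : ℝ)) ^ (K + 1) := by
        have h4 : (m : ℝ) ^ K ≤ (2 + (m : ℝ)) ^ K := by gcongr; linarith only []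
        have h5 : (1 : ℝ) ≤ (2 + (m : ℝ)) ^ K := one_le_pow₀ (by
          have : (0 : ℝ) ≤ m := by positivity
          linarith only [])
        have h6 : (2 : ℝ) * (2 + (m : ℝ)) ^ K ≤ (2 + (m : ℝ)) ^ (K + 1) := by
          rw [pow_succ, mul_comm]
          gcongr
          have : (0 : ℝ) ≤ m := by positivity
          linarith only []
        push_cast at hn
        linarith only [h4, h5, h6, hn]
      calc (1 + ‖x‖) ^ (1 / (K + 1 : ℝ)) ≤ ((2 + (m : ℝ)) ^ (K + 1)) ^ (1 / (K + 1 : ℝ)) :=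
            Real.rpow_le_rpow (by positivity) h3 (by positivity)
        _ = 2 + m := by
            rw [← Real.rpow_natCast, ← Real.rpow_mul (by positivity)]
            have : ((K + 1 : ℕ) : ℝ) * (1 / (K + 1 : ℝ)) = 1 := by
              push_cast; (clear * -; field_simp)
            rw [this, Real.rpow_one]
    calc ENNReal.ofReal (wth (1 / (K + 1 : ℝ)) x) ≤ ENNReal.ofReal (2 + m) :=
          ENNReal.ofReal_le_ofReal h2
      _ = 2 + m := by
          rw [ENNReal.ofReal_add (by norm_num) (by positivity), ENNReal.ofReal_natCast]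
          norm_num
      _ ≤ _ := by gcongr
  · have : ∑' n : ℕ, (if x ∈ bx d (n ^ K) then 0 else 1 : ℝ≥0∞) = ⊤ := by
      have h : ∀ n : ℕ, (if x ∈ bx d (n ^ K) then 0 else 1 : ℝ≥0∞) = 1 := fun n =>
        if_neg fun hn => hex ⟨n, hn⟩
      simp only [h]
      exact ENNReal.tsum_const_eq_top_of_ne_zero one_ne_zero
    rw [this]
    simp

lemma mean_wth_ne_top {κ : Cv (Site d)} (hκ : Cv.mass κ = 1) (ht : PolyTail κ) :
    ∃ K : ℕ, ∑' z, κ.v z * ENNReal.ofReal (wth (1 / (K + 1 : ℝ)) z) ≠ ⊤ := by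
  classical
  obtain ⟨K, n0, hK⟩ := ht
  refine ⟨K, ?_⟩
  have hb : ∑' z, κ.v z * ENNReal.ofReal (wth (1 / (K + 1 : ℝ)) z) ≤
      2 + ∑' n : ℕ, ∑' x, (if x ∈ bx d (n ^ K) then 0 else κ.v x) := by
    calc ∑' z, κ.v z * ENNReal.ofReal (wth (1 / (K + 1 : ℝ)) z)
        ≤ ∑' z, κ.v z * (2 + ∑' n : ℕ, (if z ∈ bx d (n ^ K) then 0 else 1 : ℝ≥0∞)) := by
          refine ENNReal.tsum_le_tsum fun z => ?_
          gcongr
          exact wth_le_count K z
      _ = ∑' z, (κ.v z * 2 + ∑' n : ℕ, (if z ∈ bx d (n ^ K) then 0 else κ.v z)) := by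
          refine tsum_congr fun z => ?_
          rw [mul_add, ← ENNReal.tsum_mul_left]
          congr 1
          refine tsum_congr fun n => ?_
          split_ifs <;> simp
      _ = 2 + ∑' n : ℕ, ∑' x, (if x ∈ bx d (n ^ K) then 0 else κ.v x) := by
          rw [ENNReal.tsum_add, ENNReal.tsum_mul_right, show ∑' z, κ.v z = 1 from hκ, one_mul,
            ENNReal.tsum_comm]
  refine ne_top_of_le_ne_top ?_ hb
  have h1 : ∀ n : ℕ, ∑' x, (if x ∈ bx d (n ^ K) then 0 else κ.v x) ≤
      (if n < n0 + 1 then 1 else 0) + ENNReal.ofReal (((n : ℝ) ^ 2)⁻¹) := by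
    intro n
    by_cases hn : n < n0 + 1
    · rw [if_pos hn]
      refine le_add_right ?_
      calc _ ≤ ∑' x, κ.v x := ENNReal.tsum_le_tsum fun x => by split_ifs <;> simp
        _ = 1 := hκ
    · rw [if_neg hn, zero_add]
      refine (hK n (by omega)).trans (le_of_eq ?_)
      have hn0 : (0 : ℝ) < n := by
        have : 0 < n := by omega
        exact_mod_cast this
      rw [ENNReal.ofReal_inv_of_pos (by positivity), ENNReal.ofReal_pow hn0.le,
        ENNReal.ofReal_natCast]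
  have h2 : ∑' n : ℕ, ∑' x, (if x ∈ bx d (n ^ K) then 0 else κ.v x) ≤
      (∑' n : ℕ, (if n < n0 + 1 then 1 else 0 : ℝ≥0∞)) +
        ∑' n : ℕ, ENNReal.ofReal (((n : ℝ) ^ 2)⁻¹) := by
    rw [← ENNReal.tsum_add]
    exact ENNReal.tsum_le_tsum h1
  have h3 : ∑' n : ℕ, (if n < n0 + 1 then 1 else 0 : ℝ≥0∞) ≠ ⊤ := by
    rw [tsum_eq_sum (s := Finset.range (n0 + 1))]
    · refine ENNReal.sum_ne_top.2 fun n _ => ?_
      split_ifs <;> simp
    · intro n hn
      rw [if_neg (by simpa only [Order.lt_add_one_iff, not_le, Finset.mem_range] using hn)]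
  have h4 : ∑' n : ℕ, ENNReal.ofReal (((n : ℝ) ^ 2)⁻¹) ≠ ⊤ :=
    (Real.summable_nat_pow_inv.2 one_lt_two).tsum_ofReal_ne_top
  exact ENNReal.add_ne_top.2 ⟨by norm_num, ne_top_of_le_ne_top (ENNReal.add_ne_top.2 ⟨h3, h4⟩) h2⟩

/-- Logarithmic growth of the entropy. -/
lemma He_growth {κ : Cv (Site d)} (hκ : Cv.mass κ = 1) (ht : PolyTail κ) :
    (∀ n, He κ n ≠ ∞) ∧ ∃ C₅ : ℝ, 0 ≤ C₅ ∧ ∀ i : ℕ, Hr κ (2 ^ i) ≤ C₅ * (1 + i) := by
  obtain ⟨K, hK⟩ := mean_wth_ne_top hκ ht
  set θ : ℝ := 1 / (K + 1 : ℝ) with hθ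
  have hθ0 : 0 < θ := by (clear * -; positivity)
  have hθ1 : θ ≤ 1 := by
    rw [hθ, div_le_one (by positivity)]
    have : (0 : ℝ) ≤ K := by positivity
    linarith only []
  set A : ℝ := max (∑' z, κ.v z * ENNReal.ofReal (wth θ z)).toReal 1 with hA
  have hA1 : 1 ≤ A := le_max_right _ _
  have hAle : ∑' z, κ.v z * ENNReal.ofReal (wth θ z) ≤ ENNReal.ofReal A := by
    rw [← ENNReal.ofReal_toReal hK]
    exact ENNReal.ofReal_le_ofReal (le_max_left _ _)
  set c₁ : ℝ := d * Real.log Z1 with hc₁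
  have hc₁0 : 0 ≤ c₁ := by
    have := Real.log_nonneg one_le_Z1
    (clear * - this; positivity)
  set c₂ : ℝ := 2 * d / θ with hc₂
  have hc₂0 : 0 ≤ c₂ := by (clear * -; positivity)
  have hlogA : 0 ≤ Real.log A := Real.log_nonneg hA1
  have main : ∀ n : ℕ, He κ n ≤
      ENNReal.ofReal (c₁ + c₂ + c₂ * Real.log A + c₂ * Real.log (n + 1)) := by
    intro n
    set N : ℝ := (n + 1) * A with hN
    have hN0 : 0 < N := by (clear * -; positivity)
    have hN1 : 1 ≤ N := by
      rw [hN]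
      have : (0 : ℝ) ≤ n := by positivity
      nlinarith only [hA1]
    have hlogN : Real.log N = Real.log (n + 1) + Real.log A :=
      Real.log_mul (by (clear * -; positivity)) (by positivity)
    have hlogN0 : 0 ≤ Real.log N := Real.log_nonneg hN1
    have hpt : ∀ z : Site d, -Real.log (nu z) ≤ (c₁ + c₂ * Real.log N) + c₂ / N * wth θ z := by
      intro z
      refine (neg_log_nu z).trans ?_
      have h1 : Real.log (1 + ‖z‖) = (1 / θ) * Real.log (wth θ z) := by
        rw [wth, Real.log_rpow (by (clear * -; positivity))]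
        (clear * - hθ0; field_simp)
      have h2 : Real.log (wth θ z) ≤ wth θ z / N + Real.log N := by
        have h3 := Real.log_le_sub_one_of_pos (div_pos (wth_pos θ z) hN0)
        rw [Real.log_div (wth_pos θ z).ne' hN0.ne'] at h3
        linarith only [h3]
      rw [h1]
      have h4 : 2 * (d : ℝ) * (1 / θ * Real.log (wth θ z)) ≤
          c₂ * (wth θ z / N + Real.log N) := by
        have : 2 * (d : ℝ) * (1 / θ * Real.log (wth θ z)) = c₂ * Real.log (wth θ z) := by
          rw [hc₂]; (clear * - hθ0; field_simp)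
        rw [this]
        (clear * - h2; gcongr)
      have h5 : c₂ * (wth θ z / N + Real.log N) = c₂ / N * wth θ z + c₂ * Real.log N := by
        (clear * - hN0; field_simp)
      rw [← hc₁]
      linarith only [h4, h5]
    calc He κ n ≤ ∑' z, (κ ^ n).v z * ENNReal.ofReal (-Real.log (nu z)) := He_le_cross hκ n
      _ ≤ ∑' z, ((κ ^ n).v z * ENNReal.ofReal (c₁ + c₂ * Real.log N) +
            (κ ^ n).v z * ENNReal.ofReal (wth θ z) * ENNReal.ofReal (c₂ / N)) := by
          refine ENNReal.tsum_le_tsum fun z => ?_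
          calc _ ≤ (κ ^ n).v z * ENNReal.ofReal ((c₁ + c₂ * Real.log N) + c₂ / N * wth θ z) := by
                gcongr; exact hpt z
            _ = _ := by
                rw [ENNReal.ofReal_add (by (clear * - hc₁0 hlogN0; positivity))
                  (mul_nonneg (by (clear * -; positivity)) (wth_pos θ z).le),
                  ENNReal.ofReal_mul (by (clear * -; positivity))]
                ring
      _ = ENNReal.ofReal (c₁ + c₂ * Real.log N) +
            (∑' z, (κ ^ n).v z * ENNReal.ofReal (wth θ z)) * ENNReal.ofReal (c₂ / N) := by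
          rw [ENNReal.tsum_add, ENNReal.tsum_mul_right, ENNReal.tsum_mul_right, mass_pw hκ n,
            one_mul]
      _ ≤ ENNReal.ofReal (c₁ + c₂ * Real.log N) + ENNReal.ofReal N * ENNReal.ofReal (c₂ / N) := by
          gcongr
          refine (mean_wth hκ hθ0.le hθ1 hAle n).trans ?_
          rw [hN, add_mul, one_mul, ENNReal.ofReal_add (by (clear * -; positivity)) (by positivity),
            ENNReal.ofReal_mul (by (clear * -; positivity)), ENNReal.ofReal_natCast, add_comm]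
          gcongr
          exact ENNReal.one_le_ofReal.2 hA1
      _ = ENNReal.ofReal (c₁ + c₂ + c₂ * Real.log A + c₂ * Real.log (n + 1)) := by
          rw [← ENNReal.ofReal_mul hN0.le, ← ENNReal.ofReal_add (by (clear * - hc₁0 hlogN0; positivity)) (by (clear * -; positivity))]
          congr 1
          rw [hlogN]
          field_simp
          ring
  have hfin : ∀ n, He κ n ≠ ∞ := fun n => ne_top_of_le_ne_top ENNReal.ofReal_ne_top (main n)
  refine ⟨hfin, c₁ + c₂ + c₂ * Real.log A + c₂, by (clear * - hc₁0 hlogA; positivity), fun i => ?_⟩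
  have h1 := ENNReal.toReal_mono ENNReal.ofReal_ne_top (main (2 ^ i))
  have hl : Real.log (((2 ^ i : ℕ) : ℝ) + 1) ≤ i + 1 := by
    have h2 : (((2 ^ i : ℕ) : ℝ) + 1) ≤ 2 ^ (i + 1) := by
      push_cast
      have : (1 : ℝ) ≤ 2 ^ i := one_le_pow₀ (by norm_num)
      rw [pow_succ]
      linarith only [this]
    calc Real.log (((2 ^ i : ℕ) : ℝ) + 1) ≤ Real.log (2 ^ (i + 1)) :=
          Real.log_le_log (by positivity) h2
      _ = (i + 1) * Real.log 2 := by rw [Real.log_pow]; push_cast; ring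
      _ ≤ (i + 1) * 1 := by
          gcongr
          have := Real.log_two_lt_d9
          linarith only [this]
      _ = i + 1 := by ring
  have hl0 : 0 ≤ Real.log (((2 ^ i : ℕ) : ℝ) + 1) := Real.log_nonneg (by
    have : (0 : ℝ) ≤ ((2 ^ i : ℕ) : ℝ) := by positivity
    linarith only [])
  rw [ENNReal.toReal_ofReal (by (clear * - hc₁0 hlogA hl0; positivity))] at h1
  calc Hr κ (2 ^ i) ≤ c₁ + c₂ + c₂ * Real.log A + c₂ * Real.log (((2 ^ i : ℕ) : ℝ) + 1) := h1
    _ ≤ c₁ + c₂ + c₂ * Real.log A + c₂ * (i + 1) := by (clear * - hl; gcongr)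
    _ ≤ (c₁ + c₂ + c₂ * Real.log A + c₂) * (1 + i) := by
        have : 0 ≤ (c₁ + c₂ + c₂ * Real.log A) * i := by (clear * - hc₁0 hlogA; positivity)
        nlinarith only [this]

end lattice

end Ent

variable {d : ℕ}

open Classical in
theorem good_scales (κ : Cv (Site d)) (hκ : κ.mass = 1) (ht : PolyTail κ) (kc C k0 : ℕ)
    (ε : ℝ≥0∞) (hε : ε ≠ 0) :
    ∃ k, k0 ≤ k ∧ kc < k ∧ ∃ J0, ∀ J, J0 ≤ J → 4 * ((Finset.range J).filter (fun j =>
      ¬ (∑ n ∈ Finset.Icc (2 ^ (j - kc)) (C * 2 ^ j), tv κ n (2 ^ (j - k)) ≤ ε * 2 ^ j))).card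
        ≤ J := by
  obtain ⟨hfin, C₅, hC₅, hgrow⟩ := Ent.He_growth hκ ht
  obtain ⟨ε', hε', hεε⟩ : ∃ ε' : ℝ, 0 < ε' ∧ ENNReal.ofReal ε' ≤ ε := by
    rcases eq_or_ne ε ⊤ with h | h
    · exact ⟨1, one_pos, by rw [h]; exact le_top⟩
    · exact ⟨ε.toReal, ENNReal.toReal_pos hε h, by rw [ENNReal.ofReal_toReal h]⟩
  obtain ⟨a, ha⟩ : ∃ a : ℕ, C ≤ 2 ^ a := ⟨C, Nat.lt_two_pow_self.le⟩
  obtain ⟨e₀, GS, hbe, hdens, hGS⟩ := Ent.scales hκ hfin hC₅ hgrow a kc hε'
  set k := max e₀ k0 with hk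
  refine ⟨k, le_max_right _ _, lt_of_lt_of_le hbe (le_max_left _ _), 8 * k, fun J hJ => ?_⟩
  set Bd := (Finset.range J).filter (fun j =>
      ¬ (∑ n ∈ Finset.Icc (2 ^ (j - kc)) (C * 2 ^ j), tv κ n (2 ^ (j - k)) ≤ ε * 2 ^ j)) with hBd
  have hsub : Bd ⊆ Finset.range k ∪ ((Finset.range J).filter
      (fun j => kc + 1 ≤ j ∧ j ∉ GS)) := by
    intro j hj
    rw [hBd, Finset.mem_filter, Finset.mem_range] at hj
    rw [Finset.mem_union, Finset.mem_range, Finset.mem_filter, Finset.mem_range]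
    by_contra hcon
    push Not at hcon
    obtain ⟨h1, h2⟩ := hcon
    have hbe' : kc < k := lt_of_lt_of_le hbe (le_max_left _ _)
    have hjG : j ∈ GS := h2 hj.1 (by omega)
    have h3 := hGS k (le_max_left _ _) j hjG h1
    apply hj.2
    calc ∑ n ∈ Finset.Icc (2 ^ (j - kc)) (C * 2 ^ j), tv κ n (2 ^ (j - k))
        ≤ ∑ n ∈ Finset.Icc (2 ^ (j - kc)) (2 ^ (j + a)), tv κ n (2 ^ (j - k)) := by
          refine Finset.sum_le_sum_of_subset (Finset.Icc_subset_Icc le_rfl ?_)
          rw [pow_add, mul_comm]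
          (clear * - ha; gcongr)
      _ ≤ ENNReal.ofReal (ε' * 2 ^ j) := h3
      _ = ENNReal.ofReal ε' * 2 ^ j := by
          rw [ENNReal.ofReal_mul hε'.le, ENNReal.ofReal_pow (by norm_num)]
          norm_num
      _ ≤ ε * 2 ^ j := by (clear * - hεε; gcongr)
  have h1 := Finset.card_le_card hsub
  have h2 := Finset.card_union_le (Finset.range k) ((Finset.range J).filter
      (fun j => kc + 1 ≤ j ∧ j ∉ GS))
  have h3 := hdens J
  have h4 : ({j | kc + 1 ≤ j ∧ j < J ∧ j ∉ GS} : Set ℕ) =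
      (((Finset.range J).filter (fun j => kc + 1 ≤ j ∧ j ∉ GS) : Finset ℕ) : Set ℕ) := by
    ext j
    simp only [Finset.coe_filter, Finset.mem_range, Set.mem_ofPred_eq]
    (clear * -; tauto)
  rw [h4, Set.ncard_coe_finset] at h3
  rw [Finset.card_range] at h2
  omega

end Vale.Agent.P147.Z
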