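import Vale.Agent.P147.Z.Recur

/-!
# Polynomial growth of the width of slabs, and polynomial tail of a block
-/

open MeasureTheory
open scoped ENNReal

namespace Vale.Agent.P147.Z

variable {d : ℕ} (μ : Measure (Row d)) [IsProbabilityMeasure μ]

namespace Gr

lemma exists_scale {M n : ℕ} (hM : 1 ≤ M) (hn : M ≤ n) :
    ∃ j, M * 2 ^ j ≤ n ∧ n < M * 2 ^ (j + 1) := by
  have h0 : n / M ≠ 0 := by
    have := Nat.div_pos hn hM
    omega
  refine ⟨Nat.log 2 (n / M), ?_, ?_⟩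
  · have h1 := Nat.pow_log_le_self 2 h0
    rw [mul_comm]
    exact (Nat.le_div_iff_mul_le hM).1 h1
  · have h1 := Nat.lt_pow_succ_log_self (b := 2) (by norm_num) (n / M)
    rw [mul_comm]
    exact (Nat.div_lt_iff_lt_mul hM).1 h1

lemma poly_beats {θ C : ℝ≥0∞} (hθ : θ < 1) (hC : C ≠ ⊤) (k : ℕ) :
    ∃ n0 : ℕ, ∀ n : ℕ, n0 ≤ n → C * θ ^ n ≤ ((n : ℝ≥0∞) ^ k)⁻¹ := by
  have hθt : θ ≠ ⊤ := ne_top_of_lt hθ
  have hr : |θ.toReal| < 1 := by
    rw [abs_of_nonneg ENNReal.toReal_nonneg]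
    have := (ENNReal.toReal_lt_toReal hθt ENNReal.one_ne_top).2 hθ
    simpa using this
  have h1 := tendsto_pow_const_mul_const_pow_of_abs_lt_one k hr
  have h2 : Filter.Tendsto (fun n : ℕ => C.toReal * ((n : ℝ) ^ k * θ.toReal ^ n)) Filter.atTop
      (nhds 0) := by simpa using h1.const_mul C.toReal
  obtain ⟨n0, hn0⟩ := Filter.eventually_atTop.1 (h2.eventually (ge_mem_nhds zero_lt_one))
  refine ⟨n0, fun n hn => ?_⟩
  rw [ENNReal.le_inv_iff_mul_le]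
  have h3 := hn0 n hn
  have h4 : C * θ ^ n * (n : ℝ≥0∞) ^ k =
      ENNReal.ofReal (C.toReal * ((n : ℝ) ^ k * θ.toReal ^ n)) := by
    rw [ENNReal.ofReal_mul ENNReal.toReal_nonneg, ENNReal.ofReal_mul (by positivity),
      ENNReal.ofReal_pow (by positivity), ENNReal.ofReal_pow ENNReal.toReal_nonneg,
      ENNReal.ofReal_natCast, ENNReal.ofReal_toReal hC, ENNReal.ofReal_toReal hθt]
    ring
  rw [h4]
  exact ENNReal.ofReal_le_one.2 h3

end Gr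

open Gr

theorem growth {L : Site d →+ ℝ} (hL : Lvl L) (hμ : Elliptic μ) {q : ℝ≥0∞}
    (hq0 : q ≠ 0) (hq : ∀ a, q ≤ fu μ L a) :
    ∃ K n0 : ℕ, ∀ n : ℕ, n0 ≤ n →
      ∑' π : Rch L (n : ℝ) (n ^ K), wt μ π.1 ≤ ((n : ℝ≥0∞) ^ 2)⁻¹ := by
  obtain ⟨M, s0, B, hM, hs0, hB, htube⟩ := tube_growth μ hL hμ hq0 hq
  obtain ⟨u0, hu0⟩ := hL.top
  set θ : ℝ≥0∞ := 1 - (wt μ [u0] * (q / 2)) ^ 2 with hθ
  have hθ1 : θ < 1 := by
    refine ENNReal.sub_lt_self ENNReal.one_ne_top one_ne_zero ?_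
    exact pow_ne_zero _ (mul_ne_zero (wt_ne_zero μ hμ _) (ENNReal.div_pos hq0 (by simp)).ne')
  obtain ⟨n1, hn1⟩ := poly_beats (C := 2 * d) hθ1
    (ENNReal.mul_ne_top (by simp) (ENNReal.natCast_ne_top d)) 2
  refine ⟨B + 3, max n1 (max M (48 * s0)), fun n hn => ?_⟩
  have hnn1 : n1 ≤ n := le_trans (le_max_left _ _) hn
  have hnM : M ≤ n := le_trans ((le_max_left _ _).trans (le_max_right _ _)) hn
  have hns : 48 * s0 ≤ n := le_trans ((le_max_right _ _).trans (le_max_right _ _)) hn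
  obtain ⟨j, hj1, hj2⟩ := exists_scale hM hnM
  have h2j : 2 ^ j ≤ n := le_trans (Nat.le_mul_of_pos_left _ hM) hj1
  have hBj : B ^ j ≤ n ^ B := by
    calc B ^ j ≤ (2 ^ B) ^ j := Nat.pow_le_pow_left (Nat.lt_two_pow_self).le _
      _ = (2 ^ j) ^ B := by rw [← pow_mul, ← pow_mul, mul_comm]
      _ ≤ n ^ B := Nat.pow_le_pow_left h2j _
  have harith : 24 * (s0 * B ^ j) * (M * 2 ^ j) * (n + 1) ≤ n ^ (B + 3) := by
    calc 24 * (s0 * B ^ j) * (M * 2 ^ j) * (n + 1)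
        ≤ 24 * (s0 * n ^ B) * n * (n + 1) := by gcongr
      _ ≤ 24 * (s0 * n ^ B) * n * (2 * n) := by
          gcongr
          omega
      _ = (48 * s0) * n ^ B * n * n := by ring
      _ ≤ n * n ^ B * n * n := by gcongr
      _ = n ^ (B + 3) := by ring
  refine (lateral μ hL hu0 (n := M * 2 ^ j) (s := s0 * B ^ j) (k := n) (R := n ^ (B + 3))
    (g := q / 2) (t := n) (Nat.mul_pos hM (by positivity)) (Nat.mul_pos hs0 (Nat.pow_pos hB))
    (htube j) ?_ harith).trans (hn1 n hnn1)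
  have h3 : (n : ℝ) ≤ ((M * 2 ^ (j + 1) : ℕ) : ℝ) := by exact_mod_cast hj2.le
  push_cast at h3 ⊢
  rw [pow_succ] at h3
  linarith

namespace Gr

/-- A bridge of small height whose end is outside a box starts with a path of `Rch`. -/
lemma bridge_prefix {L : Site d →+ ℝ} {b : List (Dir d)} (hb : b ∈ Br L) {h : ℝ}
    (hh : L (dsp b) < h) {R : ℕ} (hout : dsp b ∉ bx d R) :
    ∃ a c, b = a ++ c ∧ a ∈ Rch L h R := by
  obtain ⟨a, c, hac, h1, h2⟩ := Lat.exists_first (fun l => dsp l ∉ bx d R) b hout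
  have hlev : ∀ a' c', b = a' ++ c' → 0 ≤ L (dsp a') ∧ L (dsp a') < h := by
    intro a' c' h3
    rcases eq_or_ne c' [] with rfl | hc
    · rw [List.append_nil] at h3
      rw [← h3]
      exact ⟨Br_nonneg hb, hh⟩
    · have h4 := hb (dsp a') (by rw [h3]; exact mem_exits_prefix hc)
      exact ⟨h4.1, h4.2.trans hh⟩
  refine ⟨a, c, hac, fun x hx => ?_, ?_, h1⟩
  · obtain ⟨a', c', h3, hc', rfl⟩ := mem_exits.1 hx
    rw [zero_add]
    have h4 := hlev a' (c' ++ c) (by rw [← List.append_assoc, ← h3, hac])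
    exact ⟨⟨by linarith [h4.1], h4.2⟩, not_not.1 (h2 a' c' h3 hc')⟩
  · have h4 := hlev a c hac
    exact ⟨by linarith [h4.1], h4.2⟩

/-- Blocks of height less than `h` that end outside a box. -/
def Fat (L : Site d →+ ℝ) (h : ℝ) (R : ℕ) : Set (List (Dir d)) :=
  {b | b ∈ Ir L ∧ L (dsp b) < h ∧ dsp b ∉ bx d R}

lemma fat_le {L : Site d →+ ℝ} {q : ℝ≥0∞} (hq : ∀ a, q ≤ fu μ L a) (h : ℝ) (R : ℕ) :
    q * ∑' b : Fat L h R, wt μ b.1 ≤ ∑' π : Rch L h R, wt μ π.1 := by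
  classical
  set S : Set (List (Dir d)) := {π | π ∈ Fp L h ∧ ∃ a c, π = a ++ c ∧ a ∈ Rch L h R} with hS
  have hSfree : Free S := fun a ha b hb => Fp_free L h a ha.1 b hb.1
  have hmem : ∀ (b : Fat L h R) (η : Fp L (h - L (dsp b.1))), b.1 ++ η.1 ∈ S := by
    rintro ⟨b, hb, hbh, hbR⟩ ⟨η, hη⟩
    obtain ⟨a, c, hac, ha⟩ := bridge_prefix hb.1 hbh hbR
    refine ⟨⟨fun x hx => ?_, ?_⟩, a, c ++ η, ?_, ha⟩
    · rcases mem_exits_append.1 hx with hx | ⟨y, hy, rfl⟩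
      · exact ⟨(hb.1 x hx).1, (hb.1 x hx).2.trans hbh⟩
      · have h1 := hη.1 y hy
        change 0 ≤ L y ∧ L y < h - L (dsp b) at h1
        have h2 := Br_nonneg hb.1
        rw [map_add]
        exact ⟨by linarith [h1.1], by linarith [h1.2]⟩
    · have h1 := hη.2
      change h - L (dsp b) ≤ L (dsp η) at h1
      change h ≤ L (dsp (b ++ η))
      rw [dsp_append, map_add]
      linarith
    · change b ++ η = a ++ (c ++ η)
      rw [← List.append_assoc, ← hac]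
  have hinj : Function.Injective
      (fun p : (Σ b : Fat L h R, Fp L (h - L (dsp b.1))) => (⟨p.1.1 ++ p.2.1, hmem p.1 p.2⟩ : S)) := by
    rintro ⟨⟨b, hb⟩, ⟨η, hη⟩⟩ ⟨⟨b', hb'⟩, ⟨η', hη'⟩⟩ heq
    have h1 : b ++ η = b' ++ η' := congrArg Subtype.val heq
    obtain ⟨rfl, rfl⟩ := Ir_append_inj hb.1 (Fp_up hη) hb'.1 (Fp_up hη') h1
    rfl
  calc q * ∑' b : Fat L h R, wt μ b.1 = ∑' b : Fat L h R, q * wt μ b.1 := by
        rw [ENNReal.tsum_mul_left]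
    _ ≤ ∑' b : Fat L h R, ∑' η : Fp L (h - L (dsp b.1)), wt μ (b.1 ++ η.1) := by
        refine ENNReal.tsum_le_tsum fun b => ?_
        have h1 : ∑' η : Fp L (h - L (dsp b.1)), wt μ (b.1 ++ η.1) =
            wt μ b.1 * fu μ L (h - L (dsp b.1)) := by
          rw [fu, ← ENNReal.tsum_mul_left]
          exact tsum_congr fun η => wt_append_Br μ b.2.1.1 (Fp_up η.2)
        rw [h1, mul_comm]
        gcongr
        exact hq _
    _ = ∑' p : (Σ b : Fat L h R, Fp L (h - L (dsp b.1))), wt μ (p.1.1 ++ p.2.1) :=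
        (ENNReal.tsum_sigma (fun (b : Fat L h R) (η : Fp L (h - L (dsp b.1))) =>
          wt μ (b.1 ++ η.1))).symm
    _ ≤ ∑' π : S, wt μ π.1 :=
        ENNReal.tsum_comp_le_tsum_of_injective hinj (fun π : S => wt μ π.1)
    _ ≤ _ := tsum_prefix_le μ hSfree fun l hl => hl.2

omit [IsProbabilityMeasure μ] in
open Classical in
lemma kap_out (L : Site d →+ ℝ) (h : ℝ) (R : ℕ) :
    ∑' x, (if x ∈ bx d R then 0 else (kap μ L).v x) ≤
      ∑' b : Ir L, (if h ≤ L (dsp b.1) then wt μ b.1 else 0) + ∑' b : Fat L h R, wt μ b.1 := by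
  have h1 : ∑' x, (if x ∈ bx d R then 0 else (kap μ L).v x) =
      ∑' b : Ir L, (if dsp b.1 ∈ bx d R then 0 else wt μ b.1) := by
    have h2 : ∀ x, (if x ∈ bx d R then 0 else (kap μ L).v x) =
        ∑' b : Ir L, (if x ∈ bx d R then 0 else if dsp b.1 = x then wt μ b.1 else 0) := by
      intro x
      split_ifs with hx
      · simp
      · simp only [kap]
    simp only [h2]
    rw [ENNReal.tsum_comm]
    refine tsum_congr fun b => ?_
    rw [tsum_eq_single (dsp b.1)]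
    · simp
    · intro x hx
      rw [if_neg (Ne.symm hx)]
      simp
  have h3 : ∑' b : Fat L h R, wt μ b.1 =
      ∑' b : Ir L, (if L (dsp b.1) < h ∧ dsp b.1 ∉ bx d R then wt μ b.1 else 0) := by
    rw [tsum_subtype (Fat L h R) (fun b => wt μ b),
      tsum_subtype (Ir L) (fun b => if L (dsp b) < h ∧ dsp b ∉ bx d R then wt μ b else 0)]
    refine tsum_congr fun b => ?_
    by_cases hb : b ∈ Ir L
    · by_cases hb2 : L (dsp b) < h ∧ dsp b ∉ bx d R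
      · rw [Set.indicator_of_mem (show b ∈ Fat L h R from ⟨hb, hb2⟩), Set.indicator_of_mem hb,
          if_pos hb2]
      · rw [Set.indicator_of_notMem (fun h4 : b ∈ Fat L h R => hb2 h4.2), Set.indicator_of_mem hb,
          if_neg hb2]
    · rw [Set.indicator_of_notMem (fun h4 : b ∈ Fat L h R => hb h4.1),
        Set.indicator_of_notMem hb]
  rw [h1, h3, ← ENNReal.tsum_add]
  refine ENNReal.tsum_le_tsum fun b => ?_
  by_cases h4 : dsp b.1 ∈ bx d R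
  · rw [if_pos h4]; exact bot_le
  · rw [if_neg h4]
    rcases lt_or_ge (L (dsp b.1)) h with h5 | h5
    · rw [if_neg (not_le.2 h5), if_pos ⟨h5, h4⟩, zero_add]
    · rw [if_pos h5]; exact le_self_add

omit [IsProbabilityMeasure μ] in
open Classical in
lemma tall_le (L : Site d →+ ℝ) {h : ℕ} (hh : 1 ≤ h) :
    ∑' b : Ir L, (if (h : ℝ) ≤ L (dsp b.1) then wt μ b.1 else 0) ≤
      (h : ℝ≥0∞)⁻¹ * ∑' b : Ir L, wt μ b.1 * ENNReal.ofReal (L (dsp b.1)) := by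
  have hh0 : (h : ℝ≥0∞) ≠ 0 := by
    have : h ≠ 0 := by omega
    exact_mod_cast this
  rw [← ENNReal.tsum_mul_left]
  refine ENNReal.tsum_le_tsum fun b => ?_
  split_ifs with h1
  · have h2 : (h : ℝ≥0∞) ≤ ENNReal.ofReal (L (dsp b.1)) := by
      rw [← ENNReal.ofReal_natCast]
      exact ENNReal.ofReal_le_ofReal h1
    calc wt μ b.1 = (h : ℝ≥0∞)⁻¹ * (wt μ b.1 * h) := by
          rw [mul_comm (wt μ b.1), ← mul_assoc,
            ENNReal.inv_mul_cancel hh0 (ENNReal.natCast_ne_top h), one_mul]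
      _ ≤ _ := by gcongr
  · exact bot_le

end Gr

theorem kap_polyTail {L : Site d →+ ℝ} (hL : Lvl L) (hμ : Elliptic μ) {q : ℝ≥0∞}
    (hq0 : q ≠ 0) (hq : ∀ a, q ≤ fu μ L a) : PolyTail (kap μ L) := by
  classical
  obtain ⟨K, n1, hK⟩ := growth μ hL hμ hq0 hq
  have hm := mean_height μ hL hq0 hq
  set mh := ∑' b : Ir L, wt μ b.1 * ENNReal.ofReal (L (dsp b.1)) with hmh
  have hqi : q⁻¹ ≠ ⊤ := ENNReal.inv_ne_top.2 hq0
  have hqt : q ≠ ⊤ := ne_top_of_le_ne_top ENNReal.one_ne_top (q_le_one μ hq)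
  obtain ⟨n2, hn2⟩ := ENNReal.exists_nat_gt (ENNReal.add_ne_top.2 ⟨hm, hqi⟩)
  refine ⟨3 * K, max 1 (max n1 n2), fun n hn => ?_⟩
  have hn1 : 1 ≤ n := le_trans (le_max_left _ _) hn
  have hnn1 : n1 ≤ n := le_trans ((le_max_left _ _).trans (le_max_right _ _)) hn
  have hnn2 : n2 ≤ n := le_trans ((le_max_right _ _).trans (le_max_right _ _)) hn
  have hn0 : (n : ℝ≥0∞) ≠ 0 := by
    have : n ≠ 0 := by omega
    exact_mod_cast this
  have hnt : (n : ℝ≥0∞) ≠ ⊤ := ENNReal.natCast_ne_top n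
  set h : ℕ := n ^ 3 with hh
  have hh1 : 1 ≤ h := Nat.pow_pos hn1
  have hnh : n ≤ h := by
    calc n = n ^ 1 := (pow_one n).symm
      _ ≤ n ^ 3 := Nat.pow_le_pow_right hn1 (by norm_num)
  have hR : n ^ (3 * K) = h ^ K := by rw [hh, ← pow_mul]
  have h1 := kap_out μ L (h : ℝ) (n ^ (3 * K))
  have h2 := tall_le μ L hh1
  have h3 := fat_le μ hq (h : ℝ) (n ^ (3 * K))
  have h4 : q * ∑' b : Fat L (h : ℝ) (n ^ (3 * K)), wt μ b.1 ≤ ((h : ℝ≥0∞) ^ 2)⁻¹ := by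
    refine h3.trans ?_
    rw [hR]
    exact hK h (hnn1.trans hnh)
  have h5 : ∑' b : Fat L (h : ℝ) (n ^ (3 * K)), wt μ b.1 ≤ q⁻¹ * ((h : ℝ≥0∞) ^ 2)⁻¹ := by
    calc ∑' b : Fat L (h : ℝ) (n ^ (3 * K)), wt μ b.1
        = q⁻¹ * (q * ∑' b : Fat L (h : ℝ) (n ^ (3 * K)), wt μ b.1) := by
          rw [← mul_assoc, ENNReal.inv_mul_cancel hq0 hqt, one_mul]
      _ ≤ _ := by gcongr
  have h6 : ((h : ℝ≥0∞) ^ 2)⁻¹ ≤ ((n : ℝ≥0∞) ^ 3)⁻¹ := by
    rw [ENNReal.inv_le_inv, hh]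
    push_cast
    rw [← pow_mul]
    exact pow_le_pow_right₀ (by exact_mod_cast hn1) (by norm_num)
  calc ∑' x, (if x ∈ bx d (n ^ (3 * K)) then 0 else (kap μ L).v x)
      ≤ (h : ℝ≥0∞)⁻¹ * mh + q⁻¹ * ((h : ℝ≥0∞) ^ 2)⁻¹ := h1.trans (add_le_add h2 h5)
    _ ≤ ((n : ℝ≥0∞) ^ 3)⁻¹ * mh + q⁻¹ * ((n : ℝ≥0∞) ^ 3)⁻¹ := by
        gcongr
        rw [hh]
        push_cast
        exact le_rfl
    _ = ((n : ℝ≥0∞) ^ 3)⁻¹ * (mh + q⁻¹) := by ring
    _ ≤ ((n : ℝ≥0∞) ^ 3)⁻¹ * n := by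
        gcongr
        exact hn2.le.trans (by exact_mod_cast hnn2)
    _ = ((n : ℝ≥0∞) ^ 2)⁻¹ := by
        rw [pow_succ, ENNReal.mul_inv (Or.inr hnt) (Or.inr hn0), mul_assoc,
          ENNReal.inv_mul_cancel hn0 hnt, mul_one]

end Vale.Agent.P147.Z
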