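import Vale.Agent.P147.Z.Base

/-!
# Irreducible bridges: total weight one, exponential moment less than one, finite mean height
-/

open MeasureTheory
open scoped ENNReal

namespace Vale.Agent.P147.Z.IrA

variable {d : ℕ}

/-! ### Combinatorics of bridges -/

lemma mem_Br {L : Site d →+ ℝ} {l : List (Dir d)} :
    l ∈ Br L ↔ ∀ a b, l = a ++ b → b ≠ [] → 0 ≤ L (dsp a) ∧ L (dsp a) < L (dsp l) := by
  constructor
  · intro h a b hab hb
    exact h (dsp a) (mem_exits.2 ⟨a, b, hab, hb, by simp⟩)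
  · intro h x hx
    obtain ⟨a, b, hab, hb, rfl⟩ := mem_exits.1 hx
    rw [zero_add]
    exact h a b hab hb

lemma nil_mem_Br (L : Site d →+ ℝ) : ([] : List (Dir d)) ∈ Br L := by
  intro x hx
  simp at hx

lemma Br_dsp_nonneg {L : Site d →+ ℝ} {l : List (Dir d)} (h : l ∈ Br L) : 0 ≤ L (dsp l) := by
  by_cases hl : l = []
  · subst hl; simp
  · have := mem_Br.1 h [] l rfl hl
    simp only [dsp_nil, map_zero, le_refl, true_and] at this
    exact this.le

lemma Br_append {L : Site d →+ ℝ} {a b : List (Dir d)} (ha : a ∈ Br L) (hb : b ∈ Br L) :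
    a ++ b ∈ Br L := by
  rw [mem_Br]
  intro x y hxy hy
  rw [dsp_append, map_add]
  have hb0 := Br_dsp_nonneg hb
  rcases List.append_eq_append_iff.1 hxy with ⟨c, rfl, hc⟩ | ⟨c, hc, rfl⟩
  · rw [dsp_append, map_add]
    have h1 := mem_Br.1 hb c y hc hy
    have h2 := Br_dsp_nonneg ha
    constructor <;> linarith only [h1, h2]
  · by_cases hc0 : c = []
    · subst hc0
      rw [List.append_nil] at hc
      subst hc
      have h1 := mem_Br.1 hb [] b rfl (by simpa using hy)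
      simp only [dsp_nil, map_zero, le_refl, true_and] at h1
      have h2 := Br_dsp_nonneg ha
      constructor <;> linarith
    · have h1 := mem_Br.1 ha x c hc hc0
      constructor <;> linarith

/-- The middle piece between two bridges is a bridge. -/
lemma Br_mid {L : Site d →+ ℝ} {b c l : List (Dir d)} (hbc : b ++ c ∈ Br L)
    (hcl : c ++ l ∈ Br L) : c ∈ Br L := by
  rw [mem_Br]
  intro x y hxy hy
  subst hxy
  have h1 := mem_Br.1 hcl x (y ++ l) (by simp) (by simp [hy])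
  have h2 := mem_Br.1 hbc (b ++ x) y (by simp) hy
  refine ⟨h1.1, ?_⟩
  rw [dsp_append, dsp_append, map_add, map_add] at h2
  linarith only [h2]

lemma Ir_Br {L : Site d →+ ℝ} {b : List (Dir d)} (hb : b ∈ Ir L) : b ∈ Br L := hb.1

lemma Ir_dsp_pos {L : Site d →+ ℝ} {b : List (Dir d)} (hb : b ∈ Ir L) : 0 < L (dsp b) := by
  have := mem_Br.1 hb.1 [] b rfl hb.2.1
  simpa only [gt_iff_lt, dsp_nil, map_zero] using this.2

lemma ir_exists {L : Site d →+ ℝ} {l : List (Dir d)} (hl : l ∈ Br L) (h0 : l ≠ []) :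
    ∃ b ∈ Ir L, ∃ c ∈ Br L, l = b ++ c := by
  classical
  have hex : ∃ n, ∃ b c : List (Dir d), b.length = n ∧ b ∈ Br L ∧ b ≠ [] ∧ c ∈ Br L ∧
      l = b ++ c := ⟨l.length, l, [], rfl, hl, h0, nil_mem_Br L, by simp⟩
  obtain ⟨b, c, hbn, hb, hb0, hc, rfl⟩ := Nat.find_spec hex
  refine ⟨b, ⟨hb, hb0, ?_⟩, c, hc, rfl⟩
  intro x y hxy hx hy
  by_contra hcon
  push Not at hcon
  have hlt : x.length < Nat.find hex := by
    rw [← hbn, hxy, List.length_append]
    have := List.length_pos_iff.2 hcon.2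
    omega
  exact Nat.find_min hex hlt ⟨x, y ++ c, rfl, hx, hcon.1, Br_append hy hc, by rw [hxy]; simp⟩

lemma ir_unique {L : Site d →+ ℝ} {b b' c c' : List (Dir d)} (hb : b ∈ Ir L) (hb' : b' ∈ Ir L)
    (hc : c ∈ Br L) (hc' : c' ∈ Br L) (h : b ++ c = b' ++ c') : b = b' ∧ c = c' := by
  rcases List.append_eq_append_iff.1 h with ⟨e, he, hce⟩ | ⟨e, he, hce⟩
  · -- b' = b ++ e, c = e ++ c'
    have he' : e ∈ Br L := Br_mid (b := b) (l := c') (he ▸ hb'.1) (hce ▸ hc)
    rcases hb'.2.2 b e he hb.1 he' with h1 | h1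
    · exact absurd h1 hb.2.1
    · subst h1
      exact ⟨by simpa using he.symm, by simpa using hce⟩
  · have he' : e ∈ Br L := Br_mid (b := b') (l := c) (he ▸ hb.1) (hce ▸ hc')
    rcases hb.2.2 b' e he hb'.1 he' with h1 | h1
    · exact absurd h1 hb'.2.1
    · subst h1
      exact ⟨by simpa using he, by simpa using hce.symm⟩

/-- Unique factorisation: a sum over the bridges, by the first irreducible factor. -/
lemma tsum_Br {L : Site d →+ ℝ} (F : List (Dir d) → ℝ≥0∞) :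
    ∑' l : Br L, F l.1 = F [] + ∑' b : Ir L, ∑' l : Br L, F (b.1 ++ l.1) := by
  classical
  let φ : Unit ⊕ (Ir L × Br L) → Br L := fun o => match o with
    | Sum.inl _ => ⟨[], nil_mem_Br L⟩
    | Sum.inr p => ⟨p.1.1 ++ p.2.1, Br_append p.1.2.1 p.2.2⟩
  have hφ : Function.Bijective φ := by
    constructor
    · rintro (_ | ⟨b, c⟩) (_ | ⟨b', c'⟩) h
      · rfl
      · have h1 : ([] : List (Dir d)) = b'.1 ++ c'.1 := congrArg Subtype.val h
        exact absurd (List.append_eq_nil_iff.1 h1.symm).1 b'.2.2.1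
      · have h1 : b.1 ++ c.1 = ([] : List (Dir d)) := congrArg Subtype.val h
        exact absurd (List.append_eq_nil_iff.1 h1).1 b.2.2.1
      · have h1 : b.1 ++ c.1 = b'.1 ++ c'.1 := congrArg Subtype.val h
        obtain ⟨h2, h3⟩ := ir_unique b.2 b'.2 c.2 c'.2 h1
        rw [Subtype.ext h2, Subtype.ext h3]
    · rintro ⟨l, hl⟩
      by_cases h0 : l = []
      · subst h0
        exact ⟨Sum.inl (), rfl⟩
      · obtain ⟨b, hb, c, hc, rfl⟩ := ir_exists hl h0
        exact ⟨Sum.inr (⟨b, hb⟩, ⟨c, hc⟩), rfl⟩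
  have h1 : ∑' l : Br L, F l.1 = ∑' o : Unit ⊕ (Ir L × Br L), F (φ o).1 :=
    ((Equiv.ofBijective φ hφ).tsum_eq (fun l : Br L => F l.1)).symm
  rw [h1, Summable.tsum_sum ENNReal.summable ENNReal.summable]
  congr 1
  · simp [φ]
  · rw [ENNReal.tsum_prod']

/-! ### Weights -/

section weights

variable (μ : Measure (Row d)) [IsProbabilityMeasure μ]

lemma Br_disjoint {L : Site d →+ ℝ} {a b : List (Dir d)} (ha : a ∈ Br L)
    (hb : ∀ x ∈ exits 0 b, 0 ≤ L x) : Disjoint (exits 0 a) (exits (dsp a) b) := by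
  rw [Finset.disjoint_left]
  intro x hx hy
  have h1 := (ha x hx).2
  have h2 : exits (dsp a) b = (exits 0 b).image (· + dsp a) := by
    rw [← exits_add, zero_add]
  rw [h2, Finset.mem_image] at hy
  obtain ⟨y, hy, rfl⟩ := hy
  have := hb y hy
  rw [map_add] at h1
  linarith

lemma wt_Br_append {L : Site d →+ ℝ} {a b : List (Dir d)} (ha : a ∈ Br L)
    (hb : ∀ x ∈ exits 0 b, 0 ≤ L x) : wt μ (a ++ b) = wt μ a * wt μ b :=
  wt_append μ (Br_disjoint ha hb)

/-- The exponential factor. -/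
noncomputable def ee (s x : ℝ) : ℝ≥0∞ := ENNReal.ofReal (Real.exp (-(s * x)))

lemma ee_add (s x y : ℝ) : ee s (x + y) = ee s x * ee s y := by
  rw [ee, ee, ee, ← ENNReal.ofReal_mul (Real.exp_pos _).le, ← Real.exp_add]
  congr 2
  ring

lemma ee_zero (s : ℝ) : ee s 0 = 1 := by simp [ee]

lemma ee_le_one {s x : ℝ} (hs : 0 ≤ s) (hx : 0 ≤ x) : ee s x ≤ 1 := by
  rw [ee]
  exact ENNReal.ofReal_le_one.2 (Real.exp_le_one_iff.2 (by nlinarith only [hs, hx]))

lemma ee_anti {s x y : ℝ} (hs : 0 ≤ s) (hxy : x ≤ y) : ee s y ≤ ee s x := by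
  rw [ee, ee]
  refine ENNReal.ofReal_le_ofReal (Real.exp_le_exp.2 ?_)
  have := mul_le_mul_of_nonneg_left hxy hs
  linarith

/-- Laplace transform of the bridges. -/
noncomputable def BB (L : Site d →+ ℝ) (s : ℝ) : ℝ≥0∞ :=
  ∑' l : Br L, wt μ l.1 * ee s (L (dsp l.1))

/-- Laplace transform of the irreducible bridges. -/
noncomputable def II (L : Site d →+ ℝ) (s : ℝ) : ℝ≥0∞ :=
  ∑' b : Ir L, wt μ b.1 * ee s (L (dsp b.1))

lemma BB_eq (L : Site d →+ ℝ) (s : ℝ) : BB μ L s = 1 + II μ L s * BB μ L s := by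
  have h := tsum_Br (L := L) (fun l => wt μ l * ee s (L (dsp l)))
  have h2 : ∑' b : Ir L, ∑' l : Br L, wt μ (b.1 ++ l.1) * ee s (L (dsp (b.1 ++ l.1))) =
      II μ L s * BB μ L s := by
    rw [II, BB, ← ENNReal.tsum_mul_right]
    refine tsum_congr fun b => ?_
    rw [← ENNReal.tsum_mul_left]
    refine tsum_congr fun l => ?_
    rw [wt_Br_append μ b.2.1 (fun x hx => (l.2 x hx).1), dsp_append, map_add, ee_add]
    ring
  rw [← h2]
  refine h.trans ?_
  simp only [wt_nil, dsp_nil, map_zero, ee_zero, mul_one, dsp_append, map_add]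

lemma ir_Fp_free (L : Site d →+ ℝ) (a : ℝ) : Free (Fp L a) := by
  intro x hx y hxy
  by_contra hy
  have h1 := (hxy.1 (dsp x) (mem_exits.2 ⟨x, y, rfl, hy, by simp⟩)).2
  exact absurd hx.2 (not_le.2 h1)

lemma ir_Fp_Br {L : Site d →+ ℝ} (hL : Lvl L) {a : ℝ} (ha : 0 ≤ a) {l : List (Dir d)}
    (hl : l ∈ Fp L a) : l ∈ Br L ∧ L (dsp l) < a + 1 := by
  refine ⟨fun x hx => ⟨(hl.1 x hx).1, (hl.1 x hx).2.trans_le hl.2⟩, ?_⟩
  rcases List.eq_nil_or_concat l with rfl | ⟨c, u, rfl⟩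
  · simp only [dsp_nil, map_zero]; linarith only [ha]
  · rw [List.concat_eq_append] at hl ⊢
    have h1 := (hl.1 (dsp c) (mem_exits.2 ⟨c, [u], by simp, by simp, by simp⟩)).2
    rw [dsp_append, map_add]
    have h2 := hL.step u
    have h3 : L (dsp [u]) ≤ 1 := by
      simp only [dsp_cons, dsp_nil, add_zero]
      exact (abs_le.1 h2).2
    linarith only [h1, h3]

lemma exists_up_step {L : Site d →+ ℝ} {l : List (Dir d)} (h : 0 < L (dsp l))
    (hw : wt μ l ≠ 0) : ∃ u : Dir d, 0 < L (vec u) ∧ wt μ [u] ≠ 0 := by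
  induction l with
  | nil => simp at h
  | cons u l ih =>
    by_cases hu : 0 < L (vec u)
    · refine ⟨u, hu, fun h0 => hw ?_⟩
      have := wt_append_le_left μ [u] l
      rw [h0] at this
      simpa only [List.cons_append, List.nil_append, nonpos_iff_eq_zero] using this
    · rw [dsp_cons, map_add] at h
      refine ih (by linarith) fun h0 => hw ?_
      have := wt_append_le_right μ [u] l
      rw [h0] at this
      simpa only [List.cons_append, List.nil_append, nonpos_iff_eq_zero] using this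

open Classical in
lemma Br_window {L : Site d →+ ℝ} {u : Dir d} (hu : 0 < L (vec u)) (a : ℝ) :
    (∑' l : Br L, if a ≤ L (dsp l.1) ∧ L (dsp l.1) < a + L (vec u) then wt μ l.1 else 0) *
      wt μ [u] ≤ 1 := by
  rw [← ENNReal.tsum_mul_right]
  have h1 : ∑' l : Br L, (if a ≤ L (dsp l.1) ∧ L (dsp l.1) < a + L (vec u) then wt μ l.1 else 0) *
      wt μ [u] = ∑' l : {l : Br L | a ≤ L (dsp l.1) ∧ L (dsp l.1) < a + L (vec u)},
        wt μ (l.1.1 ++ [u]) := by
    rw [tsum_subtype {l : Br L | a ≤ L (dsp l.1) ∧ L (dsp l.1) < a + L (vec u)}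
      (fun l : Br L => wt μ (l.1 ++ [u]))]
    refine tsum_congr fun l => ?_
    rw [Set.indicator_apply]
    simp only [Set.mem_ofPred_eq]
    split_ifs with h
    · rw [wt_Br_append μ l.2]
      intro x hx
      simp only [exits_cons, exits_nil, insert_empty_eq, Finset.mem_singleton] at hx
      subst hx
      simp
    · simp
  rw [h1]
  let φ : {l : Br L | a ≤ L (dsp l.1) ∧ L (dsp l.1) < a + L (vec u)} → Fp L (a + L (vec u)) :=
    fun l => ⟨l.1.1 ++ [u], by
      refine ⟨fun x hx => ?_, ?_⟩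
      · rw [exits_append, Finset.mem_union] at hx
        rcases hx with hx | hx
        · have := l.1.2 x hx
          exact ⟨this.1, this.2.trans l.2.2⟩
        · simp only [zero_add, exits_cons, exits_nil, insert_empty_eq,
            Finset.mem_singleton] at hx
          subst hx
          exact ⟨Br_dsp_nonneg l.1.2, l.2.2⟩
      · rw [dsp_append, map_add]
        simp only [dsp_cons, dsp_nil, add_zero]
        linarith [l.2.1]⟩
  have hφ : Function.Injective φ := by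
    intro l l' h
    have h1 : l.1.1 ++ [u] = l'.1.1 ++ [u] := congrArg Subtype.val h
    exact Subtype.ext (Subtype.ext (List.append_cancel_right h1))
  calc ∑' l : {l : Br L | a ≤ L (dsp l.1) ∧ L (dsp l.1) < a + L (vec u)}, wt μ (l.1.1 ++ [u])
      = ∑' l, wt μ (φ l).1 := rfl
    _ ≤ ∑' p : Fp L (a + L (vec u)), wt μ p.1 :=
        ENNReal.tsum_comp_le_tsum_of_injective hφ (fun p : Fp L (a + L (vec u)) => wt μ p.1)
    _ ≤ 1 := tsum_wt_le_one μ (ir_Fp_free L _)

open Classical in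
lemma BB_ne_top_of {L : Site d →+ ℝ} {u : Dir d} (hu : 0 < L (vec u)) (hw : wt μ [u] ≠ 0)
    {s : ℝ} (hs : 0 < s) : BB μ L s ≠ ⊤ := by
  set δ := L (vec u) with hδ
  have hwt : wt μ [u] ≠ ⊤ := ne_top_of_le_ne_top ENNReal.one_ne_top (wt_le_one μ _)
  have h1 : BB μ L s ≤ ∑' k : ℕ, (ee s δ) ^ k * (wt μ [u])⁻¹ := by
    calc BB μ L s ≤ ∑' l : Br L, ∑' k : ℕ,
          (if (k : ℝ) * δ ≤ L (dsp l.1) ∧ L (dsp l.1) < (k : ℝ) * δ + δ then wt μ l.1 else 0) *
            (ee s δ) ^ k := by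
          refine ENNReal.tsum_le_tsum fun l => ?_
          have hx := Br_dsp_nonneg l.2
          set x := L (dsp l.1) with hxd
          have hk1 : ((⌊x / δ⌋₊ : ℕ) : ℝ) ≤ x / δ := Nat.floor_le (by positivity)
          have hk2 : x / δ < (⌊x / δ⌋₊ : ℕ) + 1 := Nat.lt_floor_add_one _
          rw [le_div_iff₀ hu] at hk1
          rw [div_lt_iff₀ hu] at hk2
          refine le_trans ?_ (ENNReal.le_tsum ⌊x / δ⌋₊)
          rw [if_pos ⟨hk1, by linarith only [hk2]⟩]
          gcongr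
          have h2 : (ee s δ) ^ ⌊x / δ⌋₊ = ee s ((⌊x / δ⌋₊ : ℝ) * δ) := by
            rw [ee, ee, ← ENNReal.ofReal_pow (Real.exp_pos _).le, ← Real.exp_nat_mul]
            congr 2
            ring
          rw [h2]
          exact ee_anti hs.le hk1
      _ = ∑' k : ℕ, ∑' l : Br L,
          (if (k : ℝ) * δ ≤ L (dsp l.1) ∧ L (dsp l.1) < (k : ℝ) * δ + δ then wt μ l.1 else 0) *
            (ee s δ) ^ k := ENNReal.tsum_comm
      _ ≤ _ := by
          refine ENNReal.tsum_le_tsum fun k => ?_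
          rw [ENNReal.tsum_mul_right, mul_comm]
          gcongr
          rw [ENNReal.le_inv_iff_mul_le]
          exact Br_window μ hu _
  refine ne_top_of_le_ne_top ?_ h1
  rw [ENNReal.tsum_mul_right, ENNReal.tsum_geometric]
  have he : ee s δ < 1 := by
    rw [ee, ENNReal.ofReal_lt_one]
    exact Real.exp_lt_one_iff.2 (by nlinarith only [hs, hu])
  exact ENNReal.mul_ne_top (ENNReal.inv_ne_top.2 (tsub_pos_of_lt he).ne')
    (ENNReal.inv_ne_top.2 hw)

lemma BB_ne_top {L : Site d →+ ℝ} {q : ℝ≥0∞} (hq0 : q ≠ 0) (hq : ∀ a, q ≤ fu μ L a)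
    {s : ℝ} (hs : 0 < s) : BB μ L s ≠ ⊤ := by
  have h1 : fu μ L 1 ≠ 0 := fun h => hq0 (by simpa [h] using hq 1)
  obtain ⟨l, hl⟩ : ∃ l : Fp L 1, wt μ l.1 ≠ 0 := by
    by_contra hcon
    push Not at hcon
    exact h1 (by rw [fu]; exact ENNReal.tsum_eq_zero.2 hcon)
  obtain ⟨u, hu, hw⟩ := exists_up_step μ (L := L) (l := l.1)
    (lt_of_lt_of_le one_pos l.2.2) hl
  exact BB_ne_top_of μ hu hw hs

open Classical in
lemma BB_lower {L : Site d →+ ℝ} (hL : Lvl L) {q : ℝ≥0∞} (hq : ∀ a, q ≤ fu μ L a)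
    {m : ℕ} (hm : 0 < m) : (m : ℝ≥0∞) * (q * ee 1 1) ≤ BB μ L (1 / m) := by
  have hmr : (0 : ℝ) < m := by exact_mod_cast hm
  calc (m : ℝ≥0∞) * (q * ee 1 1) = ∑ k ∈ Finset.range m, q * ee 1 1 := by simp
    _ ≤ ∑ k ∈ Finset.range m, ∑' l : Br L,
        (if (k : ℝ) ≤ L (dsp l.1) ∧ L (dsp l.1) < (k : ℝ) + 1 then wt μ l.1 else 0) *
          ee 1 1 := by
        refine Finset.sum_le_sum fun k _ => ?_
        rw [ENNReal.tsum_mul_right]
        gcongr
        refine (hq k).trans ?_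
        let φ : Fp L (k : ℝ) → Br L := fun l => ⟨l.1, (ir_Fp_Br hL (Nat.cast_nonneg k) l.2).1⟩
        have hφ : Function.Injective φ := by
          intro l l' h
          have h0 : (φ l).1 = (φ l').1 := congrArg Subtype.val h
          exact Subtype.ext h0
        have h1 : fu μ L (k : ℝ) = ∑' l : Fp L (k : ℝ),
            (if (k : ℝ) ≤ L (dsp (φ l).1) ∧ L (dsp (φ l).1) < (k : ℝ) + 1 then wt μ (φ l).1
              else 0) := by
          rw [fu]
          refine tsum_congr fun l => ?_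
          rw [if_pos ⟨l.2.2, (ir_Fp_Br hL (Nat.cast_nonneg k) l.2).2⟩]
        rw [h1]
        exact ENNReal.tsum_comp_le_tsum_of_injective hφ (fun l : Br L =>
          if (k : ℝ) ≤ L (dsp l.1) ∧ L (dsp l.1) < (k : ℝ) + 1 then wt μ l.1 else 0)
    _ = ∑' l : Br L, ∑ k ∈ Finset.range m,
        (if (k : ℝ) ≤ L (dsp l.1) ∧ L (dsp l.1) < (k : ℝ) + 1 then wt μ l.1 else 0) *
          ee 1 1 := by
        rw [Summable.tsum_finsetSum fun _ _ => ENNReal.summable]
    _ ≤ BB μ L (1 / m) := by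
        refine ENNReal.tsum_le_tsum fun l => ?_
        set x := L (dsp l.1) with hx
        by_cases hex : ∃ k ∈ Finset.range m, (k : ℝ) ≤ x ∧ x < (k : ℝ) + 1
        · obtain ⟨k, hk, hk1, hk2⟩ := hex
          rw [Finset.sum_eq_single_of_mem k hk]
          · rw [if_pos ⟨hk1, hk2⟩]
            gcongr
            have h2 : ee 1 1 = ee (1 / m) m := by
              rw [ee, ee]
              congr 3
              field_simp
            rw [h2]
            refine ee_anti (by positivity) ?_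
            rw [Finset.mem_range] at hk
            have : (k : ℝ) + 1 ≤ m := by exact_mod_cast hk
            linarith only [hk2, this]
          · intro j _ hj
            rw [if_neg, zero_mul]
            rintro ⟨h1, h2⟩
            apply hj
            have e1 : (j : ℝ) < (k : ℝ) + 1 := by linarith only [hk2, h1]
            have e2 : (k : ℝ) < (j : ℝ) + 1 := by linarith only [hk1, h2]
            have e3 : j < k + 1 := by exact_mod_cast e1
            have e4 : k < j + 1 := by exact_mod_cast e2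
            omega
        · push Not at hex
          rw [Finset.sum_eq_zero]
          · exact zero_le
          · intro k hk
            rw [if_neg, zero_mul]
            rintro ⟨h1, h2⟩
            exact absurd h2 (not_lt.2 (hex k hk h1))

lemma II_lt_one {L : Site d →+ ℝ} {q : ℝ≥0∞} (hq0 : q ≠ 0) (hq : ∀ a, q ≤ fu μ L a)
    {s : ℝ} (hs : 0 < s) : II μ L s < 1 := by
  by_contra hcon
  rw [not_lt] at hcon
  have h1 := BB_ne_top μ hq0 hq hs
  have h2 := BB_eq μ L s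
  have h3 : 1 + BB μ L s ≤ BB μ L s := by
    conv_rhs => rw [h2]
    gcongr
    exact le_mul_of_one_le_left zero_le hcon
  have h4 : BB μ L s < 1 + BB μ L s := by
    rw [add_comm]
    exact ENNReal.lt_add_right h1 one_ne_zero
  exact absurd h3 (not_le.2 h4)

theorem rho_lt_aux {L : Site d →+ ℝ} (hL : Lvl L) {q : ℝ≥0∞} (hq0 : q ≠ 0)
    (hq : ∀ a, q ≤ fu μ L a) :
    ∑' b : Ir L, wt μ b.1 * ENNReal.ofReal (Real.exp (-L (dsp b.1))) < 1 := by
  have := II_lt_one μ hq0 hq one_pos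
  simpa only [gt_iff_lt, II, ee, one_mul] using this

lemma ir_sum_le_one {L : Site d →+ ℝ} {q : ℝ≥0∞} (hq0 : q ≠ 0)
    (hq : ∀ a, q ≤ fu μ L a) : ∑' b : Ir L, wt μ b.1 ≤ 1 := by
  rw [ENNReal.tsum_eq_iSup_sum]
  refine iSup_le fun S => ?_
  have h1 : Filter.Tendsto (fun m : ℕ => ∑ b ∈ S, wt μ b.1 *
      ee (1 / ((m : ℝ) + 1)) (L (dsp b.1))) Filter.atTop (nhds (∑ b ∈ S, wt μ b.1 * 1)) := by
    refine tendsto_finsetSum _ fun b _ => ?_
    refine ENNReal.Tendsto.const_mul ?_ (Or.inl one_ne_zero)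
    have h2 : Filter.Tendsto (fun m : ℕ => Real.exp (-(1 / ((m : ℝ) + 1) * L (dsp b.1))))
        Filter.atTop (nhds (Real.exp (-(0 * L (dsp b.1))))) := by
      refine (Real.continuous_exp.tendsto _).comp ?_
      exact (tendsto_one_div_add_atTop_nhds_zero_nat.mul_const _).neg
    have h3 := ENNReal.tendsto_ofReal h2
    simpa only [ee, one_div, zero_mul, neg_zero, Real.exp_zero, ENNReal.ofReal_one] using h3
  have h4 : ∀ m : ℕ, ∑ b ∈ S, wt μ b.1 * ee (1 / ((m : ℝ) + 1)) (L (dsp b.1)) ≤ 1 := by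
    intro m
    refine le_trans (ENNReal.sum_le_tsum S) ?_
    exact (II_lt_one μ hq0 hq (s := 1 / ((m : ℝ) + 1)) (by positivity)).le
  have := le_of_tendsto' h1 h4
  simpa only [ge_iff_le, mul_one] using this

lemma ir_defect {L : Site d →+ ℝ} {q : ℝ≥0∞} (hq0 : q ≠ 0)
    (hq : ∀ a, q ≤ fu μ L a) {F δ : ℝ≥0∞} {s : ℝ} (hs : 0 < s) (hF : II μ L s ≤ F)
    (hFδ : F + δ = 1) : δ * BB μ L s ≤ 1 := by
  have hB := BB_ne_top μ hq0 hq hs
  have hF1 : F ≤ 1 := by rw [← hFδ]; exact le_self_add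
  have hFB : F * BB μ L s ≠ ⊤ :=
    ENNReal.mul_ne_top (ne_top_of_le_ne_top ENNReal.one_ne_top hF1) hB
  have h1 : F * BB μ L s + δ * BB μ L s ≤ F * BB μ L s + 1 := by
    rw [← add_mul, hFδ, one_mul]
    conv_lhs => rw [BB_eq μ L s]
    rw [add_comm]
    (clear * - hF; gcongr)
  exact (ENNReal.add_le_add_iff_left hFB).1 h1

lemma ir_big {q : ℝ≥0∞} (hq0 : q ≠ 0) {δ : ℝ≥0∞} (hδ : δ ≠ 0) :
    ∃ m : ℕ, 0 < m ∧ 1 < δ * ((m : ℝ≥0∞) * (q * ee 1 1)) := by
  have he : ee 1 1 ≠ 0 := by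
    rw [ee]
    exact (ENNReal.ofReal_pos.2 (Real.exp_pos _)).ne'
  obtain ⟨m, hm⟩ := ENNReal.exists_nat_mul_gt (a := δ * (q * ee 1 1)) (b := 1)
    (mul_ne_zero hδ (mul_ne_zero hq0 he)) (by simp)
  refine ⟨m, ?_, ?_⟩
  · rcases Nat.eq_zero_or_pos m with rfl | h
    · simp at hm
    · exact h
  · calc (1 : ℝ≥0∞) < m * (δ * (q * ee 1 1)) := hm
      _ = _ := by ring

theorem tsum_Ir_aux {L : Site d →+ ℝ} (hL : Lvl L) {q : ℝ≥0∞} (hq0 : q ≠ 0)
    (hq : ∀ a, q ≤ fu μ L a) : ∑' b : Ir L, wt μ b.1 = 1 := by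
  refine le_antisymm (ir_sum_le_one μ hq0 hq) ?_
  by_contra hcon
  rw [not_le] at hcon
  have hδ : 1 - ∑' b : Ir L, wt μ b.1 ≠ 0 := (tsub_pos_of_lt hcon).ne'
  obtain ⟨m, hm, hm1⟩ := ir_big hq0 hδ
  have hmr : (0 : ℝ) < 1 / m := by positivity
  have h1 := ir_defect μ hq0 hq (F := ∑' b : Ir L, wt μ b.1) hmr ?_
    (add_tsub_cancel_of_le hcon.le)
  · have h2 := BB_lower μ hL hq hm
    exact absurd (hm1.trans_le ((mul_le_mul' le_rfl h2).trans h1)) (lt_irrefl _)
  · refine ENNReal.tsum_le_tsum fun b => ?_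
    calc wt μ b.1 * ee (1 / m) (L (dsp b.1)) ≤ wt μ b.1 * 1 := by
          gcongr
          exact ee_le_one hmr.le (Ir_dsp_pos b.2).le
      _ = _ := mul_one _

lemma ir_exp_bound {x : ℝ} (h0 : 0 ≤ x) (h1 : x ≤ 1) : x / 2 + Real.exp (-x) ≤ 1 := by
  have h2 : x + 1 ≤ Real.exp x := Real.add_one_le_exp x
  have h3 : Real.exp (-x) ≤ 1 / (x + 1) := by
    rw [Real.exp_neg, inv_eq_one_div]
    exact one_div_le_one_div_of_le (by linarith) h2
  have h4 : 1 / (x + 1) ≤ 1 - x / 2 := by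
    rw [div_le_iff₀ (by linarith only [h0])]
    nlinarith only [h0, h1]
  linarith

theorem mean_height_aux {L : Site d →+ ℝ} (hL : Lvl L) {q : ℝ≥0∞} (hq0 : q ≠ 0)
    (hq : ∀ a, q ≤ fu μ L a) :
    ∑' b : Ir L, wt μ b.1 * ENNReal.ofReal (L (dsp b.1)) ≠ ⊤ := by
  have hF := tsum_Ir_aux μ hL hq0 hq
  have he : ee 1 1 ≠ 0 := by
    rw [ee]
    exact (ENNReal.ofReal_pos.2 (Real.exp_pos _)).ne'
  have main : ∀ S : Finset (Ir L), (∑ b ∈ S, wt μ b.1 * ENNReal.ofReal (L (dsp b.1))) *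
      (q * ee 1 1) ≤ 2 := by
    intro S
    obtain ⟨m, hm, hmS⟩ : ∃ m : ℕ, 0 < m ∧ ∀ b ∈ S, L (dsp b.1) ≤ m := by
      refine ⟨1 + S.sup (fun b => ⌈L (dsp b.1)⌉₊), by omega, fun b hb => ?_⟩
      have h1 : ⌈L (dsp b.1)⌉₊ ≤ S.sup (fun b : Ir L => ⌈L (dsp b.1)⌉₊) :=
        Finset.le_sup (f := fun b : Ir L => ⌈L (dsp b.1)⌉₊) hb
      have h2 : L (dsp b.1) ≤ (⌈L (dsp b.1)⌉₊ : ℝ) := Nat.le_ceil _
      have h3 : ((⌈L (dsp b.1)⌉₊ : ℕ) : ℝ) ≤
          ((1 + S.sup (fun b : Ir L => ⌈L (dsp b.1)⌉₊) : ℕ) : ℝ) := by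
        exact_mod_cast (by omega)
      exact h2.trans h3
    have hmr : (0 : ℝ) < m := by exact_mod_cast hm
    have hs : (0 : ℝ) < 1 / m := by positivity
    set Δ : ℝ≥0∞ := ∑' b : Ir L, wt μ b.1 * (1 - ee (1 / m) (L (dsp b.1))) with hΔ
    have hsplit : II μ L (1 / m) + Δ = 1 := by
      rw [← hF, II, hΔ, ← ENNReal.tsum_add]
      refine tsum_congr fun b => ?_
      rw [← mul_add, add_tsub_cancel_of_le (ee_le_one hs.le (Ir_dsp_pos b.2).le), mul_one]
    have h1 : Δ * BB μ L (1 / m) ≤ 1 := ir_defect μ hq0 hq hs le_rfl hsplit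
    have h2 := BB_lower μ hL hq hm
    have h3 : (∑ b ∈ S, wt μ b.1 * ENNReal.ofReal (L (dsp b.1))) ≤ 2 * m * Δ := by
      calc ∑ b ∈ S, wt μ b.1 * ENNReal.ofReal (L (dsp b.1))
          ≤ ∑ b ∈ S, (2 * m) * (wt μ b.1 * (1 - ee (1 / m) (L (dsp b.1)))) := by
            refine Finset.sum_le_sum fun b hb => ?_
            have hx0 := (Ir_dsp_pos b.2).le
            have hx1 := hmS b hb
            set x := L (dsp b.1) with hx
            have hb1 : 0 ≤ 1 / (m : ℝ) * x := by (clear * - hm hx0; positivity)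
            have hb2 : 1 / (m : ℝ) * x ≤ 1 := by
              rw [one_div, inv_mul_le_iff₀ hmr]
              linarith only [hx1]
            have h5 := ir_exp_bound hb1 hb2
            have h6 : ENNReal.ofReal x ≤ 2 * m * (1 - ee (1 / m) x) := by
              rw [ee, ← ENNReal.ofReal_one, ← ENNReal.ofReal_sub _ (Real.exp_pos _).le]
              have h7 : (2 * (m : ℝ≥0∞)) = ENNReal.ofReal (2 * m) := by
                rw [ENNReal.ofReal_mul (by norm_num)]
                simp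
              rw [h7, ← ENNReal.ofReal_mul (by positivity)]
              refine ENNReal.ofReal_le_ofReal ?_
              have h8 : x = 2 * m * (1 / (m : ℝ) * x / 2) := by (clear * - hm; field_simp)
              calc x = 2 * m * (1 / (m : ℝ) * x / 2) := h8
                _ ≤ 2 * m * (1 - Real.exp (-(1 / (m : ℝ) * x))) := by
                    gcongr
                    linarith only [h5]
            calc wt μ b.1 * ENNReal.ofReal x ≤ wt μ b.1 * (2 * m * (1 - ee (1 / m) x)) := by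
                  (clear * - h6; gcongr)
              _ = _ := by ring
        _ = 2 * m * ∑ b ∈ S, wt μ b.1 * (1 - ee (1 / m) (L (dsp b.1))) := by
            rw [Finset.mul_sum]
        _ ≤ 2 * m * Δ := by
            gcongr
            exact ENNReal.sum_le_tsum S
    calc (∑ b ∈ S, wt μ b.1 * ENNReal.ofReal (L (dsp b.1))) * (q * ee 1 1)
        ≤ 2 * m * Δ * (q * ee 1 1) := by (clear * - h3; gcongr)
      _ = 2 * (Δ * (m * (q * ee 1 1))) := by ring
      _ ≤ 2 * (Δ * BB μ L (1 / m)) := by (clear * - h2; gcongr)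
      _ ≤ 2 * 1 := by (clear * - h1; gcongr)
      _ = 2 := mul_one _
  intro htop
  have h1 : (∑' b : Ir L, wt μ b.1 * ENNReal.ofReal (L (dsp b.1))) * (q * ee 1 1) ≤ 2 := by
    rw [← ENNReal.tsum_mul_right, ENNReal.tsum_eq_iSup_sum]
    refine iSup_le fun S => ?_
    rw [← Finset.sum_mul]
    exact main S
  rw [htop, ENNReal.top_mul (mul_ne_zero hq0 he)] at h1
  exact absurd h1 (by simp)

end weights

end Vale.Agent.P147.Z.IrA

namespace Vale.Agent.P147.Z

variable {d : ℕ} (μ : Measure (Row d)) [IsProbabilityMeasure μ]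

theorem tsum_Ir {L : Site d →+ ℝ} (hL : Lvl L) {q : ℝ≥0∞} (hq0 : q ≠ 0)
    (hq : ∀ a, q ≤ fu μ L a) : ∑' b : Ir L, wt μ b.1 = 1 := IrA.tsum_Ir_aux μ hL hq0 hq

theorem rho_lt {L : Site d →+ ℝ} (hL : Lvl L) {q : ℝ≥0∞} (hq0 : q ≠ 0)
    (hq : ∀ a, q ≤ fu μ L a) :
    ∑' b : Ir L, wt μ b.1 * ENNReal.ofReal (Real.exp (-L (dsp b.1))) < 1 :=
  IrA.rho_lt_aux μ hL hq0 hq

theorem mean_height {L : Site d →+ ℝ} (hL : Lvl L) {q : ℝ≥0∞} (hq0 : q ≠ 0)
    (hq : ∀ a, q ≤ fu μ L a) :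
    ∑' b : Ir L, wt μ b.1 * ENNReal.ofReal (L (dsp b.1)) ≠ ⊤ :=
  IrA.mean_height_aux μ hL hq0 hq

end Vale.Agent.P147.Z
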