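import Vale.Agent.P147.MathlibUsed

/-!
# Choice of scales

A summable sequence `dp` meets the bound `c / (j log j)` at arbitrarily large `j` outside every
set of upper density at most `1 / 4`.
-/

namespace Vale.Agent.P147.Z

/-- A summable sequence is small compared with `1 / (j log j)` at some point of every family of
dense dyadic blocks. -/
theorem exists_scale {D : ℕ → ℝ} (hD : ∀ j, 0 ≤ D j) {K : ℝ}
    (hK : ∀ J, ∑ j ∈ Finset.range J, D j ≤ K) {C : ℕ → Finset ℕ} {k0 : ℕ}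
    (hsub : ∀ k, k0 ≤ k → C k ⊆ Finset.Ioc (2 ^ k) (2 ^ (k + 1)))
    (hcard : ∀ k, k0 ≤ k → 2 ^ k ≤ 2 * (C k).card) {ε : ℝ} (hε : 0 < ε) (k1 : ℕ) :
    ∃ k, k1 ≤ k ∧ ∃ j ∈ C k, D j * (j * Real.log j) ≤ ε := by
  by_contra hcon
  push Not at hcon
  set k2 := max k0 k1 with hk2
  -- lower bound for one block
  have hblock : ∀ k, k2 ≤ k →
      ε / (4 * Real.log 2) * (1 / ((k : ℝ) + 1)) ≤ ∑ j ∈ C k, D j := by
    intro k hk
    have hk0 : k0 ≤ k := le_trans (le_max_left _ _) hk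
    have hk1 : k1 ≤ k := le_trans (le_max_right _ _) hk
    have hlog2 : 0 < Real.log 2 := Real.log_pos (by norm_num)
    have hterm : ∀ j ∈ C k, ε / (2 ^ (k + 1) * ((k + 1) * Real.log 2)) ≤ D j := by
      intro j hj
      have hj1 := Finset.mem_Ioc.1 (hsub k hk0 hj)
      have hj2 := hcon k hk1 j hj
      have hjpos : 1 < j := lt_of_le_of_lt (Nat.one_le_two_pow) hj1.1
      have hjr : (1 : ℝ) < j := by exact_mod_cast hjpos
      have hle : (j : ℝ) ≤ 2 ^ (k + 1) := by exact_mod_cast hj1.2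
      have hlog : Real.log j ≤ (k + 1) * Real.log 2 := by
        have := Real.log_le_log (by linarith) hle
        rw [Real.log_pow] at this
        push_cast at this
        exact this
      have hlogpos : 0 < Real.log j := Real.log_pos hjr
      rw [div_le_iff₀ (by positivity)]
      calc ε ≤ D j * (j * Real.log j) := hj2.le
        _ ≤ D j * (2 ^ (k + 1) * ((k + 1) * Real.log 2)) := by
            refine mul_le_mul_of_nonneg_left ?_ (hD j)
            gcongr
    calc ε / (4 * Real.log 2) * (1 / ((k : ℝ) + 1))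
        = (2 ^ k / 2) * (ε / (2 ^ (k + 1) * ((k + 1) * Real.log 2))) := by
          rw [pow_succ]
          field_simp
          ring
      _ ≤ ((C k).card : ℝ) * (ε / (2 ^ (k + 1) * ((k + 1) * Real.log 2))) := by
          gcongr
          have : (2 : ℝ) ^ k ≤ 2 * (C k).card := by exact_mod_cast hcard k hk0
          linarith
      _ = ∑ _j ∈ C k, ε / (2 ^ (k + 1) * ((k + 1) * Real.log 2)) := by
          rw [Finset.sum_const, nsmul_eq_mul]
      _ ≤ ∑ j ∈ C k, D j := Finset.sum_le_sum hterm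
  -- disjointness of the blocks
  have hdisj : ∀ n, ∑ k ∈ Finset.Ico k2 n, ∑ j ∈ C k, D j ≤ K := by
    intro n
    rw [← Finset.sum_biUnion]
    · refine le_trans (Finset.sum_le_sum_of_subset_of_nonneg (t := Finset.range (2 ^ n + 1)) ?_
        (fun j _ _ => hD j)) (hK _)
      intro j hj
      simp only [Finset.mem_biUnion, Finset.mem_Ico] at hj
      obtain ⟨k, ⟨hk, hkn⟩, hj⟩ := hj
      have := Finset.mem_Ioc.1 (hsub k (le_trans (le_max_left _ _) hk) hj)
      rw [Finset.mem_range]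
      have h2 : 2 ^ (k + 1) ≤ 2 ^ n := Nat.pow_le_pow_right (by norm_num) hkn
      omega
    · intro k hk l hl hkl
      have hk' := (Finset.mem_Ico.1 (Finset.mem_coe.1 hk)).1
      have hl' := (Finset.mem_Ico.1 (Finset.mem_coe.1 hl)).1
      rw [Function.onFun, Finset.disjoint_left]
      intro j hj1 hj2
      have e1 := Finset.mem_Ioc.1 (hsub k (le_trans (le_max_left _ _) hk') hj1)
      have e2 := Finset.mem_Ioc.1 (hsub l (le_trans (le_max_left _ _) hl') hj2)
      rcases lt_or_gt_of_ne hkl with h | h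
      · have : 2 ^ (k + 1) ≤ 2 ^ l := Nat.pow_le_pow_right (by norm_num) h
        omega
      · have : 2 ^ (l + 1) ≤ 2 ^ k := Nat.pow_le_pow_right (by norm_num) h
        omega
  have hlog2 : 0 < Real.log 2 := Real.log_pos (by norm_num)
  set c := ε / (4 * Real.log 2) with hc
  have hcpos : 0 < c := by positivity
  have hbound : ∀ n, c * ∑ k ∈ Finset.Ico k2 n, (1 / ((k : ℝ) + 1)) ≤ K := by
    intro n
    rw [Finset.mul_sum]
    refine le_trans (Finset.sum_le_sum fun k hk => ?_) (hdisj n)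
    exact hblock k (Finset.mem_Ico.1 hk).1
  have hdiv := Real.tendsto_sum_range_one_div_nat_succ_atTop
  rw [Filter.tendsto_atTop] at hdiv
  obtain ⟨n, hn1, hn2⟩ := ((hdiv (K / c + 1 + ∑ k ∈ Finset.range k2, (1 / ((k : ℝ) + 1)))).and
    (Filter.eventually_ge_atTop k2)).exists
  have h3 := hbound n
  have h4 : ∑ k ∈ Finset.range n, (1 / ((k : ℝ) + 1)) =
      ∑ k ∈ Finset.range k2, (1 / ((k : ℝ) + 1)) +
        ∑ k ∈ Finset.Ico k2 n, (1 / ((k : ℝ) + 1)) :=
    (Finset.sum_range_add_sum_Ico _ hn2).symm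
  rw [h4] at hn1
  have h5 : K / c + 1 ≤ ∑ k ∈ Finset.Ico k2 n, (1 / ((k : ℝ) + 1)) := by linarith
  have h6 : c * (K / c + 1) ≤ K := le_trans (by gcongr) h3
  have h7 : c * (K / c + 1) = K + c := by field_simp
  linarith


open Classical in
theorem scales_meet (dp : ℕ → ℝ) (h0 : ∀ j, 0 ≤ dp j) (hs : Summable dp) (B : Set ℕ)
    (hB : ∃ J0, ∀ J, J0 ≤ J → 4 * ((Finset.range J).filter (fun j => j ∈ B)).card ≤ J)
    {c : ℝ} (hc : 0 < c) (N : ℕ) :
    ∃ j, N ≤ j ∧ j ∉ B ∧ dp j ≤ c / ((j : ℝ) * Real.log j) := by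
  obtain ⟨J0, hJ0⟩ := hB
  set C : ℕ → Finset ℕ := fun k => (Finset.Ioc (2 ^ k) (2 ^ (k + 1))).filter (fun j => j ∉ B)
    with hC
  have hK : ∀ J, ∑ j ∈ Finset.range J, dp j ≤ ∑' j, dp j := fun J =>
    hs.sum_le_tsum _ (fun j _ => h0 j)
  have hsub : ∀ k, J0 + 1 ≤ k → C k ⊆ Finset.Ioc (2 ^ k) (2 ^ (k + 1)) := fun k _ =>
    Finset.filter_subset _ _
  have hcard : ∀ k, J0 + 1 ≤ k → 2 ^ k ≤ 2 * (C k).card := by
    intro k hk
    have h1 : (C k).card + ((Finset.Ioc (2 ^ k) (2 ^ (k + 1))).filter (fun j => j ∈ B)).card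
        = 2 ^ k := by
      have := Finset.card_filter_add_card_filter_not (s := Finset.Ioc (2 ^ k) (2 ^ (k + 1)))
        (fun j => j ∈ B)
      rw [Nat.card_Ioc, pow_succ] at this
      rw [hC, add_comm]
      simp only [pow_succ]
      omega
    have h2 : ((Finset.Ioc (2 ^ k) (2 ^ (k + 1))).filter (fun j => j ∈ B)).card ≤
        ((Finset.range (2 ^ (k + 1) + 1)).filter (fun j => j ∈ B)).card := by
      refine Finset.card_le_card (Finset.filter_subset_filter _ ?_)
      intro j hj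
      rw [Finset.mem_Ioc] at hj
      rw [Finset.mem_range]
      omega
    have h3 : J0 ≤ 2 ^ (k + 1) + 1 := by
      have : k < 2 ^ k := Nat.lt_two_pow_self
      rw [pow_succ]
      omega
    have h4 := hJ0 _ h3
    obtain ⟨m, rfl⟩ : ∃ m, k = m + 1 := ⟨k - 1, by omega⟩
    have h5 : 2 ^ (m + 1 + 1) = 4 * 2 ^ m := by ring
    have h6 : 2 ^ (m + 1) = 2 * 2 ^ m := by ring
    rw [h5] at h2 h4
    rw [h5, h6] at h1
    rw [h6]
    rw [h6] at h2
    omega
  obtain ⟨k, hk, j, hj, hle⟩ := exists_scale h0 hK hsub hcard hc (N + 1)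
  rw [hC, Finset.mem_filter, Finset.mem_Ioc] at hj
  have hkk : k < 2 ^ k := Nat.lt_two_pow_self
  have hj1 : 1 < j := by omega
  have hj2 : (1 : ℝ) < j := by exact_mod_cast hj1
  have hpos : 0 < (j : ℝ) * Real.log j := mul_pos (by linarith) (Real.log_pos hj2)
  refine ⟨j, by omega, hj.2, ?_⟩
  rw [le_div_iff₀ hpos]
  exact hle

end Vale.Agent.P147.Z
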