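import Vale.Agent.P147.Z.CrA
import Vale.Agent.P147.Z.Tools
import Vale.Agent.P147.Z.Blocks
import Vale.Agent.P147.Z.Ir
import Vale.Agent.P147.Z.Dj
import Vale.Agent.P147.Z.Entropy
import Vale.Agent.P147.Z.Scales
import Vale.Agent.P147.Z.Growth
import Vale.Agent.P147.Z.End

open MeasureTheory
open scoped ENNReal

namespace Vale.Agent.P147.Z.Cr

variable {d : ℕ} (μ : Measure (Row d)) {L : Site d →+ ℝ}

/-- Kill of the downward paths from the end of `l` by the part of `l` below level `h`. -/
noncomputable def Phi (L : Site d →+ ℝ) (l1 h : ℝ) (l : List (Dir d)) : ℝ≥0∞ :=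
  kill μ (Td L l1 (dsp l)) (dsp l) (exits 0 (fpre L h l))

lemma kill_mono' (T : Set (List (Dir d))) (z : Site d) {S S' : Finset (Site d)} (h : S ⊆ S') :
    kill μ T z S ≤ kill μ T z S' := by
  unfold kill
  refine ENNReal.tsum_le_tsum fun ρ => ?_
  split_ifs with h1 h2
  · exact le_rfl
  · exact zero_le
  · rename_i h2
    exact absurd (Finset.disjoint_of_subset_right h h2) h1
  · exact le_rfl

lemma kill_le_tsum (T : Set (List (Dir d))) (z : Site d) (S : Finset (Site d)) :
    kill μ T z S ≤ ∑' ρ : T, wt μ ρ.1 := by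
  unfold kill
  refine ENNReal.tsum_le_tsum fun ρ => ?_
  split_ifs
  · exact zero_le
  · exact le_rfl

lemma exits_take_subset (l : List (Dir d)) (i : ℕ) : exits 0 (l.take i) ⊆ exits 0 l := by
  conv_rhs => rw [← List.take_append_drop i l]
  rw [exits_append]
  exact Finset.subset_union_left

lemma exits_fpre_subset {h : ℝ} {β γ : List (Dir d)} (hβ : h ≤ L (dsp β)) :
    exits 0 (fpre L h (β ++ γ)) ⊆ exits 0 β := by
  have h1 : sInf {i | h ≤ L (dsp ((β ++ γ).take i))} ≤ β.length := by
    apply Nat.sInf_le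
    simpa using hβ
  unfold fpre
  rw [List.take_append_of_le_length h1]
  exact exits_take_subset _ _

lemma Phi_le (l1 h : ℝ) {β γ : List (Dir d)} (hβ : h ≤ L (dsp β)) :
    Phi μ L l1 h (β ++ γ) ≤ kill μ (Td L l1 (dsp β + dsp γ)) (dsp β + dsp γ) (exits 0 β) := by
  unfold Phi
  rw [dsp_append]
  exact kill_mono' μ _ _ (exits_fpre_subset hβ)

variable [IsProbabilityMeasure μ]

open Classical in
theorem mid {q εs : ℝ≥0∞} (hL : Lvl L) (hq0 : q ≠ 0) (hqt : q ≠ ⊤) (hq : ∀ a, q ≤ fu μ L a)
    (h1 : ∑' b : Ir L, wt μ b.1 = 1) (hTd : ∀ z l1, ∑' ρ : Td L l1 z, wt μ ρ.1 ≤ 1)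
    {n m : ℕ} (hmn : m ≤ n) {l1 h M : ℝ}
    (hs : ∀ z : Site d, M ≤ L z →
      ∑' π : Fp L M, wt μ π.1 * kill μ (Td L l1 z) z (exits 0 π.1) ≤ εs) :
    En μ L n (fun l => if M ≤ L (dsp l) ∧ L (dsp l) < 2 * M + 1 then Phi μ L l1 h l else 0) ≤
      En μ L m (fun l => if L (dsp l) < h then 1 else 0) +
      En μ L m (fun l => if M < L (dsp l) then 1 else 0) + q⁻¹ * εs + tv (kap μ L) n m := by
  have hκ : ∀ k, ∑' z, ((kap μ L) ^ k).v z = 1 := by
    intro k
    have := Cv.mass_pow (kap μ L) k
    rw [kap_mass, h1, one_pow] at this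
    exact this
  -- the averaged function
  let g : List (Dir d) → Site d → ℝ≥0∞ := fun β z =>
    if M ≤ L z then kill μ (Td L l1 z) z (exits 0 β) else 0
  have hg1 : ∀ β z, g β z ≤ 1 := by
    intro β z
    simp only [g]
    split_ifs
    · exact (kill_le_tsum μ _ _ _).trans (hTd z l1)
    · exact zero_le
  -- step 1
  have s1 : En μ L n (fun l => if M ≤ L (dsp l) ∧ L (dsp l) < 2 * M + 1 then Phi μ L l1 h l
      else 0) ≤ En μ L m (fun β => (if L (dsp β) < h then 1 else 0) +
        (if M < L (dsp β) then 1 else 0) +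
        (if L (dsp β) ≤ M then En μ L (n - m) (fun γ => g β (dsp β + dsp γ)) else 0)) := by
    have hn : n = m + (n - m) := by omega
    conv_lhs => rw [hn]
    rw [En_add]
    refine En_mono μ m fun β => ?_
    have hle1 : ∀ γ : List (Dir d), (if M ≤ L (dsp (β ++ γ)) ∧ L (dsp (β ++ γ)) < 2 * M + 1
        then Phi μ L l1 h (β ++ γ) else 0) ≤ 1 := by
      intro γ
      split_ifs
      · exact (kill_le_tsum μ _ _ _).trans (hTd _ l1)
      · exact zero_le
    have hb1 : En μ L (n - m) (fun γ => (if M ≤ L (dsp (β ++ γ)) ∧ L (dsp (β ++ γ)) < 2 * M + 1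
        then Phi μ L l1 h (β ++ γ) else 0)) ≤ 1 := by
      calc _ ≤ En μ L (n - m) (fun _ => 1) := En_mono μ _ hle1
        _ = 1 := En_const μ h1 _ _
    by_cases hlow : L (dsp β) < h
    · rw [if_pos hlow, add_assoc]
      exact hb1.trans le_self_add
    by_cases hhigh : M < L (dsp β)
    · rw [if_pos hhigh]
      refine hb1.trans ?_
      rw [add_assoc]
      exact le_self_add.trans le_add_self
    · rw [if_neg hlow, if_neg hhigh, if_pos (not_lt.1 hhigh), add_zero, zero_add]
      refine En_mono μ _ fun γ => ?_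
      simp only [g]
      split_ifs with h2 h3
      · exact Phi_le μ l1 h (not_lt.1 hlow)
      · exfalso
        apply h3
        have := h2.1
        rwa [dsp_append] at this
      · exact zero_le
      · exact zero_le
  -- step 2
  have s2 : ∀ β : List (Dir d), En μ L (n - m) (fun γ => g β (dsp β + dsp γ)) ≤
      (∑' z, ((kap μ L) ^ n).v z * g β z) +
        ∑' z, (((kap μ L) ^ (n - m)).v (z - dsp β) - ((kap μ L) ^ n).v z) := by
    intro β
    rw [En_dsp' μ (n - m) (fun y => g β (dsp β + y)), ← ENNReal.tsum_add,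
      ← (Equiv.subRight (dsp β)).tsum_eq
        (fun y => ((kap μ L) ^ (n - m)).v y * g β (dsp β + y))]
    refine ENNReal.tsum_le_tsum fun z => ?_
    simp only [Equiv.subRight_apply, add_sub_cancel]
    calc ((kap μ L) ^ (n - m)).v (z - dsp β) * g β z
        ≤ (((kap μ L) ^ n).v z + (((kap μ L) ^ (n - m)).v (z - dsp β) -
            ((kap μ L) ^ n).v z)) * g β z := by
          gcongr
          exact le_add_tsub
      _ = ((kap μ L) ^ n).v z * g β z + (((kap μ L) ^ (n - m)).v (z - dsp β) -
            ((kap μ L) ^ n).v z) * g β z := by ring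
      _ ≤ _ := by
          gcongr
          calc _ ≤ (((kap μ L) ^ (n - m)).v (z - dsp β) - ((kap μ L) ^ n).v z) * 1 := by
                gcongr
                exact hg1 β z
            _ = _ := mul_one _
  -- step 3: fixed z
  have s3 : ∀ z, En μ L m (fun β => if L (dsp β) ≤ M then g β z else 0) ≤ q⁻¹ * εs := by
    intro z
    by_cases hz : M ≤ L z
    · have h3 := En_le_Fp μ hL hq m M (fun β => kill μ (Td L l1 z) z (exits 0 β))
        (fun a b => kill_mono' μ _ _ (by rw [exits_append]; exact Finset.subset_union_left))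
      have h4 := h3.trans (hs z hz)
      have h5 : (fun β => if L (dsp β) ≤ M then g β z else 0) =
          (fun β => if L (dsp β) ≤ M then kill μ (Td L l1 z) z (exits 0 β) else 0) := by
        funext β
        simp only [g, if_pos hz]
      rw [h5, ← ENNReal.div_eq_inv_mul, ENNReal.le_div_iff_mul_le (Or.inl hq0) (Or.inl hqt),
        mul_comm]
      exact h4
    · have h5 : (fun β => if L (dsp β) ≤ M then g β z else 0) = fun _ => 0 := by
        funext β
        simp only [g, if_neg hz, ite_self]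
      rw [h5, En_const μ h1]
      exact zero_le
  -- conclusion
  refine s1.trans ?_
  rw [En_add_fun, En_add_fun, add_assoc (_ + _)]
  gcongr
  calc En μ L m (fun β => if L (dsp β) ≤ M then En μ L (n - m) (fun γ => g β (dsp β + dsp γ))
          else 0)
      ≤ En μ L m (fun β => (∑' z, ((kap μ L) ^ n).v z * (if L (dsp β) ≤ M then g β z else 0)) +
          ∑' z, (((kap μ L) ^ (n - m)).v (z - dsp β) - ((kap μ L) ^ n).v z)) := by
        refine En_mono μ m fun β => ?_
        split_ifs with hβ
        · exact s2 β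
        · exact zero_le
    _ = (∑' z, ((kap μ L) ^ n).v z * En μ L m (fun β => if L (dsp β) ≤ M then g β z else 0)) +
          tv (kap μ L) n m := by
        rw [En_add_fun, En_tsum]
        congr 1
        · refine tsum_congr fun z => ?_
          rw [← En_const_mul]
        · rw [En_dsp' μ m (fun y => ∑' z, (((kap μ L) ^ (n - m)).v (z - y) -
            ((kap μ L) ^ n).v z))]
          rfl
    _ ≤ (∑' z, ((kap μ L) ^ n).v z * (q⁻¹ * εs)) + tv (kap μ L) n m := by
        gcongr with z
        exact s3 z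
    _ = q⁻¹ * εs + tv (kap μ L) n m := by
        rw [ENNReal.tsum_mul_right, hκ, one_mul]

end Vale.Agent.P147.Z.Cr
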