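import Vale.Agent.P147.Z.CrB

open MeasureTheory
open scoped ENNReal

namespace Vale.Agent.P147.Z.Cr

variable {d : ℕ} (μ : Measure (Row d)) [IsProbabilityMeasure μ] {L : Site d →+ ℝ}

lemma tsum_le_of_prefix {S S' : Set (List (Dir d))} (hS : Free S)
    (h : ∀ π ∈ S, ∃ a ∈ S', ∃ c, π = a ++ c) : ∑' π : S, wt μ π.1 ≤ ∑' a : S', wt μ a.1 := by
  choose! a ha c hc using h
  calc ∑' π : S, wt μ π.1
      ≤ ∑' x : (Σ a : S', {c : List (Dir d) | a.1 ++ c ∈ S}), wt μ (x.1.1 ++ x.2.1) := by
        let f : S → (Σ a : S', {c : List (Dir d) | a.1 ++ c ∈ S}) := fun π =>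
          ⟨⟨a π.1, ha π.1 π.2⟩, ⟨c π.1, by
            change a π.1 ++ c π.1 ∈ S
            rw [← hc π.1 π.2]; exact π.2⟩⟩
        have hf : Function.Injective f := by
          intro π π' hππ
          have h1 : a π.1 ++ c π.1 = a π'.1 ++ c π'.1 := by
            have h2 : (fun x : (Σ a : S', {c : List (Dir d) | a.1 ++ c ∈ S}) =>
              x.1.1 ++ x.2.1) (f π) = (fun x : (Σ a : S', {c : List (Dir d) | a.1 ++ c ∈ S}) =>
              x.1.1 ++ x.2.1) (f π') := by rw [hππ]
            exact h2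
          apply Subtype.ext
          rw [hc π.1 π.2, hc π'.1 π'.2, h1]
        have h3 := ENNReal.tsum_comp_le_tsum_of_injective hf
          (fun x => wt μ (x.1.1 ++ x.2.1))
        refine le_trans (le_of_eq ?_) h3
        refine tsum_congr fun π => ?_
        change wt μ π.1 = wt μ (a π.1 ++ c π.1)
        rw [← hc π.1 π.2]
    _ = ∑' a : S', ∑' c : {c : List (Dir d) | a.1 ++ c ∈ S}, wt μ (a.1 ++ c.1) :=
        ENNReal.tsum_sigma' _
    _ ≤ _ := ENNReal.tsum_le_tsum fun a => tsum_append_le μ hS a.1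

lemma Fp_free' (L : Site d →+ ℝ) (a : ℝ) : Free (Fp L a) := by
  rintro l ⟨_, hl⟩ b ⟨hb, _⟩
  by_contra hne
  have := (hb (dsp l) (mem_exits.2 ⟨l, b, rfl, hne, by simp⟩)).2
  linarith

lemma Fp_end_lt (hL : Lvl L) {a : ℝ} (ha : 0 ≤ a) {l : List (Dir d)} (hl : l ∈ Fp L a) :
    L (dsp l) < a + 1 := by
  rcases List.eq_nil_or_concat l with rfl | ⟨l', u, rfl⟩
  · simp only [dsp_nil, map_zero]
    linarith
  · have h1 := (hl.1 (dsp l') (mem_exits.2 ⟨l', [u], by simp, by simp, by simp⟩)).2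
    have h2 := hL.step u
    rw [abs_le] at h2
    simp only [List.concat_eq_append, dsp_append, dsp_cons, dsp_nil, add_zero, map_add]
    linarith

/-- Paths that end outside of the box reach its complement within the slab. -/
lemma out_le (hL : Lvl L) {N t : ℝ} (hN : 0 ≤ N) (hNt : N + 1 ≤ t) (R : ℕ) :
    ∑' π : Fp L N, (if dsp π.1 ∉ bx d R then wt μ π.1 else 0) ≤
      ∑' π : Rch L t R, wt μ π.1 := by
  classical
  have e1 : ∑' π : Fp L N, (if dsp π.1 ∉ bx d R then wt μ π.1 else 0) =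
      ∑' π : {π | π ∈ Fp L N ∧ dsp π ∉ bx d R}, wt μ π.1 := by
    rw [tsum_subtype (Fp L N) (fun π => if dsp π ∉ bx d R then wt μ π else 0),
      tsum_subtype {π | π ∈ Fp L N ∧ dsp π ∉ bx d R} (fun π => wt μ π)]
    refine tsum_congr fun π => ?_
    simp only [Set.indicator, Set.mem_setOf_eq]
    split_ifs <;> first | rfl | tauto
  rw [e1]
  refine tsum_le_of_prefix μ ?_ ?_
  · intro a ha b hb
    exact Fp_free' L N a ha.1 b hb.1
  · rintro π ⟨hπ, hout⟩
    -- first exit of the box
    let P : ℕ → Prop := fun i => dsp (π.take i) ∉ bx d R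
    have hP : ∃ i, P i := ⟨π.length, by simpa [P] using hout⟩
    have hi := Nat.find_spec hP
    have hmin := fun j (hj : j < Nat.find hP) => Nat.find_min hP hj
    set i := Nat.find hP with hidef
    have hil : i ≤ π.length := Nat.find_min' hP (by simpa [P] using hout)
    have hslab : ∀ j ≤ π.length, dsp (π.take j) ∈ Db L t := by
      intro j hj
      rcases eq_or_lt_of_le hj with rfl | hj
      · rw [List.take_length]
        have h1 := Fp_end_lt hL hN hπ
        exact ⟨by linarith [hπ.2], by linarith⟩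
      · have h1 := hπ.1 (dsp (π.take j)) (mem_exits.2 ⟨π.take j, π.drop j, by simp, by
          intro h0
          rw [List.drop_eq_nil_iff] at h0
          omega, by simp⟩)
        exact ⟨by linarith [h1.1], by linarith [h1.2]⟩
    refine ⟨π.take i, ⟨?_, hslab i hil, hi⟩, π.drop i, by simp⟩
    intro x hx
    obtain ⟨a, b, hab, hb, rfl⟩ := mem_exits.1 hx
    have hlen : a.length < i := by
      have h2 := congrArg List.length hab
      rw [List.length_take, List.length_append] at h2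
      have h3 : 0 < b.length := List.length_pos_of_ne_nil hb
      omega
    have ha : a = π.take a.length := by
      have h2 : a = (π.take i).take a.length := by rw [hab]; simp
      rw [List.take_take, min_eq_left hlen.le] at h2
      exact h2
    rw [zero_add, ha]
    exact ⟨hslab _ (by omega), not_not.1 (hmin _ hlen)⟩

open Classical in
/-- The box of possible end points. -/
noncomputable def Bf (L : Site d →+ ℝ) (M R : ℕ) : Finset (Site d) :=
  (bx d R).filter (fun y => (M : ℝ) ≤ L y ∧ L y < 2 * M + 1)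

open Classical in
theorem endN (hL : Lvl L) {q w0 : ℝ≥0∞} (hq : ∀ a, q ≤ fu μ L a) (hw1 : w0 ≤ 1)
    {M N R : ℕ} (hMN : M ≤ N) (hN2 : N ≤ 2 * M) {l1 h : ℝ} (hl1 : 0 ≤ l1) (h0 : 0 ≤ h)
    (hhM : h ≤ M) (hTd : ∀ z l1, ∑' ρ : Td L l1 z, wt μ ρ.1 ≤ 1)
    (hTs : ∀ (z : Site d) (t : ℝ), L z < t → Td L l1 z ⊆ Ds L t z)
    (hTw : ∀ z, w0 ≤ ∑' ρ : Td L l1 z, wt μ ρ.1)
    {lam x : ℝ} (hlam : 0 < lam) (hlam1 : lam ≤ 1) (hx : 0 ≤ x) :
    w0 * q ≤ (∑' π : Rch L (2 * M + 2) R, wt μ π.1) +
      ((ENNReal.ofReal lam)⁻¹ * ∑' γ : Fp L h, Eb μ L (2 * M + 2) γ.1 +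
        (Bf L M R).card *
          ENNReal.ofReal (2 * Real.exp (-x / (2 * (lam * (1 + Real.log (1 / lam))))))) +
      ENNReal.ofReal x + ∑' π : Fp L (N : ℝ), wt μ π.1 * Phi μ L l1 h π.1 := by
  have hMN' : (M : ℝ) ≤ N := by exact_mod_cast hMN
  have hN2' : (N : ℝ) ≤ 2 * M := by exact_mod_cast hN2
  have hend := end_bound μ hL (t := 2 * M + 2) (N := (N : ℝ)) h0 (hhM.trans hMN')
    (by linarith) (Bf L M R) (fun y => Td L l1 y)
    (by
      intro y hy
      simp only [Bf, Finset.mem_filter] at hy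
      exact hTs y _ (by linarith [hy.2.2]))
    (fun y _ => hTd y l1)
    (by
      intro y hy
      simp only [Bf, Finset.mem_filter] at hy
      have : (0 : ℝ) ≤ M := Nat.cast_nonneg M
      exact ⟨by linarith [hy.2.1], by linarith [hy.2.2]⟩)
    (w0 := w0) (fun y _ => hTw y) hlam hlam1 hx
  have hout := out_le μ hL (N := (N : ℝ)) (t := 2 * M + 2) (Nat.cast_nonneg N) (by linarith) R
  calc w0 * q ≤ w0 * fu μ L N := by gcongr; exact hq _
    _ = ∑' π : Fp L (N : ℝ), w0 * wt μ π.1 := by rw [fu, ENNReal.tsum_mul_left]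
    _ ≤ ∑' π : Fp L (N : ℝ), ((if dsp π.1 ∉ bx d R then wt μ π.1 else 0) +
        (if dsp π.1 ∈ Bf L M R ∧ kill μ (Td L l1 (dsp π.1)) (dsp π.1)
          (exits 0 (fpre L h π.1)) + ENNReal.ofReal x < w0 then wt μ π.1 else 0) +
        wt μ π.1 * ENNReal.ofReal x + wt μ π.1 * Phi μ L l1 h π.1) := by
        refine ENNReal.tsum_le_tsum fun π => ?_
        have hw1' : w0 * wt μ π.1 ≤ wt μ π.1 := by
          calc w0 * wt μ π.1 ≤ 1 * wt μ π.1 := by gcongr
            _ = _ := one_mul _
        by_cases hb : dsp π.1 ∉ bx d R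
        · rw [if_pos hb]
          refine hw1'.trans ?_
          rw [add_assoc, add_assoc]
          exact le_self_add
        · rw [if_neg hb]
          have hin : dsp π.1 ∈ Bf L M R := by
            simp only [Bf, Finset.mem_filter]
            have h3 := Fp_end_lt hL (Nat.cast_nonneg N) π.2
            exact ⟨not_not.1 hb, by linarith [π.2.2], by linarith⟩
          by_cases hk : kill μ (Td L l1 (dsp π.1)) (dsp π.1) (exits 0 (fpre L h π.1)) +
              ENNReal.ofReal x < w0
          · rw [if_pos ⟨hin, hk⟩]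
            refine hw1'.trans ?_
            rw [zero_add, add_assoc]
            exact le_self_add
          · rw [if_neg (fun h => hk h.2), add_zero, zero_add, ← mul_add, mul_comm, add_comm]
            gcongr
            exact not_lt.1 hk
    _ = (∑' π : Fp L (N : ℝ), (if dsp π.1 ∉ bx d R then wt μ π.1 else 0)) +
        (∑' π : Fp L (N : ℝ), (if dsp π.1 ∈ Bf L M R ∧ kill μ (Td L l1 (dsp π.1)) (dsp π.1)
          (exits 0 (fpre L h π.1)) + ENNReal.ofReal x < w0 then wt μ π.1 else 0)) +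
        (∑' π : Fp L (N : ℝ), wt μ π.1) * ENNReal.ofReal x +
        ∑' π : Fp L (N : ℝ), wt μ π.1 * Phi μ L l1 h π.1 := by
        rw [ENNReal.tsum_add, ENNReal.tsum_add, ENNReal.tsum_add, ENNReal.tsum_mul_right]
    _ ≤ _ := by
        gcongr
        · calc (∑' π : Fp L (N : ℝ), wt μ π.1) * ENNReal.ofReal x ≤ 1 * ENNReal.ofReal x := by
                gcongr
                exact tsum_wt_le_one μ (Fp_free' L _)
            _ = _ := one_mul _

end Vale.Agent.P147.Z.Cr
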