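import Vale.Agent.P147.Z.CrC

open MeasureTheory
open scoped ENNReal

namespace Vale.Agent.P147.Z.Cr

variable {d : ℕ} (μ : Measure (Row d)) [IsProbabilityMeasure μ] {L : Site d →+ ℝ}

/-- Laplace transform of the height of a block. -/
noncomputable def rho (L : Site d →+ ℝ) : ℝ≥0∞ :=
  ∑' b : Ir L, wt μ b.1 * ENNReal.ofReal (Real.exp (-L (dsp b.1)))

/-- Mean height of a block. -/
noncomputable def mh (L : Site d →+ ℝ) : ℝ≥0∞ :=
  ∑' b : Ir L, wt μ b.1 * ENNReal.ofReal (L (dsp b.1))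

lemma tsum_split (f : ℕ → ℝ≥0∞) {n1 n2 : ℕ} (h : n1 ≤ n2) :
    ∑' n, f n = (∑ n ∈ Finset.range n1, f n) + (∑ n ∈ Finset.Icc n1 n2, f n) +
      ∑' k, f (k + (n2 + 1)) := by
  have h1 := (ENNReal.summable (f := fun n => f (n + (n2 + 1)))).sum_add_tsum_nat_add'
    (f := f) (k := n2 + 1)
  rw [← h1]
  congr 1
  rw [Finset.range_eq_Ico, Finset.range_eq_Ico]
  have h2 : Finset.Icc n1 n2 = Finset.Ico n1 (n2 + 1) := by
    ext a; simp only [Finset.mem_Icc, Finset.mem_Ico]; omega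
  rw [h2]
  exact (Finset.sum_Ico_consecutive f (Nat.zero_le n1) (by omega)).symm

open Classical in
theorem main_ineq (hL : Lvl L) {q w0 εs : ℝ≥0∞} (hq0 : q ≠ 0) (hqt : q ≠ ⊤)
    (hq : ∀ a, q ≤ fu μ L a) (hw1 : w0 ≤ 1)
    (h1 : ∑' b : Ir L, wt μ b.1 = 1)
    {M R n1 n2 m : ℕ} (hM : 0 < M) (hn : n1 ≤ n2) (hm : m ≤ n1) {l1 h : ℝ} (hl1 : 0 ≤ l1)
    (h0 : 0 ≤ h) (hhM : h ≤ M) (hTd : ∀ z l1, ∑' ρ : Td L l1 z, wt μ ρ.1 ≤ 1)
    (hTs : ∀ (z : Site d) (t : ℝ), L z < t → Td L l1 z ⊆ Ds L t z)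
    (hTw : ∀ z, w0 ≤ ∑' ρ : Td L l1 z, wt μ ρ.1)
    (hs : ∀ z : Site d, (M : ℝ) ≤ L z →
      ∑' π : Fp L (M : ℝ), wt μ π.1 * kill μ (Td L l1 z) z (exits 0 π.1) ≤ εs)
    {lam x : ℝ} (hlam : 0 < lam) (hlam1 : lam ≤ 1) (hx : 0 ≤ x) :
    (M + 1) * (w0 * q) ≤ (M + 1) * ((∑' π : Rch L (2 * M + 2) R, wt μ π.1) +
      ((ENNReal.ofReal lam)⁻¹ * ∑' γ : Fp L h, Eb μ L (2 * M + 2) γ.1 +
        (Bf L M R).card *
          ENNReal.ofReal (2 * Real.exp (-x / (2 * (lam * (1 + Real.log (1 / lam))))))) +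
      ENNReal.ofReal x) + (n1 + ((n2 + 1) * (ENNReal.ofReal (Real.exp h) * rho μ L ^ m +
        (ENNReal.ofReal M)⁻¹ * (m * mh μ L) + q⁻¹ * εs) +
        ∑ n ∈ Finset.Icc n1 n2, tv (kap μ L) n m) +
        ENNReal.ofReal (Real.exp (2 * M + 1)) * (rho μ L ^ (n2 + 1) * (1 - rho μ L)⁻¹)) := by
  set E1 : ℝ≥0∞ := (∑' π : Rch L (2 * M + 2) R, wt μ π.1) +
      ((ENNReal.ofReal lam)⁻¹ * ∑' γ : Fp L h, Eb μ L (2 * M + 2) γ.1 +
        (Bf L M R).card *
          ENNReal.ofReal (2 * Real.exp (-x / (2 * (lam * (1 + Real.log (1 / lam))))))) +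
      ENNReal.ofReal x with hE1
  set f : ℕ → ℝ≥0∞ := fun n => En μ L n (fun l => if (M : ℝ) ≤ L (dsp l) ∧
    L (dsp l) < 2 * M + 1 then Phi μ L l1 h l else 0) with hf
  have hPhi1 : ∀ l, Phi μ L l1 h l ≤ 1 := fun l => (kill_le_tsum μ _ _ _).trans (hTd _ _)
  have hf1 : ∀ n, f n ≤ 1 := by
    intro n
    calc f n ≤ En μ L n (fun _ => 1) := by
          refine En_mono μ n fun l => ?_
          split_ifs
          · exact hPhi1 l
          · exact zero_le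
      _ = 1 := En_const μ h1 n 1
  have hf2 : ∀ n, f n ≤ ENNReal.ofReal (Real.exp (2 * M + 1)) * rho μ L ^ n := by
    intro n
    refine le_trans ?_ (En_low μ n (2 * M + 1))
    refine En_mono μ n fun l => ?_
    by_cases hl : (M : ℝ) ≤ L (dsp l) ∧ L (dsp l) < 2 * M + 1
    · rw [if_pos hl, if_pos hl.2]
      exact hPhi1 l
    · rw [if_neg hl]
      exact zero_le
  have step1 : ∀ N ∈ Finset.Icc M (2 * M), w0 * q ≤
      E1 + ∑' π : Fp L (N : ℝ), wt μ π.1 * Phi μ L l1 h π.1 := by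
    intro N hN
    rw [Finset.mem_Icc] at hN
    exact endN μ hL hq hw1 hN.1 hN.2 hl1 h0 hhM hTd hTs hTw hlam hlam1 hx
  have step2 : (M + 1) * (w0 * q) ≤ (M + 1) * E1 + ∑' n, f n := by
    have hc : (Finset.Icc M (2 * M)).card = M + 1 := by simp; omega
    calc ((M : ℝ≥0∞) + 1) * (w0 * q) = ∑ N ∈ Finset.Icc M (2 * M), w0 * q := by
          rw [Finset.sum_const, hc, nsmul_eq_mul]
          push_cast
          rfl
      _ ≤ ∑ N ∈ Finset.Icc M (2 * M), (E1 + ∑' π : Fp L (N : ℝ), wt μ π.1 * Phi μ L l1 h π.1) :=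
          Finset.sum_le_sum step1
      _ = (M + 1) * E1 + ∑ N ∈ Finset.Icc M (2 * M), ∑' π : Fp L (N : ℝ),
            wt μ π.1 * Phi μ L l1 h π.1 := by
          rw [Finset.sum_add_distrib, Finset.sum_const, hc, nsmul_eq_mul]
          push_cast
          rfl
      _ ≤ _ := by
          gcongr
          exact sum_Fp_le μ hL M _
  refine step2.trans ?_
  gcongr
  rw [tsum_split f hn]
  gcongr
  · calc ∑ n ∈ Finset.range n1, f n ≤ ∑ n ∈ Finset.range n1, 1 :=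
          Finset.sum_le_sum fun n _ => hf1 n
      _ = n1 := by simp
  · calc ∑ n ∈ Finset.Icc n1 n2, f n
        ≤ ∑ n ∈ Finset.Icc n1 n2, ((ENNReal.ofReal (Real.exp h) * rho μ L ^ m +
          (ENNReal.ofReal M)⁻¹ * (m * mh μ L) + q⁻¹ * εs) + tv (kap μ L) n m) := by
          refine Finset.sum_le_sum fun n hn' => ?_
          rw [Finset.mem_Icc] at hn'
          refine (mid μ hL hq0 hqt hq h1 hTd (hm.trans hn'.1) hs).trans ?_
          gcongr
          · exact En_low μ m h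
          · exact En_high μ h1 m (by exact_mod_cast hM)
      _ = (Finset.Icc n1 n2).card * (ENNReal.ofReal (Real.exp h) * rho μ L ^ m +
          (ENNReal.ofReal M)⁻¹ * (m * mh μ L) + q⁻¹ * εs) +
          ∑ n ∈ Finset.Icc n1 n2, tv (kap μ L) n m := by
          rw [Finset.sum_add_distrib, Finset.sum_const, nsmul_eq_mul]
      _ ≤ _ := by
          gcongr
          have : (Finset.Icc n1 n2).card ≤ n2 + 1 := by simp; try omega
          exact_mod_cast this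
  · calc ∑' k, f (k + (n2 + 1))
        ≤ ∑' k, ENNReal.ofReal (Real.exp (2 * M + 1)) * (rho μ L ^ (n2 + 1) * rho μ L ^ k) := by
          refine ENNReal.tsum_le_tsum fun k => ?_
          refine (hf2 _).trans (le_of_eq ?_)
          rw [pow_add, mul_comm (rho μ L ^ k)]
      _ = _ := by
          rw [ENNReal.tsum_mul_left, ENNReal.tsum_mul_left, ENNReal.tsum_geometric]

end Vale.Agent.P147.Z.Cr
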