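import Vale.Agent.P147.Z.CrD

open MeasureTheory Filter Topology
open scoped ENNReal

namespace Vale.Agent.P147.Z.Cr

/-- Choice of the threshold: the union bound over a polynomial box is affordable. -/
lemma box_small {x : ℝ} (hx : 0 < x) (D : ℕ) : ∃ c' : ℝ, 0 < c' ∧ ∀ δ : ℝ, 0 < δ →
    ∀ᶠ j : ℕ in atTop, 0 < c' / ((j : ℝ) * Real.log j) ∧ c' / ((j : ℝ) * Real.log j) ≤ 1 ∧
      Real.exp ((j + 2) * D) * (2 * Real.exp (-x / (2 * (c' / ((j : ℝ) * Real.log j) *
        (1 + Real.log (1 / (c' / ((j : ℝ) * Real.log j)))))))) ≤ δ := by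
  set c' : ℝ := x / (6 * (3 * D + 1)) with hc'
  have hD : (0 : ℝ) ≤ D := Nat.cast_nonneg D
  have hc0 : 0 < c' := by (clear * - hx; positivity)
  refine ⟨c', hc0, fun δ hδ => ?_⟩
  have hcast : Tendsto (fun j : ℕ => (j : ℝ)) atTop atTop := tendsto_natCast_atTop_atTop
  have hlog : Tendsto (fun j : ℕ => Real.log (j : ℝ)) atTop atTop :=
    Real.tendsto_log_atTop.comp hcast
  have hexp : Tendsto (fun j : ℕ => 2 * Real.exp (-(j : ℝ))) atTop (𝓝 (2 * 0)) :=
    (Real.tendsto_exp_neg_atTop_nhds_zero.comp hcast).const_mul 2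
  rw [mul_zero] at hexp
  filter_upwards [hcast.eventually_ge_atTop 3, hcast.eventually_ge_atTop c',
    hlog.eventually_ge_atTop (1 + Real.log (1 / c')), hlog.eventually_ge_atTop 1,
    hexp.eventually_le_const hδ] with j h3 hjc hl1 hl2 hd
  have hj0 : (0 : ℝ) < j := by linarith only [h3]
  have hlj : 0 < Real.log j := by linarith only [hl2]
  have hp : 0 < (j : ℝ) * Real.log j := by (clear * - h3 hl2; positivity)
  set lam : ℝ := c' / ((j : ℝ) * Real.log j) with hlam
  have hlam0 : 0 < lam := by (clear * - hx h3 hl2; positivity)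
  have hlam1 : lam ≤ 1 := by
    rw [hlam, div_le_one hp]
    nlinarith only [hjc, hl2]
  refine ⟨hlam0, hlam1, ?_⟩
  have hlogl : Real.log (1 / lam) = Real.log j + Real.log (Real.log j) + Real.log (1 / c') := by
    have : 1 / lam = (j : ℝ) * Real.log j * (1 / c') := by
      rw [hlam]
      (clear * - hl2 h3 hc0; field_simp)
    rw [this, Real.log_mul hp.ne' (by (clear * - hx; positivity)), Real.log_mul hj0.ne' hlj.ne']
  have hll : Real.log (Real.log j) ≤ Real.log j := by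
    have := Real.log_le_sub_one_of_pos hlj
    linarith only [this]
  have h5 : 1 + Real.log (1 / lam) ≤ 3 * Real.log j := by
    rw [hlogl]
    linarith only [hl1, hll]
  have h6 : 0 ≤ Real.log (1 / lam) := by
    apply Real.log_nonneg
    rw [le_div_iff₀ hlam0]
    linarith only [hlam1]
  have h7 : lam * (1 + Real.log (1 / lam)) ≤ 3 * c' / j := by
    calc lam * (1 + Real.log (1 / lam)) ≤ lam * (3 * Real.log j) := by (clear * - h5 hx h3 hl2; gcongr)
      _ = 3 * c' / j := by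
        rw [hlam]
        (clear * - hl2 h3 hc0; field_simp)
  have h8 : 0 < lam * (1 + Real.log (1 / lam)) := by (clear * - hx h3 hl2 h6; positivity)
  have h9 : (3 * D + 1) * (j : ℝ) ≤ x / (2 * (lam * (1 + Real.log (1 / lam)))) := by
    rw [le_div_iff₀ (by (clear * - hx h3 hl2 h6; positivity))]
    calc (3 * D + 1) * (j : ℝ) * (2 * (lam * (1 + Real.log (1 / lam))))
        ≤ (3 * D + 1) * (j : ℝ) * (2 * (3 * c' / j)) := by (clear * - h7 h3; gcongr)
      _ = x := by
        rw [hc']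
        field_simp
        norm_num
  have h10 : -x / (2 * (lam * (1 + Real.log (1 / lam)))) ≤ -((3 * D + 1) * (j : ℝ)) := by
    rw [neg_div]
    linarith only [h9]
  calc Real.exp ((j + 2) * D) * (2 * Real.exp (-x / (2 * (lam * (1 + Real.log (1 / lam))))))
      ≤ Real.exp ((j + 2) * D) * (2 * Real.exp (-((3 * D + 1) * (j : ℝ)))) := by
        (clear * - h10; gcongr)
    _ = 2 * Real.exp ((j + 2) * D + -((3 * D + 1) * (j : ℝ))) := by
        rw [Real.exp_add]
        ring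
    _ ≤ 2 * Real.exp (-(j : ℝ)) := by
        gcongr
        nlinarith only [h3]
    _ ≤ δ := hd

variable {d : ℕ} (μ : Measure (Row d)) [IsProbabilityMeasure μ] {L : Site d →+ ℝ}

lemma card_bx (d R : ℕ) : (bx d R).card = (2 * R + 1) ^ d := by
  unfold bx
  rw [Fintype.card_piFinset]
  simp only [Int.card_Icc, Finset.prod_const, Finset.card_univ, Fintype.card_fin]
  congr 1
  (clear * -; omega)

lemma card_Bf_le (M R : ℕ) : (Bf L M R).card ≤ (2 * R + 1) ^ d := by
  classical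
  rw [← card_bx]
  unfold Bf
  exact Finset.card_filter_le _ _

/-- The box at scale `2 ^ j`. -/
lemma card_Bf_exp (K j : ℕ) :
    ((Bf L (2 ^ j) ((2 * 2 ^ j + 2) ^ K)).card : ℝ≥0∞) ≤
      ENNReal.ofReal (Real.exp ((j + 2) * ((K + 1) * d + d : ℕ))) := by
  have h1 : (2 * (2 * 2 ^ j + 2) ^ K + 1) ^ d ≤ 2 ^ ((j + 2) * ((K + 1) * d + d)) := by
    have h2 : 2 * 2 ^ j + 2 ≤ 2 ^ (j + 2) := by
      have : 1 ≤ 2 ^ j := Nat.one_le_two_pow
      rw [pow_add]
      omega
    have h3 : (2 * 2 ^ j + 2) ^ K ≤ 2 ^ ((j + 2) * K) := by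
      rw [pow_mul]
      exact Nat.pow_le_pow_left h2 K
    have h4 : 2 * (2 * 2 ^ j + 2) ^ K + 1 ≤ 2 ^ ((j + 2) * (K + 2)) := by
      have h5 : 1 ≤ 2 ^ ((j + 2) * K) := Nat.one_le_two_pow
      calc 2 * (2 * 2 ^ j + 2) ^ K + 1 ≤ 4 * 2 ^ ((j + 2) * K) := by omega
        _ = 2 ^ ((j + 2) * K + 2) := by rw [pow_add]; ring
        _ ≤ 2 ^ ((j + 2) * (K + 2)) := Nat.pow_le_pow_right (by norm_num) (by nlinarith only [])
    calc (2 * (2 * 2 ^ j + 2) ^ K + 1) ^ d ≤ (2 ^ ((j + 2) * (K + 2))) ^ d :=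
          Nat.pow_le_pow_left h4 d
      _ = 2 ^ ((j + 2) * ((K + 1) * d + d)) := by
          rw [← pow_mul]
          congr 1
          ring
  have h6 := (card_Bf_le (L := L) (2 ^ j) ((2 * 2 ^ j + 2) ^ K)).trans h1
  have h7 : ((Bf L (2 ^ j) ((2 * 2 ^ j + 2) ^ K)).card : ℝ) ≤
      Real.exp ((j + 2) * ((K + 1) * d + d : ℕ)) := by
    calc ((Bf L (2 ^ j) ((2 * 2 ^ j + 2) ^ K)).card : ℝ)
        ≤ ((2 ^ ((j + 2) * ((K + 1) * d + d)) : ℕ) : ℝ) := by exact_mod_cast h6
      _ = (2 : ℝ) ^ ((j + 2) * ((K + 1) * d + d)) := by push_cast; rfl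
      _ ≤ (Real.exp 1) ^ ((j + 2) * ((K + 1) * d + d)) := by
          gcongr
          have := Real.add_one_le_exp (1 : ℝ)
          linarith only [this]
      _ = _ := by
          rw [← Real.exp_nat_mul]
          push_cast
          ring_nf
  rw [← ENNReal.ofReal_natCast]
  exact ENNReal.ofReal_le_ofReal h7

end Vale.Agent.P147.Z.Cr
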