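import Vale.Agent.P147.Z.Aprime
attribute [-instance] ProperSMul.toContinuousSMul IsTopologicalTorsor.toContinuousSMul IdemSemiring.toCanonicallyOrderedAdd IdemSemiring.toMulLeftMono IdemSemiring.toMulRightMono AddQuantale.instAddLeftMono AddQuantale.instAddRightMono Quantale.instMulLeftMono Quantale.instMulRightMono FiniteDimensional.rclike_to_real IsScalarTower.complexToReal FiniteDimensional.complexToReal

/-!
# Exponential moments of the killing process

`doob_e`: maximal inequality for the martingale of conditional backtrack probabilities.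
`tail_kill`: exponential tail of the weight of a family of paths met by the walk.
-/

open MeasureTheory
open scoped ENNReal

namespace Vale.Agent.P147.Z

variable {d : ℕ}

namespace Expo

section Ex

variable {W : List (Dir d) → ℝ≥0∞} {D : Set (Site d)} {F G : List (Dir d) → ℝ≥0∞}

lemma Ex_zero (l : List (Dir d)) : Ex W D F 0 l = W l * F l := rfl

lemma Ex_succ_mem {l : List (Dir d)} (h : dsp l ∈ D) (n : ℕ) :
    Ex W D F (n + 1) l = ∑ u : Dir d, Ex W D F n (l ++ [u]) := by
  rw [Ex, if_pos h]

lemma Ex_not_mem {l : List (Dir d)} (h : dsp l ∉ D) (n : ℕ) :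
    Ex W D F n l = W l * F l := by
  cases n with
  | zero => rfl
  | succ n => rw [Ex, if_neg h]

lemma Ex_mono {l : List (Dir d)} (n : ℕ) (h : ∀ c, F (l ++ c) ≤ G (l ++ c)) :
    Ex W D F n l ≤ Ex W D G n l := by
  induction n generalizing l with
  | zero =>
    rw [Ex_zero, Ex_zero]
    gcongr
    simpa only [List.append_nil] using h []
  | succ n ih =>
    by_cases hl : dsp l ∈ D
    · rw [Ex_succ_mem hl, Ex_succ_mem hl]
      refine Finset.sum_le_sum fun u _ => ih fun c => ?_
      simpa only [List.append_assoc, List.cons_append, List.nil_append] using h ([u] ++ c)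
    · rw [Ex_not_mem hl, Ex_not_mem hl]
      gcongr
      simpa only [List.append_nil] using h []

lemma Ex_congr {l : List (Dir d)} (n : ℕ) (h : ∀ c, F (l ++ c) = G (l ++ c)) :
    Ex W D F n l = Ex W D G n l :=
  le_antisymm (Ex_mono n fun c => (h c).le) (Ex_mono n fun c => (h c).ge)

lemma Ex_mul_left (a : ℝ≥0∞) (n : ℕ) (l : List (Dir d)) :
    Ex W D (fun l' => a * F l') n l = a * Ex W D F n l := by
  induction n generalizing l with
  | zero => rw [Ex_zero, Ex_zero]; ring
  | succ n ih =>
    by_cases hl : dsp l ∈ D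
    · rw [Ex_succ_mem hl, Ex_succ_mem hl, Finset.mul_sum]
      exact Finset.sum_congr rfl fun u _ => ih _
    · rw [Ex_not_mem hl, Ex_not_mem hl]; ring

lemma Ex_add (n : ℕ) (l : List (Dir d)) :
    Ex W D (fun l' => F l' + G l') n l = Ex W D F n l + Ex W D G n l := by
  induction n generalizing l with
  | zero => rw [Ex_zero, Ex_zero, Ex_zero]; ring
  | succ n ih =>
    by_cases hl : dsp l ∈ D
    · rw [Ex_succ_mem hl, Ex_succ_mem hl, Ex_succ_mem hl, ← Finset.sum_add_distrib]
      exact Finset.sum_congr rfl fun u _ => ih _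
    · rw [Ex_not_mem hl, Ex_not_mem hl, Ex_not_mem hl]; ring

end Ex

variable (μ : Measure (Row d)) [IsProbabilityMeasure μ]

omit [IsProbabilityMeasure μ] in
lemma sum_row (p : Row d) : ∑ u, ENNReal.ofReal (p.1 u) = 1 := by
  have h := p.2
  rw [← ENNReal.ofReal_sum_of_nonneg (fun u _ => h.1 u), h.2, ENNReal.ofReal_one]

omit [IsProbabilityMeasure μ] in
lemma sum_wt (l : List (Dir d)) : ∑ u : Dir d, wt μ (l ++ [u]) = wt μ l := by
  simp only [wt]
  rw [← lintegral_finsetSum _ fun u _ => measurable_qw 0 _]
  refine lintegral_congr fun ω => ?_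
  simp only [qw_append, qw_cons, qw_nil, mul_one]
  rw [← Finset.mul_sum, sum_row, mul_one]

omit [IsProbabilityMeasure μ] in
lemma Ex_one {D : Set (Site d)} (n : ℕ) (l : List (Dir d)) :
    Ex (wt μ) D (fun _ => 1) n l = wt μ l := by
  induction n generalizing l with
  | zero => rw [Ex_zero, mul_one]
  | succ n ih =>
    by_cases hl : dsp l ∈ D
    · rw [Ex_succ_mem hl, Finset.sum_congr rfl fun u _ => ih _, sum_wt]
    · rw [Ex_not_mem hl, mul_one]

omit [IsProbabilityMeasure μ] in
lemma Ex_const {D : Set (Site d)} (a : ℝ≥0∞) (n : ℕ) (l : List (Dir d)) :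
    Ex (wt μ) D (fun _ => a) n l = a * wt μ l := by
  have := Ex_mul_left (W := wt μ) (D := D) (F := fun _ => 1) a n l
  rw [Ex_one] at this
  simpa using this

omit [IsProbabilityMeasure μ] in
/-- The bottom exit weight is a martingale. -/
lemma sum_Eb {L : Site d →+ ℝ} {t : ℝ} {l : List (Dir d)} (hl : dsp l ∈ Db L t) :
    ∑ u : Dir d, Eb μ L t (l ++ [u]) = Eb μ L t l := by
  simp only [Eb]
  rw [← tsum_fintype (L := SummationFilter.unconditional _)]
  rw [← ENNReal.tsum_sigma' (fun p : (Σ u : Dir d, Ds L t (dsp (l ++ [u]))) =>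
    wt μ (l ++ [p.1] ++ p.2.1))]
  let f : (Σ u : Dir d, Ds L t (dsp (l ++ [u]))) → Ds L t (dsp l) := fun p =>
    ⟨p.1 :: p.2.1, by
      obtain ⟨u, ρ, h1, h2⟩ := p
      refine ⟨fun x hx => ?_, ?_⟩
      · rw [exits_cons, Finset.mem_insert] at hx
        rcases hx with rfl | hx
        · exact hl
        · exact h1 x (by simpa using hx)
      · simpa only [dsp_cons, map_add, dsp_append, dsp_nil, add_zero, add_assoc] using h2⟩
  have hf : Function.Bijective f := by
    constructor
    · rintro ⟨u, ρ, h1⟩ ⟨u', ρ', h1'⟩ h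
      simp only [f, Subtype.mk.injEq, List.cons.injEq] at h
      obtain ⟨rfl, rfl⟩ := h
      rfl
    · rintro ⟨ρ, h1, h2⟩
      cases ρ with
      | nil =>
        exfalso
        simp only [dsp_nil, add_zero] at h2
        exact absurd hl.1 (not_lt.2 h2)
      | cons u ρ =>
        refine ⟨⟨u, ρ, fun x hx => h1 x ?_, ?_⟩, rfl⟩
        · rw [exits_cons, Finset.mem_insert]
          right
          simpa using hx
        · simpa only [dsp_append, dsp_cons, dsp_nil, add_zero, add_assoc, map_add] using h2
  rw [← (Equiv.ofBijective f hf).tsum_eq]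
  refine tsum_congr fun p => ?_
  simp only [List.append_assoc, List.cons_append, List.nil_append, Equiv.ofBijective_apply, f]

end Expo

open Expo

variable (μ : Measure (Row d)) [IsProbabilityMeasure μ]

open Classical in
theorem doob_e {L : Site d →+ ℝ} {t : ℝ} (l0 : List (Dir d)) (lam : ℝ≥0∞) (n : ℕ) :
    lam * Ex (wt μ) (Db L t) (fun l' => if ∃ i, l0.length ≤ i ∧ i ≤ l'.length ∧
        dsp (l'.take i) ∈ Db L t ∧ lam * wt μ (l'.take i) < Eb μ L t (l'.take i)
        then 1 else 0) n l0 ≤ Eb μ L t l0 := by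
  induction n generalizing l0 with
  | zero =>
    rw [Ex_zero]
    split_ifs with h
    · obtain ⟨i, h1, h2, -, h4⟩ := h
      obtain rfl : i = l0.length := le_antisymm h2 h1
      rw [List.take_length] at h4
      rw [mul_one]
      exact h4.le
    · simp only [mul_zero, zero_le]
  | succ n ih =>
    by_cases hD : dsp l0 ∈ Db L t
    · by_cases hlt : lam * wt μ l0 < Eb μ L t l0
      · refine le_trans ?_ hlt.le
        gcongr
        rw [← Ex_one μ (D := Db L t) (n + 1) l0]
        refine Ex_mono _ fun c => ?_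
        split_ifs <;> simp
      · rw [Ex_succ_mem hD, ← sum_Eb μ hD, Finset.mul_sum]
        refine Finset.sum_le_sum fun u _ => ?_
        refine le_trans ?_ (ih (l0 ++ [u]))
        gcongr
        refine Ex_mono _ fun c => ?_
        split_ifs with h1 h2
        · exact le_rfl
        · exfalso
          apply h2
          obtain ⟨i, h3, h4, h5, h6⟩ := h1
          rcases h3.eq_or_lt with rfl | h3
          · exfalso
            apply hlt
            simpa using h6
          · exact ⟨i, by simpa only [List.length_append, List.length_cons, List.length_nil, zero_add, Order.add_one_le_iff] using h3, h4, h5, h6⟩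
        · simp only [zero_le]
        · exact le_rfl
    · rw [Ex_not_mem hD, if_neg]
      · simp
      · rintro ⟨i, h1, h2, h3, -⟩
        obtain rfl : i = l0.length := le_antisymm h2 h1
        rw [List.take_length] at h3
        exact hD h3

namespace Expo

section kill

variable {μ} {T : Set (List (Dir d))} {z : Site d}

omit [IsProbabilityMeasure μ] in
lemma kill_mono {S S' : Finset (Site d)} (h : S ⊆ S') : kill μ T z S ≤ kill μ T z S' := by
  unfold kill
  refine ENNReal.tsum_le_tsum fun ρ => ?_
  by_cases h1 : Disjoint (exits z ρ.1) S'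
  · rw [if_pos h1, if_pos (h1.mono_right h)]
  · rw [if_neg h1]
    split_ifs
    · exact zero_le
    · exact le_rfl

omit [IsProbabilityMeasure μ] in
lemma kill_le (S : Finset (Site d)) : kill μ T z S ≤ ∑' ρ : T, wt μ ρ.1 := by
  unfold kill
  refine ENNReal.tsum_le_tsum fun ρ => ?_
  split_ifs
  · exact zero_le
  · exact le_rfl

variable (μ T z) in
/-- The real version of `kill`. -/
noncomputable def kr (S : Finset (Site d)) : ℝ := (kill μ T z S).toReal

omit [IsProbabilityMeasure μ] in
lemma kr_nonneg (S : Finset (Site d)) : 0 ≤ kr μ T z S := ENNReal.toReal_nonneg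

variable (hTF : ∑' ρ : T, wt μ ρ.1 ≤ 1)
include hTF

omit [IsProbabilityMeasure μ] in
lemma kill_ne_top (S : Finset (Site d)) : kill μ T z S ≠ ⊤ :=
  ne_top_of_le_ne_top ENNReal.one_ne_top ((kill_le S).trans hTF)

omit [IsProbabilityMeasure μ] in
lemma kr_le_one (S : Finset (Site d)) : kr μ T z S ≤ 1 := by
  have := ENNReal.toReal_mono ENNReal.one_ne_top ((kill_le (μ := μ) (T := T) (z := z) S).trans hTF)
  rwa [ENNReal.toReal_one] at this

omit [IsProbabilityMeasure μ] in
lemma kr_mono {S S' : Finset (Site d)} (h : S ⊆ S') : kr μ T z S ≤ kr μ T z S' :=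
  ENNReal.toReal_mono (kill_ne_top hTF _) (kill_mono h)

omit [IsProbabilityMeasure μ] in
lemma ofReal_kr_sub (S S' : Finset (Site d)) :
    ENNReal.ofReal (kr μ T z S' - kr μ T z S) = kill μ T z S' - kill μ T z S := by
  rw [kr, kr, ENNReal.ofReal_sub _ ENNReal.toReal_nonneg, ENNReal.ofReal_toReal (kill_ne_top hTF _),
    ENNReal.ofReal_toReal (kill_ne_top hTF _)]

end kill

lemma sit_mem {D : Set (Site d)} {l : List (Dir d)} (h : dsp l ∈ D) (u : Dir d) :
    sit D l = exits 0 (l ++ [u]) := by
  classical
  rw [sit, if_pos h, exits_append]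
  ext x
  simp

lemma sit_not_mem {D : Set (Site d)} {l : List (Dir d)} (h : dsp l ∉ D) :
    sit D l = exits 0 l := by
  classical
  rw [sit, if_neg h]

lemma exits_sub_sit (D : Set (Site d)) (l c : List (Dir d)) : exits 0 l ⊆ sit D (l ++ c) := by
  classical
  have h : exits 0 l ⊆ exits 0 (l ++ c) := by
    rw [exits_append]; exact Finset.subset_union_left
  refine h.trans ?_
  rw [sit]
  split_ifs
  · exact Finset.subset_insert _ _
  · exact subset_rfl

section main

variable (L : Site d →+ ℝ) (t : ℝ) (T : Set (List (Dir d))) (z : Site d) (lam : ℝ)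

/-- The backtrack probabilities stay small between times `k` and the end of `l'`. -/
def Gd (k : ℕ) (l' : List (Dir d)) : Prop :=
  ∀ i, k ≤ i → i ≤ l'.length → dsp (l'.take i) ∈ Db L t →
    Eb μ L t (l'.take i) ≤ ENNReal.ofReal lam * wt μ (l'.take i)

open Classical in
/-- Exponential moment of the increments of the killing process. -/
noncomputable def Ph (θ : ℝ) (n : ℕ) (l : List (Dir d)) : ℝ≥0∞ :=
  Ex (wt μ) (Db L t) (fun l' => if Gd μ L t lam l.length l' then
    ENNReal.ofReal (Real.exp (θ * (kr μ T z (sit (Db L t) l') - kr μ T z (exits 0 l)))) else 0) n l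

/-- First moment of the increments of the killing process. -/
noncomputable def In (n : ℕ) (l : List (Dir d)) : ℝ≥0∞ :=
  Ex (wt μ) (Db L t) (fun l' =>
    ENNReal.ofReal (kr μ T z (sit (Db L t) l') - kr μ T z (exits 0 l))) n l

variable {L t T z lam}

omit [IsProbabilityMeasure μ] in
lemma Gd_of_bad {l c : List (Dir d)} (hD : dsp l ∈ Db L t)
    (hb : ¬ Eb μ L t l ≤ ENNReal.ofReal lam * wt μ l) : ¬ Gd μ L t lam l.length (l ++ c) := by
  intro h
  apply hb
  have := h l.length le_rfl (by simp only [List.length_append, le_add_iff_nonneg_right, zero_le])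
  simpa only [ge_iff_le, List.take_left', hD, forall_const] using this

omit [IsProbabilityMeasure μ] in
lemma Gd_succ {l c : List (Dir d)} (u : Dir d)
    (hb : Eb μ L t l ≤ ENNReal.ofReal lam * wt μ l) :
    Gd μ L t lam l.length (l ++ [u] ++ c) ↔ Gd μ L t lam (l ++ [u]).length (l ++ [u] ++ c) := by
  constructor
  · intro h i h1 h2 h3
    exact h i (by simp only [List.length_append, List.length_cons, List.length_nil, zero_add, Order.add_one_le_iff] at h1; omega) h2 h3
  · intro h i h1 h2 h3
    rcases h1.eq_or_lt with rfl | h1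
    · simpa only [List.append_assoc, List.cons_append, List.nil_append, List.take_left'] using hb
    · exact h i (by simpa only [List.length_append, List.length_cons, List.length_nil, zero_add, Order.add_one_le_iff] using h1) h2 h3

lemma exp_le {y : ℝ} (_hy : 0 ≤ y) : Real.exp y ≤ 1 + y * Real.exp y := by
  have h := Real.add_one_le_exp (-y)
  have h2 : Real.exp y * Real.exp (-y) = 1 := by rw [← Real.exp_add]; simp
  nlinarith only [h2, h, Real.exp_pos y]

variable (hTF : ∑' ρ : T, wt μ ρ.1 ≤ 1)
include hTF

omit [IsProbabilityMeasure μ] in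
/-- One step of the self-bounding inequality. -/
lemma Ph_le_aux {θ : ℝ} (hθ : 0 ≤ θ) {Kc : ℝ≥0∞}
    (hK : ∀ n l, Ph μ L t T z lam θ n l ≤ Kc * wt μ l) (n : ℕ) :
    ∀ l, Ph μ L t T z lam θ n l ≤ wt μ l + ENNReal.ofReal θ * Kc * In μ L t T z n l := by
  classical
  have base : ∀ l, wt μ l * (if Gd μ L t lam l.length l then
      ENNReal.ofReal (Real.exp (θ * (kr μ T z (sit (Db L t) l) - kr μ T z (exits 0 l)))) else 0) ≤
      wt μ l + ENNReal.ofReal θ * Kc * (wt μ l * 
        ENNReal.ofReal (kr μ T z (sit (Db L t) l) - kr μ T z (exits 0 l))) := by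
    intro l
    have h0 := hK 0 l
    rw [Ph, Ex_zero] at h0
    split_ifs at h0 ⊢ with hg
    · set δ := kr μ T z (sit (Db L t) l) - kr μ T z (exits 0 l) with hδ
      have hδ0 : 0 ≤ δ := by
        have := kr_mono (z := z) hTF (exits_sub_sit (Db L t) l [])
        rw [List.append_nil] at this
        linarith only [this]
      calc wt μ l * ENNReal.ofReal (Real.exp (θ * δ))
          ≤ wt μ l * (1 + ENNReal.ofReal θ * ENNReal.ofReal δ *
              ENNReal.ofReal (Real.exp (θ * δ))) := by
            gcongr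
            rw [← ENNReal.ofReal_mul hθ, ← ENNReal.ofReal_mul (by (clear * - hθ hδ0; positivity)),
              ← ENNReal.ofReal_one, ← ENNReal.ofReal_add (by norm_num) (by (clear * - hθ hδ0; positivity))]
            exact ENNReal.ofReal_le_ofReal (exp_le (by (clear * - hθ hδ0; positivity)))
        _ = wt μ l + ENNReal.ofReal θ * ENNReal.ofReal δ *
              (wt μ l * ENNReal.ofReal (Real.exp (θ * δ))) := by ring
        _ ≤ wt μ l + ENNReal.ofReal θ * ENNReal.ofReal δ * (Kc * wt μ l) := by (clear * - h0; gcongr)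
        _ = _ := by ring
    · simp only [mul_zero, zero_le]
  induction n with
  | zero =>
    intro l
    rw [Ph, In, Ex_zero, Ex_zero]
    exact base l
  | succ n ih =>
    intro l
    by_cases hD : dsp l ∈ Db L t
    · by_cases hb : Eb μ L t l ≤ ENNReal.ofReal lam * wt μ l
      · -- good present
        have hδ : ∀ u u' : Dir d, kr μ T z (exits 0 (l ++ [u])) = kr μ T z (exits 0 (l ++ [u'])) := by
          intro u u'
          rw [← sit_mem hD u, ← sit_mem hD u']
        set δ := kr μ T z (sit (Db L t) l) - kr μ T z (exits 0 l) with hδdef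
        have hδ0 : 0 ≤ δ := by
          have := kr_mono (z := z) hTF (exits_sub_sit (Db L t) l [])
          rw [List.append_nil] at this
          linarith
        have e1 : Ph μ L t T z lam θ (n + 1) l =
            ENNReal.ofReal (Real.exp (θ * δ)) * ∑ u : Dir d, Ph μ L t T z lam θ n (l ++ [u]) := by
          rw [Ph, Ex_succ_mem hD, Finset.mul_sum]
          refine Finset.sum_congr rfl fun u _ => ?_
          rw [Ph, ← Ex_mul_left]
          refine Ex_congr _ fun c => ?_
          rw [mul_ite, mul_zero]
          have := Gd_succ (c := c) μ u hb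
          simp only [this]
          refine if_congr Iff.rfl ?_ rfl
          rw [← ENNReal.ofReal_mul (Real.exp_pos _).le, ← Real.exp_add, hδdef, sit_mem hD u]
          congr 2
          ring
        have e2 : In μ L t T z (n + 1) l =
            ENNReal.ofReal δ * wt μ l + ∑ u : Dir d, In μ L t T z n (l ++ [u]) := by
          rw [In, Ex_succ_mem hD, ← sum_wt, Finset.mul_sum, ← Finset.sum_add_distrib]
          refine Finset.sum_congr rfl fun u _ => ?_
          rw [In, ← Ex_const (D := Db L t) μ _ n, ← Ex_add]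
          refine Ex_congr _ fun c => ?_
          rw [hδdef, sit_mem hD u, ← ENNReal.ofReal_add]
          · congr 1
            ring
          · rw [← sit_mem hD u]; exact hδ0
          · have := kr_mono (z := z) hTF (exits_sub_sit (Db L t) (l ++ [u]) c)
            linarith only [this]
        have h1 := hK (n + 1) l
        calc Ph μ L t T z lam θ (n + 1) l
            = ENNReal.ofReal (Real.exp (θ * δ)) * ∑ u : Dir d, Ph μ L t T z lam θ n (l ++ [u]) := e1
          _ ≤ (1 + ENNReal.ofReal θ * ENNReal.ofReal δ * ENNReal.ofReal (Real.exp (θ * δ))) *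
              ∑ u : Dir d, Ph μ L t T z lam θ n (l ++ [u]) := by
              gcongr
              rw [← ENNReal.ofReal_mul hθ, ← ENNReal.ofReal_mul (by (clear * - hθ hδ0; positivity)),
                ← ENNReal.ofReal_one, ← ENNReal.ofReal_add (by norm_num) (by (clear * - hθ hδ0; positivity))]
              exact ENNReal.ofReal_le_ofReal (exp_le (by (clear * - hθ hδ0; positivity)))
          _ = (∑ u : Dir d, Ph μ L t T z lam θ n (l ++ [u])) +
              ENNReal.ofReal θ * ENNReal.ofReal δ * (ENNReal.ofReal (Real.exp (θ * δ)) *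
              ∑ u : Dir d, Ph μ L t T z lam θ n (l ++ [u])) := by ring
          _ = (∑ u : Dir d, Ph μ L t T z lam θ n (l ++ [u])) +
              ENNReal.ofReal θ * ENNReal.ofReal δ * Ph μ L t T z lam θ (n + 1) l := by rw [← e1]
          _ ≤ (∑ u : Dir d, (wt μ (l ++ [u]) +
                ENNReal.ofReal θ * Kc * In μ L t T z n (l ++ [u]))) +
              ENNReal.ofReal θ * ENNReal.ofReal δ * (Kc * wt μ l) := by
              gcongr with u _
              exact ih _
          _ = wt μ l + ENNReal.ofReal θ * Kc * In μ L t T z (n + 1) l := by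
              rw [Finset.sum_add_distrib, sum_wt, ← Finset.mul_sum, e2]
              ring
      · have : Ph μ L t T z lam θ (n + 1) l ≤ 0 * wt μ l := by
          rw [Ph, ← Ex_const (D := Db L t) μ 0 (n + 1) l]
          refine Ex_mono _ fun c => ?_
          rw [if_neg (Gd_of_bad μ hD hb)]
        rw [zero_mul] at this
        exact this.trans zero_le
    · rw [Ph, In, Ex_not_mem hD, Ex_not_mem hD]
      exact base l

lemma In_le (hT : T ⊆ Ds L t z) (hlam : 0 < lam) (hlam1 : lam ≤ 1) {l : List (Dir d)}
    (hD : dsp l ∈ Db L t) (hb : Eb μ L t l ≤ ENNReal.ofReal lam * wt μ l) (n : ℕ) :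
    In μ L t T z n l ≤ ENNReal.ofReal (lam * (1 + Real.log (1 / lam))) * wt μ l := by
  classical
  have hlog : 0 ≤ Real.log (1 / lam) := by
    apply Real.log_nonneg
    rw [le_div_iff₀ hlam]
    linarith only [hlam1]
  calc In μ L t T z n l
      ≤ Ex (wt μ) (Db L t) (fun l' => ∑' ρ : T, if Disjoint (exits z ρ.1) (exits 0 l) ∧
          ¬ Disjoint (exits z ρ.1) (sit (Db L t) l') then wt μ ρ.1 else 0) n l := by
        rw [In]
        refine Ex_mono _ fun c => ?_
        rw [ofReal_kr_sub hTF, tsub_le_iff_right]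
        unfold kill
        rw [← ENNReal.tsum_add]
        refine ENNReal.tsum_le_tsum fun ρ => ?_
        by_cases h1 : Disjoint (exits z ρ.1) (exits 0 l) <;>
          by_cases h2 : Disjoint (exits z ρ.1) (sit (Db L t) (l ++ c)) <;> simp [h1, h2]
    _ ≤ ENNReal.ofReal lam * wt μ l + ENNReal.ofReal (Real.log (1 / lam)) * Eb μ L t l :=
        aprime μ hD hT hlam hlam1 n
    _ ≤ ENNReal.ofReal lam * wt μ l +
        ENNReal.ofReal (Real.log (1 / lam)) * (ENNReal.ofReal lam * wt μ l) := by gcongr
    _ = _ := by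
        rw [mul_add, mul_one, ENNReal.ofReal_add hlam.le (by positivity), ENNReal.ofReal_mul hlam.le]
        ring

lemma Ph_step (hT : T ⊆ Ds L t z) (hlam : 0 < lam) (hlam1 : lam ≤ 1) {Kc : ℝ≥0∞}
    (hK : ∀ n l, Ph μ L t T z lam (1 / (2 * (lam * (1 + Real.log (1 / lam))))) n l ≤
      Kc * wt μ l) (n : ℕ) (l : List (Dir d)) :
    Ph μ L t T z lam (1 / (2 * (lam * (1 + Real.log (1 / lam))))) n l ≤
      (1 + Kc / 2) * wt μ l := by
  classical
  have hlog : 0 ≤ Real.log (1 / lam) := by
    apply Real.log_nonneg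
    rw [le_div_iff₀ hlam]
    linarith only [hlam1]
  set G := lam * (1 + Real.log (1 / lam)) with hG
  have hG0 : 0 < G := by positivity
  by_cases hD : dsp l ∈ Db L t
  · by_cases hb : Eb μ L t l ≤ ENNReal.ofReal lam * wt μ l
    · calc Ph μ L t T z lam (1 / (2 * G)) n l
          ≤ wt μ l + ENNReal.ofReal (1 / (2 * G)) * Kc * In μ L t T z n l :=
            Ph_le_aux μ hTF (by positivity) hK n l
        _ ≤ wt μ l + ENNReal.ofReal (1 / (2 * G)) * Kc * (ENNReal.ofReal G * wt μ l) := by
            gcongr
            exact In_le μ hTF hT hlam hlam1 hD hb n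
        _ = wt μ l + (ENNReal.ofReal (1 / (2 * G)) * ENNReal.ofReal G) * Kc * wt μ l := by ring
        _ = wt μ l + 2⁻¹ * Kc * wt μ l := by
            rw [← ENNReal.ofReal_mul (by positivity)]
            have : 1 / (2 * G) * G = (2 : ℝ)⁻¹ := by field_simp
            rw [this, ENNReal.ofReal_inv_of_pos (by norm_num)]
            (clear * -; norm_num)
        _ = (1 + Kc / 2) * wt μ l := by
            rw [div_eq_mul_inv]; ring
    · have : Ph μ L t T z lam (1 / (2 * G)) n l ≤ 0 * wt μ l := by
        rw [Ph, ← Ex_const (D := Db L t) μ 0 n l]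
        refine Ex_mono _ fun c => ?_
        rw [if_neg (Gd_of_bad μ hD hb)]
      rw [zero_mul] at this
      exact this.trans zero_le
  · rw [Ph, Ex_not_mem hD, sit_not_mem hD, sub_self, mul_zero, Real.exp_zero, ENNReal.ofReal_one,
      mul_comm]
    gcongr
    refine le_trans ?_ le_self_add
    split_ifs <;> simp

lemma Ph_le_two (hT : T ⊆ Ds L t z) (hlam : 0 < lam) (hlam1 : lam ≤ 1) (n : ℕ)
    (l : List (Dir d)) :
    Ph μ L t T z lam (1 / (2 * (lam * (1 + Real.log (1 / lam))))) n l ≤ 2 * wt μ l := by
  classical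
  set θ := 1 / (2 * (lam * (1 + Real.log (1 / lam)))) with hθ
  have hlog : 0 ≤ Real.log (1 / lam) := by
    apply Real.log_nonneg
    rw [le_div_iff₀ hlam]
    linarith only [hlam1]
  have hθ0 : 0 ≤ θ := by positivity
  set C0 := ENNReal.ofReal (Real.exp θ) with hC0
  have key : ∀ j : ℕ, ∀ n l, Ph μ L t T z lam θ n l ≤ (2 + C0 * 2⁻¹ ^ j) * wt μ l := by
    intro j
    induction j with
    | zero =>
      intro n l
      rw [pow_zero, mul_one]
      calc Ph μ L t T z lam θ n l ≤ Ex (wt μ) (Db L t) (fun _ => C0) n l := by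
            rw [Ph]
            refine Ex_mono _ fun c => ?_
            split_ifs
            · rw [hC0]
              apply ENNReal.ofReal_le_ofReal
              apply Real.exp_le_exp.2
              have h1 := kr_le_one (z := z) hTF (sit (Db L t) (l ++ c))
              have h2 := kr_nonneg (μ := μ) (T := T) (z := z) (exits 0 l)
              nlinarith only [hθ0, h1, h2]
            · exact zero_le
        _ = C0 * wt μ l := Ex_const μ _ _ _
        _ ≤ _ := by gcongr; exact le_add_self
    | succ j ih =>
      intro n l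
      have := Ph_step μ hTF hT hlam hlam1 ih n l
      refine this.trans_eq ?_
      congr 1
      rw [ENNReal.add_div, ENNReal.div_self (by norm_num) (by norm_num), ← add_assoc,
        one_add_one_eq_two, pow_succ, div_eq_mul_inv, mul_assoc]
  have hlim : Filter.Tendsto (fun j : ℕ => (2 + C0 * 2⁻¹ ^ j) * wt μ l) Filter.atTop
      (nhds ((2 + C0 * 0) * wt μ l)) := by
    have h1 : Filter.Tendsto (fun j : ℕ => (2⁻¹ : ℝ≥0∞) ^ j) Filter.atTop (nhds 0) :=
      ENNReal.tendsto_pow_atTop_nhds_zero_of_lt_one (by norm_num)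
    refine ENNReal.Tendsto.mul_const (Filter.Tendsto.add tendsto_const_nhds
      (ENNReal.Tendsto.const_mul h1 (Or.inr ENNReal.ofReal_ne_top))) (Or.inr ?_)
    exact ne_top_of_le_ne_top ENNReal.one_ne_top (wt_le_one μ l)
  rw [mul_zero, add_zero] at hlim
  exact ge_of_tendsto' hlim fun j => key j n l

end main

end Expo

open Classical in
theorem tail_kill {L : Site d →+ ℝ} {t : ℝ} {l0 : List (Dir d)} (hl0 : dsp l0 ∈ Db L t)
    {z : Site d} {T : Set (List (Dir d))} (hT : T ⊆ Ds L t z) (hTF : ∑' ρ : T, wt μ ρ.1 ≤ 1)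
    {lam x : ℝ} (hlam : 0 < lam)
    (hlam1 : lam ≤ 1) (hx : 0 ≤ x) (n : ℕ) :
    Ex (wt μ) (Db L t) (fun l' => if (∀ i, l0.length ≤ i → i ≤ l'.length →
        dsp (l'.take i) ∈ Db L t → Eb μ L t (l'.take i) ≤ ENNReal.ofReal lam * wt μ (l'.take i)) ∧
        kill μ T z (exits 0 l0) + ENNReal.ofReal x ≤ kill μ T z (sit (Db L t) l')
        then 1 else 0) n l0 ≤
      ENNReal.ofReal (2 * Real.exp (-x / (2 * (lam * (1 + Real.log (1 / lam)))))) * wt μ l0 := by
  have hlog : 0 ≤ Real.log (1 / lam) := by
    apply Real.log_nonneg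
    rw [le_div_iff₀ hlam]
    linarith only [hlam1]
  have hphi := Ph_le_two μ (z := z) hTF hT hlam hlam1 n l0
  set θ := 1 / (2 * (lam * (1 + Real.log (1 / lam)))) with hθ
  have hθ0 : 0 ≤ θ := by positivity
  have hexp : -x / (2 * (lam * (1 + Real.log (1 / lam)))) = -(θ * x) := by
    rw [hθ]; ring
  calc _ ≤ Ex (wt μ) (Db L t) (fun l' => ENNReal.ofReal (Real.exp (-(θ * x))) *
        (if Gd μ L t lam l0.length l' then ENNReal.ofReal (Real.exp (θ *
          (kr μ T z (sit (Db L t) l') - kr μ T z (exits 0 l0)))) else 0)) n l0 := by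
        refine Ex_mono _ fun c => ?_
        split_ifs with h1 h2
        · rw [← ENNReal.ofReal_mul (Real.exp_pos _).le, ← Real.exp_add, ← ENNReal.ofReal_one]
          apply ENNReal.ofReal_le_ofReal
          rw [← Real.exp_zero]
          apply Real.exp_le_exp.2
          have h3 := ENNReal.toReal_mono (kill_ne_top (z := z) hTF _) h1.2
          rw [ENNReal.toReal_add (kill_ne_top hTF _) ENNReal.ofReal_ne_top,
            ENNReal.toReal_ofReal hx] at h3
          change kr μ T z _ + x ≤ kr μ T z _ at h3
          nlinarith only [hθ0, h3]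
        · exact absurd h1.1 h2
        · exact zero_le
        · simp
    _ = ENNReal.ofReal (Real.exp (-(θ * x))) * Ph μ L t T z lam θ n l0 := by
        rw [Ex_mul_left]
        rfl
    _ ≤ ENNReal.ofReal (Real.exp (-(θ * x))) * (2 * wt μ l0) := by (clear * - hphi; gcongr)
    _ = _ := by
        rw [hexp, ENNReal.ofReal_mul (by norm_num)]
        norm_num
        ring

end Vale.Agent.P147.Z
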