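import Vale.Agent.P147.Z.Base
attribute [-instance] ProperSMul.toContinuousSMul IsTopologicalTorsor.toContinuousSMul IdemSemiring.toCanonicallyOrderedAdd IdemSemiring.toMulLeftMono IdemSemiring.toMulRightMono AddQuantale.instAddLeftMono AddQuantale.instAddRightMono Quantale.instMulLeftMono Quantale.instMulRightMono FiniteDimensional.rclike_to_real IsScalarTower.complexToReal FiniteDimensional.complexToReal

/-!
# Directional zero-one law: the lateral estimate

If the first passage paths which stay in a cone have total weight at least `g`, then the walk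
leaves a slab of height `2 n` before it has gone far in a lateral direction: at every new record of
a suitable functional, two climbs inside fresh territory leave the slab.
-/

open MeasureTheory
open scoped ENNReal

namespace Vale.Agent.P147.Z

variable {d : ℕ}

namespace Lat

section tools

variable (μ : Measure (Row d)) [IsProbabilityMeasure μ]

/-- Prefix-free continuations of `l` have total weight at most the weight of `l`. -/
lemma tsum_cont_le {S : Set (List (Dir d))} (hS : Free S) (l : List (Dir d)) :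
    ∑' c : S, wt μ (l ++ c.1) ≤ wt μ l := by
  have h1 : ∀ ω : Env d, ∀ x : Site d, ∑' c : S, qw ω x (c : List (Dir d)) ≤ 1 := by
    intro ω x
    simp only [← quenched_cyl]
    rw [← measure_iUnion]
    · exact prob_le_one
    · intro a b hab
      exact cyl_disjoint hS a.2 b.2 (fun h => hab (Subtype.ext h))
    · intro a
      exact measurableSet_cyl _ _
  simp only [wt]
  rw [← lintegral_tsum (f := fun (c : S) (ω : Env d) => qw ω 0 (l ++ c.1))
    fun c => (measurable_qw 0 _).aemeasurable]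
  refine lintegral_mono fun ω => ?_
  simp only [qw_append]
  rw [ENNReal.tsum_mul_left]
  calc _ ≤ qw ω 0 l * 1 := by gcongr; exact h1 ω _
    _ = _ := mul_one _

omit [IsProbabilityMeasure μ] in
/-- Sum over lists that have a prefix in `T`, grouped by this prefix. -/
lemma tsum_le_cont {S T : Set (List (Dir d))}
    (h : ∀ l ∈ S, ∃ a ∈ T, ∃ c, l = a ++ c) :
    ∑' l : S, wt μ l.1 ≤
      ∑' a : T, ∑' c : {c : List (Dir d) | a.1 ++ c ∈ S}, wt μ (a.1 ++ c.1) := by
  classical
  choose! a ha c hc using h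
  let f : S → Σ a : T, {c : List (Dir d) | a.1 ++ c ∈ S} := fun l =>
    ⟨⟨a l.1, ha l.1 l.2⟩, ⟨c l.1, by
      change _ ++ _ ∈ S
      rw [← hc l.1 l.2]; exact l.2⟩⟩
  have hf : Function.Injective f := by
    intro l l' hl
    have h1 : (f l).1.1 ++ (f l).2.1 = (f l').1.1 ++ (f l').2.1 := by rw [hl]
    have h2 : (f l).1.1 ++ (f l).2.1 = l.1 := (hc l.1 l.2).symm
    have h3 : (f l').1.1 ++ (f l').2.1 = l'.1 := (hc l'.1 l'.2).symm
    rw [h2, h3] at h1
    exact Subtype.ext h1
  calc ∑' l : S, wt μ l.1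
      = ∑' l : S, (fun p : Σ a : T, {c : List (Dir d) | a.1 ++ c ∈ S} =>
          wt μ (p.1.1 ++ p.2.1)) (f l) := by
        refine tsum_congr fun l => ?_
        change wt μ l.1 = wt μ (a l.1 ++ c l.1)
        rw [← hc l.1 l.2]
    _ ≤ ∑' p : Σ a : T, {c : List (Dir d) | a.1 ++ c ∈ S}, wt μ (p.1.1 ++ p.2.1) :=
        ENNReal.tsum_comp_le_tsum_of_injective hf _
    _ = _ := ENNReal.tsum_sigma' _

/-- Domination of a prefix-free family by a family of prefixes. -/
lemma tsum_le_of_prefix {S T : Set (List (Dir d))} (hS : Free S)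
    (h : ∀ l ∈ S, ∃ a ∈ T, ∃ c, l = a ++ c) :
    ∑' l : S, wt μ l.1 ≤ ∑' a : T, wt μ a.1 := by
  refine (tsum_le_cont μ h).trans (ENNReal.tsum_le_tsum fun a => ?_)
  refine tsum_cont_le μ (S := {c : List (Dir d) | a.1 ++ c ∈ S}) ?_ a.1
  intro c hc b hb
  exact hS (a.1 ++ c) hc b (by simpa only [List.append_assoc, Set.mem_ofPred_eq] using hb)

/-- Products of paths with disjoint departure sites. -/
lemma tsum_mul_le {S T U : Set (List (Dir d))} (hS : Free S)
    (hU : ∀ a ∈ S, ∀ b ∈ T, a ++ b ∈ U)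
    (hd : ∀ a ∈ S, ∀ b ∈ T, Disjoint (exits 0 a) (exits (dsp a) b)) :
    (∑' a : S, wt μ a.1) * (∑' b : T, wt μ b.1) ≤ ∑' c : U, wt μ c.1 := by
  let f : S × T → U := fun p => ⟨p.1.1 ++ p.2.1, hU _ p.1.2 _ p.2.2⟩
  have hf : Function.Injective f := by
    rintro ⟨⟨a, ha⟩, ⟨b, hb⟩⟩ ⟨⟨a', ha'⟩, ⟨b', hb'⟩⟩ h
    have h' : a ++ b = a' ++ b' := congrArg Subtype.val h
    have : a = a' := by
      rcases List.append_eq_append_iff.1 h' with ⟨c, h1, -⟩ | ⟨c, h1, -⟩
      · have := hS a ha c (h1 ▸ ha')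
        rw [h1, this, List.append_nil]
      · have := hS a' ha' c (h1 ▸ ha)
        rw [h1, this, List.append_nil]
    subst this
    have := List.append_cancel_left h'
    subst this
    rfl
  calc (∑' a : S, wt μ a.1) * (∑' b : T, wt μ b.1)
      = ∑' p : S × T, wt μ p.1.1 * wt μ p.2.1 := by
        rw [← ENNReal.tsum_mul_right, ENNReal.tsum_prod']
        refine tsum_congr fun a => ?_
        exact ENNReal.tsum_mul_left.symm
    _ = ∑' p : S × T, (fun c : U => wt μ c.1) (f p) := by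
        refine tsum_congr fun p => ?_
        exact (wt_append μ (hd _ p.1.2 _ p.2.2)).symm
    _ ≤ _ := ENNReal.tsum_comp_le_tsum_of_injective hf _

/-- The first prefix with a given property. -/
lemma exists_first (Q : List (Dir d) → Prop) (l : List (Dir d)) (h : Q l) :
    ∃ a b, l = a ++ b ∧ Q a ∧ ∀ a' b', a = a' ++ b' → b' ≠ [] → ¬ Q a' := by
  classical
  have hex : ∃ n, Q (l.take n) := ⟨l.length, by simpa using h⟩
  refine ⟨l.take (Nat.find hex), l.drop (Nat.find hex), (List.take_append_drop _ _).symm,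
    Nat.find_spec hex, fun a' b' hab hb hQ => ?_⟩
  have h1 : a'.length < Nat.find hex := by
    have h2 : (l.take (Nat.find hex)).length = a'.length + b'.length := by
      rw [hab, List.length_append]
    have h3 : 0 < b'.length := List.length_pos_iff.2 hb
    have h4 : (l.take (Nat.find hex)).length ≤ Nat.find hex := by
      rw [List.length_take]; exact min_le_left _ _
    omega
  refine Nat.find_min hex h1 ?_
  have h5 : l.take a'.length = a' := by
    have h6 : l = a' ++ (b' ++ l.drop (Nat.find hex)) := by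
      rw [← List.append_assoc, ← hab, List.take_append_drop]
    rw [h6, List.take_left']
    rfl
  rwa [h5]

end tools

section trial

/-- First passage of the functional `φ` at level `r`, inside the slab. -/
def Fst (L φ : Site d →+ ℝ) (t r : ℝ) : Set (List (Dir d)) :=
  {l | (∀ x ∈ exits 0 l, x ∈ Db L t ∧ φ x < r) ∧ dsp l ∈ Db L t ∧ r ≤ φ (dsp l)}

lemma mem_exits_prefix {l a b : List (Dir d)} (h : l = a ++ b) (hb : b ≠ []) :
    dsp a ∈ exits 0 l := mem_exits.2 ⟨a, b, h, hb, by simp⟩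

lemma Fst_free (L φ : Site d →+ ℝ) (t r : ℝ) : Free (Fst L φ t r) := by
  intro a ha b hb
  by_contra hne
  have h1 := (hb.1 (dsp a) (mem_exits_prefix rfl hne)).2
  exact absurd h1 (not_lt.2 ha.2.2)

/-- The set of climbs: a step `u` followed by a path of `Tb`. -/
def Cl (u : Dir d) (Tb : Set (List (Dir d))) : Set (List (Dir d)) := {c | ∃ s ∈ Tb, c = u :: s}

/-- Two climbs. -/
def C2 (u : Dir d) (Tb : Set (List (Dir d))) : Set (List (Dir d)) :=
  {e | ∃ c₁ ∈ Cl u Tb, ∃ c₂ ∈ Cl u Tb, e = c₁ ++ c₂}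

lemma Fp_free' (L : Site d →+ ℝ) (a : ℝ) : Free (Fp L a) := by
  intro l hl b hb
  by_contra hne
  have h1 := (hb.1 (dsp l) (mem_exits_prefix rfl hne)).2
  exact absurd h1 (not_lt.2 hl.2)

lemma Cl_free {u : Dir d} {Tb : Set (List (Dir d))} (h : Free Tb) : Free (Cl u Tb) := by
  rintro _ ⟨s, hs, rfl⟩ b ⟨s', hs', hb⟩
  have : s ++ b = s' := by simpa using hb
  exact h s hs b (this ▸ hs')

lemma C2_free {u : Dir d} {Tb : Set (List (Dir d))} (h : Free Tb) : Free (C2 u Tb) := by
  rintro _ ⟨c₁, h1, c₂, h2, rfl⟩ b ⟨c₁', h1', c₂', h2', hb⟩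
  have hC := Cl_free (u := u) h
  rw [List.append_assoc] at hb
  have : c₁ = c₁' := by
    rcases List.append_eq_append_iff.1 hb with ⟨c, h3, -⟩ | ⟨c, h3, -⟩
    · have := hC c₁ h1 c (h3 ▸ h1')
      rw [h3, this, List.append_nil]
    · have := hC c₁' h1' c (h3 ▸ h1)
      rw [h3, this, List.append_nil]
  subst this
  have h4 : c₂ ++ b = c₂' := List.append_cancel_left hb
  exact hC c₂ h2 b (h4 ▸ h2')

variable {L φ : Site d →+ ℝ} {u : Dir d} {Tb : Set (List (Dir d))} {n t Δ ω : ℝ}

lemma level_end (hu : L (vec u) = 1) (hTb : Tb ⊆ Fp L n) {c : List (Dir d)} (hc : c ∈ Cl u Tb) :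
    1 + n ≤ L (dsp c) := by
  obtain ⟨s, hs, rfl⟩ := hc
  rw [dsp_cons, map_add, hu]
  linarith only [(hTb hs).2]

lemma Cl_prefix (hΔ : 0 ≤ Δ)
    (hφ : ∀ s ∈ Tb, ∀ a b, s = a ++ b → 0 ≤ φ (vec u + dsp a) ∧ φ (vec u + dsp a) ≤ Δ)
    {c : List (Dir d)} (hc : c ∈ Cl u Tb) {a b : List (Dir d)} (hab : c = a ++ b) :
    0 ≤ φ (dsp a) ∧ φ (dsp a) ≤ Δ := by
  obtain ⟨s, hs, rfl⟩ := hc
  cases a with
  | nil => simp only [dsp_nil, map_zero, Std.le_refl, hΔ, and_self]
  | cons v a =>
    simp only [List.cons_append, List.cons.injEq] at hab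
    obtain ⟨rfl, hab⟩ := hab
    rw [dsp_cons]
    exact hφ s hs a b hab

lemma C2_prefix (hΔ : 0 ≤ Δ)
    (hφ : ∀ s ∈ Tb, ∀ a b, s = a ++ b → 0 ≤ φ (vec u + dsp a) ∧ φ (vec u + dsp a) ≤ Δ)
    {e : List (Dir d)} (he : e ∈ C2 u Tb) {a b : List (Dir d)} (hab : e = a ++ b) :
    0 ≤ φ (dsp a) ∧ φ (dsp a) ≤ 2 * Δ := by
  obtain ⟨c₁, h1, c₂, h2, rfl⟩ := he
  rcases List.append_eq_append_iff.1 hab with ⟨a', rfl, h3⟩ | ⟨c, h3, -⟩
  · have h4 := Cl_prefix hΔ hφ h1 (a := c₁) (b := []) (by simp)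
    have h5 := Cl_prefix hΔ hφ h2 h3
    rw [dsp_append, map_add]
    constructor <;> linarith [h4.1, h4.2, h5.1, h5.2]
  · have h4 := Cl_prefix hΔ hφ h1 h3
    constructor <;> linarith [h4.1, h4.2]

variable (μ : Measure (Row d)) [IsProbabilityMeasure μ]

lemma Cl_sum (hu : L (vec u) = 1) (hTb : Tb ⊆ Fp L n) :
    wt μ [u] * ∑' s : Tb, wt μ s.1 ≤ ∑' c : Cl u Tb, wt μ c.1 := by
  have h1 : ∑' a : ({[u]} : Set (List (Dir d))), wt μ a.1 = wt μ [u] :=
    tsum_singleton [u] (wt μ)
  rw [← h1]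
  refine tsum_mul_le μ (S := {[u]}) (T := Tb) ?_ ?_ ?_
  · intro a ha b hb
    rw [Set.mem_singleton_iff] at ha hb
    rw [ha] at hb
    simpa using hb
  · intro a ha b hb
    rw [Set.mem_singleton_iff] at ha
    subst ha
    exact ⟨b, hb, rfl⟩
  · intro a ha b hb
    rw [Set.mem_singleton_iff] at ha
    subst ha
    rw [Finset.disjoint_left]
    intro y h2 h3
    have h4 : y = 0 := by simpa using h2
    subst h4
    rw [mem_exits] at h3
    obtain ⟨a', b', rfl, hb', h5⟩ := h3
    have h6 := ((hTb hb).1 (dsp a') (mem_exits_prefix rfl hb')).1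
    have h7 : L (dsp [u] + dsp a') = 0 := by rw [← h5]; simp only [map_zero]
    rw [map_add] at h7
    simp only [dsp_cons, dsp_nil, add_zero, hu] at h7
    linarith only [h6, h7]

lemma C2_sum (hu : L (vec u) = 1) (hn : 0 ≤ n) (hTb : Tb ⊆ Fp L n) :
    (wt μ [u] * ∑' s : Tb, wt μ s.1) ^ 2 ≤ ∑' e : C2 u Tb, wt μ e.1 := by
  have hTF : Free Tb := fun a ha b hb => Fp_free' L n a (hTb ha) b (hTb hb)
  calc (wt μ [u] * ∑' s : Tb, wt μ s.1) ^ 2
      ≤ (∑' c : Cl u Tb, wt μ c.1) * (∑' c : Cl u Tb, wt μ c.1) := by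
        rw [sq]
        exact mul_le_mul' (Cl_sum μ hu hTb) (Cl_sum μ hu hTb)
    _ ≤ _ := by
        refine tsum_mul_le μ (Cl_free hTF) (fun a ha b hb => ⟨a, ha, b, hb, rfl⟩) ?_
        intro a ha b hb
        rw [Finset.disjoint_left]
        intro y h1 h2
        have h3 := level_end hu hTb ha
        have h4 : L y < 1 + n := by
          obtain ⟨s, hs, rfl⟩ := ha
          rw [exits_cons, Finset.mem_insert] at h1
          rcases h1 with rfl | h1
          · simp only [map_zero]; linarith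
          · rw [mem_exits] at h1
            obtain ⟨a', b', rfl, hb', rfl⟩ := h1
            have := ((hTb hs).1 (dsp a') (mem_exits_prefix rfl hb')).2
            rw [zero_add, map_add, hu]
            linarith only [this]
        have h5 : L (dsp a) ≤ L y := by
          rw [mem_exits] at h2
          obtain ⟨a', b', rfl, hb', rfl⟩ := h2
          rw [map_add]
          have : 0 ≤ L (dsp a') := by
            obtain ⟨s, hs, h6⟩ := hb
            cases a' with
            | nil => simp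
            | cons v a' =>
              simp only [List.cons_append, List.cons.injEq] at h6
              obtain ⟨rfl, rfl⟩ := h6
              have := ((hTb hs).1 (dsp a') (mem_exits_prefix rfl hb')).1
              rw [dsp_cons, map_add, hu]
              linarith only [this]
          linarith only [this]
        linarith only [h3, h4, h5]

/-- One trial: between the records `r` and `r + R` of `φ` the walk leaves the slab with
conditional probability at least `(wt [u] * g)^2`. -/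
lemma contraction (hu : L (vec u) = 1) (hn : 0 ≤ n) (hTb : Tb ⊆ Fp L n) (ht : t ≤ 2 * n + 1)
    (hΔ : 0 ≤ Δ)
    (hφ : ∀ s ∈ Tb, ∀ a b, s = a ++ b → 0 ≤ φ (vec u + dsp a) ∧ φ (vec u + dsp a) ≤ Δ)
    (hω : 0 < ω) (hφω : ∀ v : Dir d, φ (vec v) ≤ ω) {r R : ℝ} (hr : 0 ≤ r)
    (hR : 2 * Δ + ω ≤ R) :
    ∑' l : Fst L φ t (r + R), wt μ l.1 ≤
      (1 - (wt μ [u] * ∑' s : Tb, wt μ s.1) ^ 2) * ∑' l : Fst L φ t r, wt μ l.1 := by
  have hTF : Free Tb := fun a ha b hb => Fp_free' L n a (hTb ha) b (hTb hb)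
  have hR0 : 0 ≤ R := by linarith
  have h1 : ∀ l ∈ Fst L φ t (r + R), ∃ a ∈ Fst L φ t r, ∃ c, l = a ++ c := by
    intro l hl
    obtain ⟨a, b, rfl, hQ, hmin⟩ := exists_first (fun a => r ≤ φ (dsp a)) l
      (by have := hl.2.2; change r ≤ φ (dsp l); linarith only [hΔ, hω, hR, this])
    refine ⟨a, ⟨?_, ?_, hQ⟩, b, rfl⟩
    · intro x hx
      obtain ⟨a', b', rfl, hb', rfl⟩ := mem_exits.1 hx
      rw [zero_add]
      refine ⟨?_, not_le.1 (hmin a' b' rfl hb')⟩
      exact (hl.1 (dsp a') (mem_exits_prefix (b := b' ++ b) (by simp) (by simp [hb']))).1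
    · by_cases hb : b = []
      · subst hb
        simpa using hl.2.1
      · exact (hl.1 (dsp a) (mem_exits_prefix rfl hb)).1
  refine (tsum_le_cont μ h1).trans ?_
  rw [← ENNReal.tsum_mul_left]
  refine ENNReal.tsum_le_tsum fun l => ?_
  obtain ⟨l, hl⟩ := l
  -- the record is not much above `r`
  have hlφ : φ (dsp l) < r + ω := by
    rcases List.eq_nil_or_concat l with rfl | ⟨l', v, rfl⟩
    · simp only [dsp_nil, map_zero]; linarith only [hω, hr]
    · have h2 := (hl.1 (dsp l') (mem_exits_prefix (b := [v]) (by simp) (by simp))).2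
      have h3 := hφω v
      simp only [List.concat_eq_append, dsp_append, dsp_cons, dsp_nil, add_zero, map_add]
      linarith only [h2, h3]
  set C : Set (List (Dir d)) := {c | l ++ c ∈ Fst L φ t (r + R)} with hC
  have hCE : Disjoint C (C2 u Tb) := by
    rw [Set.disjoint_left]
    intro c hc he
    have h2 := C2_prefix hΔ hφ he (a := c) (b := []) (by simp)
    have h3 : r + R ≤ φ (dsp (l ++ c)) := hc.2.2
    rw [dsp_append, map_add] at h3
    linarith only [hR, hlφ, h2, h3]
  have hfree : Free (C ∪ C2 u Tb) := by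
    rintro a (ha | ha) b (hb | hb)
    · exact Fst_free L φ t (r + R) (l ++ a) ha b (by rw [List.append_assoc]; exact hb)
    · exfalso
      have h2 := C2_prefix hΔ hφ hb (a := a) (b := b) rfl
      have h3 : r + R ≤ φ (dsp (l ++ a)) := ha.2.2
      rw [dsp_append, map_add] at h3
      linarith only [hR, hlφ, h2, h3]
    · exfalso
      have h2 : dsp (l ++ a) ∈ Db L t := by
        have hb' : l ++ (a ++ b) ∈ Fst L φ t (r + R) := hb
        by_cases hb0 : b = []
        · subst hb0
          simpa using hb'.2.1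
        · exact (hb'.1 (dsp (l ++ a)) (mem_exits_prefix (b := b) (by simp) hb0)).1
      obtain ⟨c₁, h3, c₂, h4, rfl⟩ := ha
      have h5 := level_end hu hTb h3
      have h6 := level_end hu hTb h4
      have h7 := h2.2
      have h8 := hl.2.1.1
      rw [dsp_append, dsp_append, map_add, map_add] at h7
      linarith only [ht, h5, h6, h7, h8]
    · exact C2_free hTF a ha b hb
  have hsum := tsum_cont_le μ hfree l
  rw [ENNReal.summable.tsum_union_disjoint (f := fun c => wt μ (l ++ c)) hCE ENNReal.summable]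
    at hsum
  have hE : (wt μ [u] * ∑' s : Tb, wt μ s.1) ^ 2 * wt μ l ≤ ∑' e : C2 u Tb, wt μ (l ++ e.1) := by
    calc _ ≤ (∑' e : C2 u Tb, wt μ e.1) * wt μ l := by
          gcongr
          exact C2_sum μ hu hn hTb
      _ = ∑' e : C2 u Tb, wt μ (l ++ e.1) := by
          rw [← ENNReal.tsum_mul_right]
          refine tsum_congr fun e => ?_
          rw [wt_append μ, mul_comm]
          rw [Finset.disjoint_left]
          intro y h2 h3
          have h4 := (hl.1 y h2).2
          obtain ⟨a', b', h5, hb', rfl⟩ := mem_exits.1 h3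
          have h6 := (C2_prefix hΔ hφ e.2 h5).1
          rw [map_add] at h4
          linarith only [h4, h6, hl.2.2]
  have hfin : (wt μ [u] * ∑' s : Tb, wt μ s.1) ^ 2 * wt μ l ≠ ⊤ := by
    refine ne_top_of_le_ne_top ?_ (hE.trans (le_trans le_add_self hsum))
    exact ne_top_of_le_ne_top ENNReal.one_ne_top (wt_le_one μ l)
  have hwl : wt μ l ≠ ⊤ := ne_top_of_le_ne_top ENNReal.one_ne_top (wt_le_one μ l)
  rw [ENNReal.sub_mul (fun _ _ => hwl), one_mul]
  refine ENNReal.le_sub_of_add_le_right hfin ?_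
  exact (add_le_add_right hE _).trans hsum

/-- Iterated trials. -/
lemma iterate (hu : L (vec u) = 1) (hn : 0 ≤ n) (hTb : Tb ⊆ Fp L n) (ht : t ≤ 2 * n + 1)
    (hΔ : 0 ≤ Δ)
    (hφ : ∀ s ∈ Tb, ∀ a b, s = a ++ b → 0 ≤ φ (vec u + dsp a) ∧ φ (vec u + dsp a) ≤ Δ)
    (hω : 0 < ω) (hφω : ∀ v : Dir d, φ (vec v) ≤ ω) {R : ℝ}
    (hR : 2 * Δ + ω ≤ R) (k : ℕ) :
    ∑' l : Fst L φ t (k * R), wt μ l.1 ≤ (1 - (wt μ [u] * ∑' s : Tb, wt μ s.1) ^ 2) ^ k := by
  induction k with
  | zero => simpa only [pow_zero] using tsum_wt_le_one μ (Fst_free L φ t _)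
  | succ k ih =>
    have h1 : ((k + 1 : ℕ) : ℝ) * R = k * R + R := by push_cast; ring
    rw [h1]
    refine (contraction μ hu hn hTb ht hΔ hφ hω hφω (mul_nonneg (Nat.cast_nonneg k) (by linarith only [hΔ, hω, hR])) hR).trans ?_
    refine (mul_le_mul_right ih _).trans ?_
    rw [pow_succ' (1 - (wt μ [u] * ∑' s : Tb, wt μ s.1) ^ 2)]

end trial

section final

lemma vec_abs_le (u : Dir d) (i : Fin d) : |((vec u i : ℤ) : ℝ)| ≤ 1 := by
  unfold vec
  by_cases h : i = u.1
  · subst h
    rw [Pi.single_eq_same]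
    split_ifs <;> simp
  · rw [Pi.single_eq_of_ne h]
    simp

/-- The functional `ε x_i + 2 s L(x)`. -/
noncomputable def fn (L : Site d →+ ℝ) (s : ℝ) (i : Fin d) (ε : Bool) : Site d →+ ℝ where
  toFun x := (if ε then 1 else -1) * ((x i : ℤ) : ℝ) + 2 * s * L x
  map_zero' := by simp
  map_add' x y := by
    simp only [Pi.add_apply, Int.cast_add, map_add]
    ring

lemma fn_apply (L : Site d →+ ℝ) (s : ℝ) (i : Fin d) (ε : Bool) (x : Site d) :
    fn L s i ε x = (if ε then 1 else -1) * ((x i : ℤ) : ℝ) + 2 * s * L x := rfl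

lemma sgn_abs (ε : Bool) (z : ℝ) : |(if ε then (1 : ℝ) else -1) * z| = |z| := by
  cases ε <;> simp

lemma Tube_level {L : Site d →+ ℝ} (hL : Lvl L) {n : ℝ} (hn : 0 < n) {l : List (Dir d)}
    (hl : l ∈ Fp L n) {a b : List (Dir d)} (hab : l = a ++ b) :
    0 ≤ L (dsp a) ∧ L (dsp a) ≤ n + 1 := by
  by_cases hb : b = []
  · subst hb
    rw [List.append_nil] at hab
    subst hab
    refine ⟨hn.le.trans hl.2, ?_⟩
    rcases List.eq_nil_or_concat l with rfl | ⟨l', v, rfl⟩
    · simp only [dsp_nil, map_zero]; linarith only [hn]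
    · have h2 := (hl.1 (dsp l') (mem_exits_prefix (b := [v]) (by simp) (by simp))).2
      have h3 := (abs_le.1 (hL.step v)).2
      simp only [List.concat_eq_append, dsp_append, dsp_cons, dsp_nil, add_zero, map_add]
      linarith only [h2, h3]
  · have h2 := hl.1 (dsp a) (mem_exits_prefix hab hb)
    exact ⟨h2.1, by linarith [h2.2]⟩

lemma Rch_free (L : Site d →+ ℝ) (t : ℝ) (R : ℕ) : Free (Rch L t R) := by
  intro a ha b hb
  by_contra hne
  exact ha.2.2 (hb.1 (dsp a) (mem_exits_prefix rfl hne)).2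

end final

end Lat

/-- The first passage paths of height `n` that stay in the cone of slope `s`. -/
def Tube (L : Site d →+ ℝ) (n s : ℕ) : Set (List (Dir d)) :=
  {l | l ∈ Fp L n ∧ ∀ a b, l = a ++ b → ∀ i, |((dsp a i : ℤ) : ℝ)| ≤ s * (1 + L (dsp a))}

section lateral

open Vale.Agent.P147.Z.Lat

variable (μ : Measure (Row d)) [IsProbabilityMeasure μ]

/-- The lateral estimate, for the full weight of the tube. -/
lemma lateral_aux {L : Site d →+ ℝ} (hL : Lvl L) {u : Dir d} (hu : L (vec u) = 1) {n s : ℕ}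
    {t : ℝ} (hn' : 1 ≤ n) (hs' : 1 ≤ s) (ht : t ≤ 2 * n + 1) (k R : ℕ)
    (hR' : 24 * s * n * (k + 1) ≤ R) :
    ∑' π : Rch L t R, wt μ π.1 ≤
      2 * d * (1 - (wt μ [u] * ∑' l : Tube L n s, wt μ l.1) ^ 2) ^ k := by
  classical
  have hn : (1 : ℝ) ≤ n := by exact_mod_cast hn'
  have hs : (1 : ℝ) ≤ s := by exact_mod_cast hs'
  have hR : 24 * (s : ℝ) * n * (k + 1) ≤ R := by exact_mod_cast hR'
  have hsn : (s : ℝ) ≤ s * n := by nlinarith only [hn]
  have hsn1 : (1 : ℝ) ≤ s * n := hs.trans hsn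
  have key : ∀ (i : Fin d) (ε : Bool),
      ∑' l : Fst L (fn L s i ε) t (k * (23 * s * n)), wt μ l.1 ≤
        (1 - (wt μ [u] * ∑' l : Tube L n s, wt μ l.1) ^ 2) ^ k := by
    intro i ε
    refine iterate μ (n := n) (Δ := 10 * s * n) (ω := 3 * s * n) hu (by linarith only [])
      (fun l hl => hl.1) ht (by nlinarith only []) ?_ (by nlinarith only [hs, hsn]) ?_ (by nlinarith only []) k
    · intro l hl a b hab
      have h1 := Tube_level hL (by linarith only [hn]) hl.1 hab
      have h2 := hl.2 a b hab i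
      have h3 := vec_abs_le u i
      rw [map_add, fn_apply, fn_apply, hu]
      have h4 := sgn_abs ε ((dsp a i : ℤ) : ℝ)
      have h5 := sgn_abs ε ((vec u i : ℤ) : ℝ)
      have h6 := abs_le.1 (h4.le.trans h2)
      have h7 := abs_le.1 (h5.le.trans h3)
      constructor
      · nlinarith only [hs, h6, h7, h1]
      · have h8 : s * L (dsp a) ≤ s * (n + 1) := by
          apply mul_le_mul_of_nonneg_left h1.2; linarith only []
        linarith
    · intro v
      rw [fn_apply]
      have h3 := vec_abs_le v i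
      have h5 := sgn_abs ε ((vec v i : ℤ) : ℝ)
      have h7 := abs_le.1 (h5.le.trans h3)
      have h8 := (abs_le.1 (hL.step v)).2
      nlinarith only [hs, hsn, h7, h8]
  have hcover : Rch L t R ⊆ ⋃ p : Fin d × Bool,
      {π | π ∈ Rch L t R ∧ ∃ a ∈ Fst L (fn L s p.1 p.2) t (k * (23 * s * n)), ∃ c, π = a ++ c} := by
    intro π hπ
    have h1 : ∃ i, (R : ℤ) < |dsp π i| := by
      by_contra hcon
      push Not at hcon
      apply hπ.2.2
      simp only [bx, Fintype.mem_piFinset, Finset.mem_Icc]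
      exact fun i => abs_le.1 (hcon i)
    obtain ⟨i, hi⟩ := h1
    have h2 : (R : ℝ) < |((dsp π i : ℤ) : ℝ)| := by
      rw [← Int.cast_abs]
      exact_mod_cast hi
    have h3 : ∃ ε : Bool, (if ε then (1 : ℝ) else -1) * ((dsp π i : ℤ) : ℝ)
        = |((dsp π i : ℤ) : ℝ)| := by
      rcases le_total 0 ((dsp π i : ℤ) : ℝ) with h | h
      · exact ⟨true, by simp [abs_of_nonneg h]⟩
      · exact ⟨false, by simp [abs_of_nonpos h]⟩
    obtain ⟨ε, hε⟩ := h3
    rw [Set.mem_iUnion]
    refine ⟨(i, ε), hπ, ?_⟩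
    have h4 : k * (23 * s * n) ≤ fn L s i ε (dsp π) := by
      rw [fn_apply, hε]
      have h5 := hπ.2.1.1
      have h6 : 0 ≤ (k : ℝ) := Nat.cast_nonneg k
      nlinarith only [hR, hsn, h2, h5]
    obtain ⟨a, b, rfl, hQ, hmin⟩ :=
      exists_first (fun a => k * (23 * s * n) ≤ fn L s i ε (dsp a)) π h4
    refine ⟨a, ⟨?_, ?_, hQ⟩, b, rfl⟩
    · intro x hx
      obtain ⟨a', b', rfl, hb', rfl⟩ := mem_exits.1 hx
      rw [zero_add]
      refine ⟨?_, not_le.1 (hmin a' b' rfl hb')⟩
      exact (hπ.1 (dsp a') (mem_exits_prefix (b := b' ++ b) (by simp) (by simp [hb']))).1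
    · by_cases hb : b = []
      · subst hb
        simpa using hπ.2.1
      · exact (hπ.1 (dsp a) (mem_exits_prefix rfl hb)).1
  calc ∑' π : Rch L t R, wt μ π.1
      ≤ ∑' π : (⋃ p : Fin d × Bool, {π | π ∈ Rch L t R ∧
          ∃ a ∈ Fst L (fn L s p.1 p.2) t (k * (23 * s * n)), ∃ c, π = a ++ c} :
            Set (List (Dir d))), wt μ π.1 := ENNReal.tsum_mono_subtype (wt μ) hcover
    _ ≤ ∑ p : Fin d × Bool, ∑' π : {π | π ∈ Rch L t R ∧
          ∃ a ∈ Fst L (fn L s p.1 p.2) t (k * (23 * s * n)), ∃ c, π = a ++ c}, wt μ π.1 :=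
        ENNReal.tsum_iUnion_le _ _
    _ ≤ ∑ p : Fin d × Bool, (1 - (wt μ [u] * ∑' l : Tube L n s, wt μ l.1) ^ 2) ^ k := by
        refine Finset.sum_le_sum fun p _ => ?_
        refine le_trans ?_ (key p.1 p.2)
        refine tsum_le_of_prefix μ ?_ fun l hl => hl.2
        intro a ha b hb
        exact Rch_free L t R a ha.1 b hb.1
    _ = _ := by
        rw [Finset.sum_const, Finset.card_univ, Fintype.card_prod, Fintype.card_fin,
          Fintype.card_bool, nsmul_eq_mul]
        push_cast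
        ring

/-- **The lateral estimate.** If the tube of height `n` and slope `s` has weight at least `g`,
then the paths that go to distance `R` inside the slab of levels `(-1, t)`, `t ≤ 2 n + 1`, have
exponentially small weight in `R / (s n)`. -/
theorem lateral {L : Site d →+ ℝ} (hL : Lvl L) {u0 : Dir d} (hu0 : L (vec u0) = 1)
    {n s k R : ℕ} {g : ℝ≥0∞} {t : ℝ} (hn : 1 ≤ n) (hs : 1 ≤ s)
    (hg : g ≤ ∑' l : Tube L n s, wt μ l.1) (ht : t ≤ 2 * n + 1)
    (hR : 24 * s * n * (k + 1) ≤ R) :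
    ∑' π : Rch L t R, wt μ π.1 ≤ 2 * d * (1 - (wt μ [u0] * g) ^ 2) ^ k := by
  refine (lateral_aux μ hL hu0 hn hs ht k R hR).trans ?_
  (clear * - hg; gcongr)

end lateral

end Vale.Agent.P147.Z
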