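import Vale.Agent.P147.Z.Real

/-!
# The directional zero-one law: assembly

The last step, from the main proposition about path weights.
-/

open MeasureTheory
open scoped ENNReal

namespace Vale.Agent.P147.Z

variable {d : ℕ} (μ : Measure (Row d)) [IsProbabilityMeasure μ]

theorem zero_one_of_core (hμ : Elliptic μ)
    (core : ∀ {L : Site d →+ ℝ}, Lvl L → ∀ {q p : ℝ≥0∞}, q ≠ 0 → (∀ a, q ≤ fu μ L a) → p ≠ 0 →
      (∀ a, p ≤ fu μ (-L) a) → False) (v : Fin d → ℝ) :
    annealed μ 0 (Escape v) = 0 ∨ annealed μ 0 (Escape v) = 1 := by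
  refine zero_one_of_not_both μ hμ v ?_
  by_contra hcon
  push Not at hcon
  obtain ⟨h1, h2⟩ := hcon
  have hv : v ≠ 0 := by
    rintro rfl
    apply h1
    have h0 : (Escape (0 : Fin d → ℝ) : Set (ℕ → Site d)) = ∅ := by
      ext X
      simp only [Escape, inner, Pi.zero_apply, mul_zero, Finset.sum_const_zero,
        Set.mem_ofPred_eq, Set.mem_empty_iff_false, iff_false]
      exact Filter.not_tendsto_const_atTop (0 : ℝ) Filter.atTop
    rw [h0]
    simp [annealed]
  obtain ⟨q, hq0, hq⟩ := pos_of_escape μ h1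
  obtain ⟨p, hp0, hp⟩ := pos_of_escape μ h2
  rw [lev_neg] at hp
  exact core (lvl_lev hv) hq0 hq hp0 hp

end Vale.Agent.P147.Z
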