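import Vale.Agent.P147.Z.Core
import Vale.Agent.P147.Z.Main0

/-!
# The directional zero-one law
-/

open MeasureTheory
open scoped ENNReal

namespace Vale.Agent.P147.Z

variable {d : ℕ} (μ : Measure (Row d)) [IsProbabilityMeasure μ]

/-- The directional zero-one law. -/
theorem zero_one (hd : 2 ≤ d) (hμ : Elliptic μ) (v : Fin d → ℝ) :
    annealed μ 0 (Escape v) = 0 ∨ annealed μ 0 (Escape v) = 1 :=
  zero_one_of_core μ hμ (fun {_} hL {_ _} hq0 hq hp0 hp => core μ hd hμ hL hq0 hq hp0 hp) v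

end Vale.Agent.P147.Z
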