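import Vale.Agent.P147.Annealed
attribute [-instance] ProperSMul.toContinuousSMul IsTopologicalTorsor.toContinuousSMul IdemSemiring.toCanonicallyOrderedAdd IdemSemiring.toMulLeftMono IdemSemiring.toMulRightMono AddQuantale.instAddLeftMono AddQuantale.instAddRightMono Quantale.instMulLeftMono Quantale.instMulRightMono FiniteDimensional.rclike_to_real IsScalarTower.complexToReal FiniteDimensional.complexToReal

/-! Quenched and annealed laws: Markov property, heights given by a real linear functional,
escape and asymptotic independence. -/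

open MeasureTheory Filter Topology
open scoped ENNReal

namespace Vale.Agent.P147.Z

variable {d : ℕ}

/-- An event that depends on finitely many positions is measurable. -/
lemma measurableSet_local (n : ℕ) (P : (ℕ → Site d) → Prop)
    (hP : ∀ X Y : ℕ → Site d, (∀ i ≤ n, X i = Y i) → P X → P Y) : MeasurableSet {X | P X} := by
  classical
  let ext : ((i : Finset.Iic n) → Site d) → (ℕ → Site d) :=
    fun g i => if hi : i ≤ n then g ⟨i, by simpa only [Finset.mem_Iic] using hi⟩ else 0
  have e : {X | P X} = ⋃ g : {g : (i : Finset.Iic n) → Site d // P (ext g)}, pc n (ext g.1) := by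
    ext X
    simp only [Set.mem_ofPred_eq, Set.mem_iUnion, pc, Subtype.exists]
    constructor
    · intro hX
      refine ⟨fun i => X i, ?_, fun i hi => by simp only [hi, ↓reduceDIte, ext]⟩
      exact hP X _ (fun i hi => by simp only [hi, ↓reduceDIte, ext]) hX
    · rintro ⟨g, hg, h⟩
      exact hP _ X (fun i hi => (h i hi).symm) hg
  rw [e]
  exact MeasurableSet.iUnion fun g => measurableSet_pc _ _

/-- Lists of steps of a given length. -/
def lists (d : ℕ) : ℕ → Finset (List (Dir d))
  | 0 => {[]}
  | n + 1 => (Finset.univ ×ˢ lists d n).image (fun p : Dir d × List (Dir d) => p.1 :: p.2)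

lemma mem_lists {n : ℕ} {l : List (Dir d)} : l ∈ lists d n ↔ l.length = n := by
  induction n generalizing l with
  | zero => simp only [lists, Finset.mem_singleton, List.length_eq_zero_iff]
  | succ n ih =>
    simp only [lists, Finset.mem_image, Finset.mem_product, Finset.mem_univ, true_and]
    constructor
    · rintro ⟨⟨u, l'⟩, hl', rfl⟩
      simp [ih.1 hl']
    · intro h
      cases l with
      | nil => simp at h
      | cons u l => exact ⟨(u, l), ih.2 (by simpa using h), rfl⟩

lemma sum_row (p : Row d) : ∑ u, ENNReal.ofReal (p.1 u) = 1 := by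
  have h := p.2
  rw [← ENNReal.ofReal_sum_of_nonneg (fun u _ => h.1 u), h.2, ENNReal.ofReal_one]

lemma sum_qw (ω : Env d) (x : Site d) (n : ℕ) : ∑ l ∈ lists d n, qw ω x l = 1 := by
  induction n generalizing x with
  | zero => simp only [lists, Finset.sum_singleton, qw_nil]
  | succ n ih =>
    rw [lists, Finset.sum_image]
    · rw [Finset.sum_product]
      simp only [qw_cons]
      simp only [← Finset.mul_sum, ih, mul_one]
      exact sum_row _
    · rintro ⟨u, l⟩ _ ⟨v, l'⟩ _ h
      simpa using h

/-- The walk makes unit steps from `x`. -/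
def Good (x : Site d) : Set (ℕ → Site d) := {X | ∀ n, ∃ l ∈ lists d n, X ∈ cyl x l}

lemma measurableSet_good (x : Site d) : MeasurableSet (Good x) := by
  have : Good x = ⋂ n, ⋃ l ∈ lists d n, cyl x l := by
    ext X; simp only [Good, Set.mem_ofPred_eq, Set.mem_iInter, Set.mem_iUnion, exists_prop]
  rw [this]
  exact MeasurableSet.iInter fun n => Finset.measurableSet_biUnion _ fun l _ =>
    measurableSet_cyl x l

lemma quenched_good (ω : Env d) (x : Site d) : quenched ω x (Good x)ᶜ = 0 := by
  have : (Good x)ᶜ = ⋃ n, (⋃ l ∈ lists d n, cyl x l)ᶜ := by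
    ext X; simp only [Good, Set.mem_compl_iff, Set.mem_ofPred_eq, not_forall, not_exists, not_and, Set.compl_iUnion, Set.mem_iUnion, Set.mem_iInter]
  rw [this, measure_iUnion_null_iff]
  intro n
  rw [prob_compl_eq_zero_iff (Finset.measurableSet_biUnion _ fun l _ => measurableSet_cyl x l)]
  rw [measure_biUnion_finset]
  · simp only [quenched_cyl]
    exact sum_qw ω x n
  · intro a ha b hb hab
    have hfree : Free ((lists d n : Finset (List (Dir d))) : Set (List (Dir d))) := by
      intro a ha b hb
      simp only [Finset.mem_coe, mem_lists, List.length_append] at ha hb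
      have : b.length = 0 := by omega
      exact List.length_eq_zero_iff.1 this
    exact cyl_disjoint hfree ha hb hab
  · intro l _
    exact measurableSet_cyl x l

lemma annealed_inter_good (μ : Measure (Row d)) (x : Site d) (A : Set (ℕ → Site d)) :
    annealed μ x A ≤ annealed μ x (A ∩ Good x) := by
  refine lintegral_mono fun ω => ?_
  calc quenched ω x A ≤ quenched ω x ((A ∩ Good x) ∪ (Good x)ᶜ) := by
        refine measure_mono ?_
        intro X hX
        by_cases hg : X ∈ Good x
        · exact Or.inl ⟨hX, hg⟩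
        · exact Or.inr hg
    _ ≤ quenched ω x (A ∩ Good x) + quenched ω x (Good x)ᶜ := measure_union_le _ _
    _ = quenched ω x (A ∩ Good x) := by rw [quenched_good, add_zero]

/-- Structure of good paths: segments are given by lists. -/
lemma good_segment {X : ℕ → Site d} {x : Site d} (hX : X ∈ Good x) {a : List (Dir d)}
    (ha : X ∈ cyl x a) {n : ℕ} (hn : a.length ≤ n) :
    ∃ l, (a ++ l).length = n ∧ X ∈ cyl x (a ++ l) := by
  obtain ⟨b, hb, hXb⟩ := hX n
  rw [mem_lists] at hb
  obtain ⟨c, rfl⟩ := cyl_inter ha hXb (by omega)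
  exact ⟨c, hb, hXb⟩

lemma cyl_pos {X : ℕ → Site d} {x : Site d} {l : List (Dir d)} (hX : X ∈ cyl x l) {a b}
    (hab : l = a ++ b) : X a.length = x + dsp a := by
  have := hX a.length (by rw [hab]; simp only [List.length_append, le_add_iff_nonneg_right, zero_le])
  rw [this, hab]; simp

/-- Time shift of a path. -/
def tl (n : ℕ) (X : ℕ → Site d) : ℕ → Site d := fun k => X (k + n)

/-- Space translation of a path. -/
def tr (z : Site d) (X : ℕ → Site d) : ℕ → Site d := fun k => X k + z

/-- Invariance under space translations. -/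
def TInv (A : Set (ℕ → Site d)) : Prop := ∀ (z : Site d) (X : ℕ → Site d), tr z X ∈ A ↔ X ∈ A

/-- Invariance under the time shift. -/
def SInv (A : Set (ℕ → Site d)) : Prop := ∀ X : ℕ → Site d, tl 1 X ∈ A ↔ X ∈ A

/-- The annealed law. -/
noncomputable def annM (μ : Measure (Row d)) (x : Site d) : Measure (ℕ → Site d) :=
  (envLaw μ).bind (fun ω => quenched ω x)

lemma annM_apply (μ : Measure (Row d)) (x : Site d) {A : Set (ℕ → Site d)}
    (hA : MeasurableSet A) : annM μ x A = annealed μ x A := by
  rw [annM, Measure.bind_apply hA (measurable_quenched x).aemeasurable]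
  rfl

instance (μ : Measure (Row d)) [IsProbabilityMeasure μ] (x : Site d) :
    IsProbabilityMeasure (annM μ x) := by
  constructor
  rw [annM_apply μ x MeasurableSet.univ]
  simp [annealed]

lemma measurable_tl (n : ℕ) : Measurable (tl n : (ℕ → Site d) → (ℕ → Site d)) :=
  measurable_pi_lambda _ fun k => measurable_pi_apply (k + n)

lemma measurable_tr (z : Site d) : Measurable (tr z : (ℕ → Site d) → (ℕ → Site d)) :=
  measurable_pi_lambda _ fun k =>
    (measurable_of_countable (fun y : Site d => y + z)).comp (measurable_pi_apply k)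

lemma tinv_inter {A B : Set (ℕ → Site d)} (hA : TInv A) (hB : TInv B) : TInv (A ∩ B) :=
  fun z X => and_congr (hA z X) (hB z X)

lemma sinv_tl {A : Set (ℕ → Site d)} (hA : SInv A) (n : ℕ) (X : ℕ → Site d) :
    tl n X ∈ A ↔ X ∈ A := by
  induction n with
  | zero => rfl
  | succ n ih =>
    rw [← ih, ← hA (tl n X)]
    have : tl 1 (tl n X) = tl (n + 1) X := by
      funext k; simp only [tl]; congr 1; omega
    rw [this]

lemma mk_nonneg (x : Site d) (l : List (Dir d)) : (fun n => x + dsp (l.take n)) ∈ cyl x l :=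
  fun _ _ => rfl

lemma mk_pc {ν ν' : Measure (ℕ → Site d)} (x : Site d)
    (hg : ν (Good x)ᶜ = 0) (hg' : ν' (Good x)ᶜ = 0)
    (h : ∀ l : List (Dir d), ν (cyl x l) = ν' (cyl x l)) (n : ℕ) (g : ℕ → Site d) :
    ν (pc n g) = ν' (pc n g) := by
  by_cases hl : ∃ l ∈ lists d n, ∀ i ≤ n, g i = x + dsp (l.take i)
  · obtain ⟨l, hl, hgl⟩ := hl
    rw [mem_lists] at hl
    have : pc n g = cyl x l := by
      ext X
      simp only [pc, cyl, Set.mem_ofPred_eq, hl]
      exact forall_congr' fun i => forall_congr' fun hi => by rw [hgl i hi]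
    rw [this]
    exact h l
  · have hsub : pc n g ⊆ (Good x)ᶜ := by
      intro X hX hgX
      obtain ⟨l, hl', hXl⟩ := hgX n
      apply hl
      refine ⟨l, hl', fun i hi => ?_⟩
      rw [← hX i hi]
      exact hXl i (by rw [mem_lists.1 hl']; exact hi)
    rw [measure_mono_null hsub hg, measure_mono_null hsub hg']

lemma mk_cylinder {ν ν' : Measure (ℕ → Site d)}
    (h : ∀ n g, ν (pc n g) = ν' (pc n g)) {s : Set (ℕ → Site d)}
    (hs : s ∈ measurableCylinders (fun _ : ℕ => Site d)) : ν s = ν' s := by
  rw [MeasureTheory.mem_measurableCylinders] at hs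
  obtain ⟨I, T, hT, rfl⟩ := hs
  set n := I.sup id with hn
  have hsub : ∀ i ∈ I, i ∈ Finset.Iic n := fun i hi => by
    simp only [Finset.mem_Iic]
    exact Finset.le_sup (f := id) hi
  set T' : Set ((i : Finset.Iic n) → Site d) :=
    {g | (fun i : I => g ⟨i, hsub i i.2⟩) ∈ T} with hT'
  have e : cylinder I T = Preorder.frestrictLe (π := fun _ : ℕ => Site d) n ⁻¹' T' := by
    ext X
    simp only [cylinder, Set.mem_preimage, hT', Set.mem_ofPred_eq]
    rfl
  rw [e]
  have e2 : Preorder.frestrictLe (π := fun _ : ℕ => Site d) n ⁻¹' T' =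
      ⋃ g : T', Preorder.frestrictLe (π := fun _ : ℕ => Site d) n ⁻¹' {g.1} := by
    ext X; simp only [Set.mem_preimage, Set.iUnion_coe_set, Set.biUnion_preimage_singleton]
  have hm : ∀ g : (i : Finset.Iic n) → Site d,
      Preorder.frestrictLe (π := fun _ : ℕ => Site d) n ⁻¹' {g} =
        pc n (fun i => if hi : i ≤ n then g ⟨i, by simpa only [Finset.mem_Iic] using hi⟩ else 0) := by
    intro g
    rw [← frestrictLe_preimage]
    congr 2
    funext i
    have := i.2
    simp only [Finset.mem_Iic] at this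
    simp only [this, ↓reduceDIte, Subtype.coe_eta]
  have e3 : ∀ κ : Measure (ℕ → Site d),
      κ (Preorder.frestrictLe (π := fun _ : ℕ => Site d) n ⁻¹' T') =
      ∑' g : T', κ (pc n (fun i => if hi : i ≤ n then g.1 ⟨i, by simpa only [Finset.mem_Iic] using hi⟩ else 0)) := by
    intro κ
    rw [e2, measure_iUnion]
    · simp only [hm]
    · intro g g' hgg
      refine Disjoint.preimage _ ?_
      rw [Set.disjoint_singleton]
      exact fun h => hgg (Subtype.ext h)
    · intro g
      rw [hm]
      exact measurableSet_pc _ _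
  rw [e3, e3]
  exact tsum_congr fun g => h _ _

/-- Two finite measures on nearest neighbour paths that agree on cylinders are equal. -/
theorem measure_ext_cyl {ν ν' : Measure (ℕ → Site d)} [IsFiniteMeasure ν] (x : Site d)
    (hg : ν (Good x)ᶜ = 0) (hg' : ν' (Good x)ᶜ = 0)
    (h : ∀ l : List (Dir d), ν (cyl x l) = ν' (cyl x l)) : ν = ν' := by
  refine MeasureTheory.ext_of_generate_finite (measurableCylinders (fun _ : ℕ => Site d))
    (MeasureTheory.generateFrom_measurableCylinders).symm
    MeasureTheory.isPiSystem_measurableCylinders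
    (fun s hs => mk_cylinder (mk_pc x hg hg' h) hs)
    (mk_cylinder (mk_pc x hg hg' h) (MeasureTheory.univ_mem_measurableCylinders _))

lemma mk_tl {X : ℕ → Site d} (x : Site d) (l l' : List (Dir d)) :
    X ∈ cyl x (l ++ l') ↔ X ∈ cyl x l ∧ tl l.length X ∈ cyl (x + dsp l) l' := by
  constructor
  · intro hX
    refine ⟨fun n hn => ?_, fun n hn => ?_⟩
    · rw [hX n (by rw [List.length_append]; omega), List.take_append_of_le_length hn]
    · unfold tl
      rw [hX (n + l.length) (by rw [List.length_append]; omega), add_comm n l.length,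
        List.take_length_add_append, dsp_append, add_assoc]
  · rintro ⟨h1, h2⟩ n hn
    rw [List.length_append] at hn
    rcases Nat.le_total n l.length with h | h
    · rw [h1 n h, List.take_append_of_le_length h]
    · obtain ⟨m, rfl⟩ : ∃ m, n = m + l.length := ⟨n - l.length, by omega⟩
      have := h2 m (by omega)
      unfold tl at this
      rw [this, add_comm m l.length, List.take_length_add_append, dsp_append, add_assoc]

lemma mk_good_tl {X : ℕ → Site d} {x : Site d} {l : List (Dir d)} (hX : X ∈ Good x)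
    (hl : X ∈ cyl x l) : tl l.length X ∈ Good (x + dsp l) := by
  intro n
  obtain ⟨l', h1, h2⟩ := good_segment hX hl (n := l.length + n) (by omega)
  rw [List.length_append] at h1
  exact ⟨l', mem_lists.2 (by omega), ((mk_tl x l l').1 h2).2⟩

/-- The Markov property. -/
theorem quenched_markov (ω : Env d) (x : Site d) (l : List (Dir d)) {A : Set (ℕ → Site d)}
    (hA : MeasurableSet A) :
    quenched ω x (cyl x l ∩ tl l.length ⁻¹' A) = qw ω x l * quenched ω (x + dsp l) A := by
  have happ : ∀ B : Set (ℕ → Site d), MeasurableSet B →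
      (((quenched ω x).restrict (cyl x l)).map (tl l.length)) B
        = quenched ω x (cyl x l ∩ tl l.length ⁻¹' B) := by
    intro B hB
    rw [Measure.map_apply (measurable_tl _) hB,
      Measure.restrict_apply ((measurable_tl _) hB), Set.inter_comm]
  have key : ((quenched ω x).restrict (cyl x l)).map (tl l.length)
      = qw ω x l • quenched ω (x + dsp l) := by
    refine measure_ext_cyl (x + dsp l) ?_ ?_ ?_
    · rw [happ _ (measurableSet_good _).compl]
      refine measure_mono_null ?_ (quenched_good ω x)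
      rintro X ⟨h1, h2⟩ h3
      exact h2 (mk_good_tl h3 h1)
    · rw [Measure.smul_apply, quenched_good, smul_zero]
    · intro l'
      rw [happ _ (measurableSet_cyl _ _), Measure.smul_apply, quenched_cyl, smul_eq_mul,
        ← qw_append, ← quenched_cyl]
      congr 1
      ext X
      rw [mk_tl]
      rfl
  rw [← happ A hA, key, Measure.smul_apply, smul_eq_mul]

/-- Space translations. -/
theorem quenched_shift (ω : Env d) (x z : Site d) {A : Set (ℕ → Site d)}
    (hA : MeasurableSet A) :
    quenched (shift z ω) x A = quenched ω (x + z) (tr (-z) ⁻¹' A) := by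
  have hcyl : ∀ l : List (Dir d), tr (-z) ⁻¹' (cyl x l) = cyl (x + z) l := by
    intro l
    ext X
    simp only [Set.mem_preimage, cyl, Set.mem_ofPred_eq, tr]
    refine forall_congr' fun n => forall_congr' fun _ => ?_
    constructor
    · intro h
      have h' : X n = x + dsp (l.take n) + z := by rw [← h]; abel
      rw [h']; abel
    · intro h
      rw [h]; abel
  have hgood : tr (-z) ⁻¹' (Good x) = Good (x + z) := by
    ext X
    simp only [Set.mem_preimage, Good, Set.mem_ofPred_eq]
    refine forall_congr' fun n => exists_congr fun l => and_congr_right fun _ => ?_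
    rw [← hcyl l]
    rfl
  have key : quenched (shift z ω) x = (quenched ω (x + z)).map (tr (-z)) := by
    refine measure_ext_cyl x (quenched_good _ _) ?_ ?_
    · rw [Measure.map_apply (measurable_tr _) (measurableSet_good _).compl, Set.preimage_compl,
        hgood, quenched_good]
    · intro l
      rw [Measure.map_apply (measurable_tr _) (measurableSet_cyl _ _), hcyl, quenched_cyl,
        quenched_cyl, qw_shift]
  rw [key, Measure.map_apply (measurable_tr _) hA]

open Classical in
/-- Probability of an event which depends on the first `m` steps. -/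
lemma mk_fin (ω : Env d) (x : Site d) (m : ℕ) {S : Set (ℕ → Site d)}
    (hS : ∀ X Y : ℕ → Site d, (∀ i ≤ m, X i = Y i) → X ∈ S → Y ∈ S) :
    quenched ω x S = ∑ l ∈ (lists d m).filter (fun l => cyl x l ⊆ S), qw ω x l := by
  have hmem : ∀ l, l ∈ (lists d m).filter (fun l => cyl x l ⊆ S) ↔
      l.length = m ∧ cyl x l ⊆ S := by
    intro l
    rw [Finset.mem_filter, mem_lists]
  have h1 : quenched ω x (⋃ l ∈ (lists d m).filter (fun l => cyl x l ⊆ S), cyl x l)
      = ∑ l ∈ (lists d m).filter (fun l => cyl x l ⊆ S), qw ω x l := by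
    rw [measure_biUnion_finset]
    · simp only [quenched_cyl]
    · intro a ha b hb hab
      have hfree : Free ((lists d m : Finset (List (Dir d))) : Set (List (Dir d))) := by
        intro a ha b hb
        simp only [Finset.mem_coe, mem_lists, List.length_append] at ha hb
        have : b.length = 0 := by omega
        exact List.length_eq_zero_iff.1 this
      exact cyl_disjoint hfree (Finset.mem_coe.2 (Finset.mem_filter.1 (Finset.mem_coe.1 ha)).1)
        (Finset.mem_coe.2 (Finset.mem_filter.1 (Finset.mem_coe.1 hb)).1) hab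
    · intro l _
      exact measurableSet_cyl x l
  rw [← h1]
  refine le_antisymm ?_ (measure_mono ?_)
  · calc quenched ω x S ≤ quenched ω x
          ((⋃ l ∈ (lists d m).filter (fun l => cyl x l ⊆ S), cyl x l) ∪ (Good x)ᶜ) := by
          refine measure_mono fun X hX => ?_
          by_cases hg : X ∈ Good x
          · left
            obtain ⟨l, hl, hXl⟩ := hg m
            rw [mem_lists] at hl
            refine Set.mem_iUnion₂.2 ⟨l, (hmem l).2 ⟨hl, fun Y hY => ?_⟩, hXl⟩
            refine hS X Y (fun i hi => ?_) hX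
            rw [hXl i (by omega), hY i (by omega)]
          · exact Or.inr hg
      _ ≤ _ + quenched ω x (Good x)ᶜ := measure_union_le _ _
      _ = _ := by rw [quenched_good, add_zero]
  · exact Set.iUnion₂_subset fun l hl => ((hmem l).1 hl).2

section gen

variable (μ : Measure (Row d)) [IsProbabilityMeasure μ]

/-- A translation invariant event has the same annealed probability from every point. -/
theorem annealed_tinv (x : Site d) {A : Set (ℕ → Site d)} (hA : MeasurableSet A) (hT : TInv A) :
    annealed μ x A = annealed μ 0 A := by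
  have h1 : ∀ ω : Env d, quenched (shift x ω) 0 A = quenched ω x A := by
    intro ω
    rw [quenched_shift ω 0 x hA, zero_add]
    congr 1
    ext X
    exact hT (-x) X
  have h2 := (measurePreserving_shift μ x).lintegral_comp (measurable_quenched_apply 0 hA)
  simp only [h1] at h2
  exact h2

/-- The sigma-algebra of the rows at the sites of a set. -/
abbrev freshAlg (S : Set (Site d)) : MeasurableSpace (Env d) :=
  ⨆ y ∈ S, MeasurableSpace.comap (fun ω : Env d => ω y) inferInstance

omit [IsProbabilityMeasure μ] in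
lemma freshAlg_le (S : Set (Site d)) : freshAlg S ≤ (inferInstance : MeasurableSpace (Env d)) := by
  refine iSup₂_le fun y _ => ?_
  exact (measurable_pi_apply y).comap_le

lemma freshAlg_measurable [Nonempty (Row d)] {S : Set (Site d)} {F : Env d → ℝ≥0∞}
    (hF : Measurable F) (hloc : ∀ ω ω' : Env d, (∀ y ∈ S, ω y = ω' y) → F ω = F ω') :
    Measurable[freshAlg S] F := by
  classical
  let p0 : Row d := Classical.arbitrary _
  let m : Env d → Env d := fun ω y => if y ∈ S then ω y else p0
  have hm : Measurable[freshAlg S] m := by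
    refine @measurable_pi_lambda (Env d) (Site d) (fun _ => Row d) (freshAlg S) _ m fun y => ?_
    by_cases hy : y ∈ S
    · have e : (fun ω : Env d => m ω y) = fun ω : Env d => ω y := by
        funext ω; simp [m, hy]
      rw [e]
      refine measurable_iff_comap_le.2 ?_
      exact le_iSup₂ (f := fun (y : Site d) (_ : y ∈ S) =>
        MeasurableSpace.comap (fun ω : Env d => ω y) inferInstance) y hy
    · have e : (fun ω : Env d => m ω y) = fun _ : Env d => p0 := by
        funext ω; simp [m, hy]
      rw [e]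
      exact measurable_const
  have e : F = F ∘ m := by
    funext ω
    exact hloc ω (m ω) fun y hy => by simp [m, hy]
  rw [e]
  exact hF.comp hm

lemma freshAlg_indep {S T : Set (Site d)} (hST : Disjoint S T) :
    ProbabilityTheory.Indep (freshAlg S) (freshAlg T) (envLaw μ) := by
  have hind : ProbabilityTheory.iIndepFun (fun (i : Site d) (ω : Env d) => ω i) (envLaw μ) :=
    ProbabilityTheory.iIndepFun_infinitePi (P := fun _ : Site d => μ) (X := fun _ p => p)
      (fun _ => measurable_id)
  exact ProbabilityTheory.indep_iSup_of_disjoint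
    (fun y => (measurable_pi_apply y).comap_le) hind hST

end gen

lemma cylinder_local {G : Set (ℕ → Site d)}
    (hG : G ∈ measurableCylinders (fun _ : ℕ => Site d)) :
    ∃ n : ℕ, ∀ X Y : ℕ → Site d, (∀ i ≤ n, X i = Y i) → X ∈ G → Y ∈ G := by
  rw [mem_measurableCylinders] at hG
  obtain ⟨I, T, _, rfl⟩ := hG
  refine ⟨I.sup id, fun X Y hXY hX => ?_⟩
  have : (fun i : I => Y i) = fun i : I => X i := by
    funext i
    exact (hXY i (Finset.le_sup (f := id) i.2)).symm
  simp only [cylinder, Set.mem_preimage] at hX ⊢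
  convert hX using 1
  exact this

/-- The path escapes upwards. -/
def EscR (h : Site d →+ ℝ) : Set (ℕ → Site d) := {X | Tendsto (fun n => h (X n)) atTop atTop}

/-- The path stays at or above its starting height. -/
def StayR (h : Site d →+ ℝ) : Set (ℕ → Site d) := {X | ∀ n, h (X 0) ≤ h (X n)}

/-- Escape upwards without ever going below the starting height. -/
def UpR (h : Site d →+ ℝ) : Set (ℕ → Site d) := StayR h ∩ EscR h

/-- The first passage at height `≥ k`. -/
def FPR (h : Site d →+ ℝ) (k : ℕ) : Set (List (Dir d)) :=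
  {l | (∀ a b, l = a ++ b → b ≠ [] → h (dsp a) < k) ∧ (k : ℝ) ≤ h (dsp l)}

/-- The walk from `0` reaches height `k`, and the path after the first passage is in `A`. -/
def RAR (h : Site d →+ ℝ) (A : Set (ℕ → Site d)) (k : ℕ) : Set (ℕ → Site d) :=
  ⋃ l ∈ FPR h k, cyl 0 l ∩ tl l.length ⁻¹' A

lemma measurableSet_stayR (h : Site d →+ ℝ) : MeasurableSet (StayR h) := by
  have : StayR h = ⋂ n : ℕ, {X | h (X 0) ≤ h (X n)} := by ext X; simp only [StayR, Set.mem_ofPred_eq, Set.mem_iInter]
  rw [this]
  exact MeasurableSet.iInter fun n => measurableSet_local n _ fun X Y hXY hX => by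
    rw [← hXY n le_rfl, ← hXY 0 (by omega)]; exact hX

lemma measurableSet_escR (h : Site d →+ ℝ) : MeasurableSet (EscR h) := by
  have : EscR h = ⋂ K : ℕ, ⋃ M : ℕ, ⋂ n : ℕ, {X | M ≤ n → (K : ℝ) ≤ h (X n)} := by
    ext X
    simp only [EscR, Set.mem_ofPred_eq, tendsto_atTop_atTop, Set.mem_iInter, Set.mem_iUnion]
    constructor
    · intro H K
      exact H K
    · intro H b
      obtain ⟨K, hK⟩ := exists_nat_ge b
      obtain ⟨M, hM⟩ := H K
      exact ⟨M, fun n hn => hK.trans (hM n hn)⟩
  rw [this]
  refine MeasurableSet.iInter fun K => MeasurableSet.iUnion fun M => MeasurableSet.iInter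
      fun n => ?_
  refine measurableSet_local n _ fun X Y hXY hX hn => ?_
  rw [← hXY n le_rfl]; exact hX hn

lemma measurableSet_upR (h : Site d →+ ℝ) : MeasurableSet (UpR h) :=
  (measurableSet_stayR h).inter (measurableSet_escR h)

lemma tinv_stayR (h : Site d →+ ℝ) : TInv (StayR h) := by
  intro z X
  simp only [StayR, Set.mem_ofPred_eq, tr, map_add, add_le_add_iff_right]

lemma tinv_escR (h : Site d →+ ℝ) : TInv (EscR h) := by
  intro z X
  simp only [EscR, Set.mem_ofPred_eq, tr, map_add]
  constructor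
  · intro hX
    have := tendsto_atTop_add_const_right atTop (-h z) hX
    simpa only [add_neg_cancel_right] using this
  · intro hX
    exact tendsto_atTop_add_const_right atTop (h z) hX

lemma tinv_upR (h : Site d →+ ℝ) : TInv (UpR h) := tinv_inter (tinv_stayR h) (tinv_escR h)

lemma sinv_escR (h : Site d →+ ℝ) : SInv (EscR h) := by
  intro X
  exact tendsto_add_atTop_iff_nat (f := fun n => h (X n)) 1

lemma mk_localR (h : Site d →+ ℝ) (x : Site d) {ω ω' : Env d}
    (hω : ∀ y, h x ≤ h y → ω y = ω' y) (l₀ : List (Dir d)) :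
    quenched ω x (cyl x l₀ ∩ {X | ∀ n, h x ≤ h (X n)})
      = quenched ω' x (cyl x l₀ ∩ {X | ∀ n, h x ≤ h (X n)}) := by
  classical
  set S : ℕ → Set (ℕ → Site d) := fun m =>
    cyl x l₀ ∩ {X | ∀ n ≤ m + l₀.length, h x ≤ h (X n)} with hS
  have hloc : ∀ m, ∀ X Y : ℕ → Site d, (∀ i ≤ m + l₀.length, X i = Y i) → X ∈ S m → Y ∈ S m := by
    rintro m X Y hXY ⟨h1, h2⟩
    refine ⟨fun n hn => ?_, fun n hn => ?_⟩
    · rw [← hXY n (by omega)]; exact h1 n hn
    · rw [← hXY n hn]; exact h2 n hn
  have hmeas : ∀ m, MeasurableSet (S m) := fun m =>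
    measurableSet_local (m + l₀.length) (fun X => X ∈ S m) (hloc m)
  have hanti : Antitone S := by
    rintro a b hab X ⟨h1, h2⟩
    exact ⟨h1, fun n hn => h2 n (by omega)⟩
  have hint : cyl x l₀ ∩ {X | ∀ n, h x ≤ h (X n)} = ⋂ m, S m := by
    ext X
    simp only [hS, Set.mem_inter_iff, Set.mem_iInter, Set.mem_ofPred_eq]
    constructor
    · rintro ⟨h1, h2⟩ m
      exact ⟨h1, fun n _ => h2 n⟩
    · intro H
      exact ⟨(H 0).1, fun n => (H n).2 n (by omega)⟩
  have heq : ∀ m, quenched ω x (S m) = quenched ω' x (S m) := by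
    intro m
    rw [mk_fin ω x _ (hloc m), mk_fin ω' x _ (hloc m)]
    refine Finset.sum_congr rfl fun l hl => ?_
    rw [Finset.mem_filter, mem_lists] at hl
    refine qw_congr fun y hy => hω y ?_
    obtain ⟨a, b, hab, _, rfl⟩ := mem_exits.1 hy
    have h1 := hl.2 (mk_nonneg x l)
    have h2 := h1.2 a.length (by rw [← hl.1, hab, List.length_append]; omega)
    rw [hab] at h2
    simpa only [map_add, le_add_iff_nonneg_right, ge_iff_le, List.take_left'] using h2
  have t1 := tendsto_measure_iInter_atTop (μ := quenched ω x)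
    (fun m => (hmeas m).nullMeasurableSet) hanti ⟨0, measure_ne_top _ _⟩
  have t2 := tendsto_measure_iInter_atTop (μ := quenched ω' x)
    (fun m => (hmeas m).nullMeasurableSet) hanti ⟨0, measure_ne_top _ _⟩
  have e : (quenched ω x) ∘ S = (quenched ω' x) ∘ S := funext heq
  rw [e] at t1
  rw [hint]
  exact tendsto_nhds_unique t1 t2

/-- The probability of an event on which the path stays above `h x` depends only on the
environment at heights at least `h x`. -/
theorem quenched_localR (h : Site d →+ ℝ) (x : Site d) {ω ω' : Env d}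
    (hω : ∀ y, h x ≤ h y → ω y = ω' y) {A : Set (ℕ → Site d)} (hA : MeasurableSet A)
    (hsub : A ⊆ StayR h) : quenched ω x A = quenched ω' x A := by
  set K : Set (ℕ → Site d) := {X | ∀ n, h x ≤ h (X n)} with hK
  have hKm : MeasurableSet K := by
    have : K = ⋂ n : ℕ, {X : ℕ → Site d | h x ≤ h (X n)} := by ext X; simp only [hK, Set.mem_ofPred_eq, Set.mem_iInter]
    rw [this]
    exact MeasurableSet.iInter fun n => measurableSet_local n _ fun X Y hXY hX => by
      rw [← hXY n le_rfl]; exact hX
  have key : (quenched ω x).restrict K = (quenched ω' x).restrict K := by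
    refine measure_ext_cyl x ?_ ?_ ?_
    · exact le_antisymm ((Measure.restrict_apply_le _ _).trans (quenched_good ω x).le) zero_le
    · exact le_antisymm ((Measure.restrict_apply_le _ _).trans (quenched_good ω' x).le) zero_le
    · intro l
      rw [Measure.restrict_apply (measurableSet_cyl x l),
        Measure.restrict_apply (measurableSet_cyl x l)]
      exact mk_localR h x hω l
  have hAK : ∀ ω : Env d, quenched ω x A = (quenched ω x).restrict K A := by
    intro ω
    rw [Measure.restrict_apply hA]
    refine le_antisymm ?_ (measure_mono Set.inter_subset_left)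
    calc quenched ω x A ≤ quenched ω x ((A ∩ K) ∪ (Good x)ᶜ) := by
          refine measure_mono fun X hX => ?_
          by_cases hg : X ∈ Good x
          · left
            refine ⟨hX, fun n => ?_⟩
            have h0 : X 0 = x := by
              obtain ⟨l, _, hXl⟩ := hg 0
              simpa using hXl 0 (by omega)
            have := hsub hX n
            rwa [h0] at this
          · exact Or.inr hg
      _ ≤ quenched ω x (A ∩ K) + quenched ω x (Good x)ᶜ := measure_union_le _ _
      _ = _ := by rw [quenched_good, add_zero]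
  rw [hAK ω, hAK ω', key]

lemma exists_boundR (h : Site d →+ ℝ) : ∃ L : ℕ, ∀ u : Dir d, |h (vec u)| ≤ L := by
  obtain ⟨L, hL⟩ := exists_nat_ge (∑ u : Dir d, |h (vec u)|)
  exact ⟨L, fun u => (Finset.single_le_sum (f := fun u : Dir d => |h (vec u)|)
    (fun _ _ => abs_nonneg _) (Finset.mem_univ u)).trans hL⟩

lemma height_boundR {h : Site d →+ ℝ} {L : ℕ} (hL : ∀ u : Dir d, |h (vec u)| ≤ L)
    (l : List (Dir d)) : |h (dsp l)| ≤ L * l.length := by
  induction l with
  | nil => simp
  | cons u l ih =>
    rw [dsp_cons, map_add, List.length_cons]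
    push_cast
    calc |h (vec u) + h (dsp l)| ≤ |h (vec u)| + |h (dsp l)| := abs_add_le _ _
      _ ≤ L + L * l.length := add_le_add (hL u) ih
      _ = L * (l.length + 1) := by ring

variable (μ : Measure (Row d)) [IsProbabilityMeasure μ]

/-- Functions of the environment below a height and quenched probabilities of events above this
height are independent. -/
theorem lintegral_freshR (h : Site d →+ ℝ) (x : Site d) {A : Set (ℕ → Site d)}
    (hA : MeasurableSet A) (hT : TInv A) (hsub : A ⊆ StayR h) (F : Env d → ℝ≥0∞)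
    (hF : Measurable F) (hloc : ∀ ω ω' : Env d, (∀ y, h y < h x → ω y = ω' y) → F ω = F ω') :
    ∫⁻ ω, F ω * quenched ω x A ∂(envLaw μ) = (∫⁻ ω, F ω ∂(envLaw μ)) * annealed μ 0 A := by
  have : Nonempty (Row d) := nonempty_of_isProbabilityMeasure μ
  have hdisj : Disjoint {y : Site d | h y < h x} {y : Site d | h x ≤ h y} := by
    rw [Set.disjoint_left]
    intro y (h1 : h y < h x) (h2 : h x ≤ h y)
    exact absurd h1 (not_lt.2 h2)
  have h1 : Measurable[freshAlg {y : Site d | h y < h x}] F :=
    freshAlg_measurable hF fun ω ω' hω => hloc ω ω' hω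
  have h2 : Measurable[freshAlg {y : Site d | h x ≤ h y}] (fun ω : Env d => quenched ω x A) :=
    freshAlg_measurable (measurable_quenched_apply x hA) fun ω ω' hω =>
      quenched_localR h x hω hA hsub
  have h3 := ProbabilityTheory.lintegral_mul_eq_lintegral_mul_lintegral_of_independent_measurableSpace
    (freshAlg_le _) (freshAlg_le _) (freshAlg_indep μ hdisj) h1 h2
  rw [← annealed_tinv μ x hA hT]
  exact h3

/-- Decomposition of an event after a list of steps with fresh end point. -/
theorem annealed_freshR (h : Site d →+ ℝ) {l : List (Dir d)}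
    (hl : ∀ a b, l = a ++ b → b ≠ [] → h (dsp a) < h (dsp l)) {A : Set (ℕ → Site d)}
    (hA : MeasurableSet A) (hT : TInv A) (hsub : A ⊆ StayR h) :
    annealed μ 0 (cyl 0 l ∩ tl l.length ⁻¹' A) = wt μ l * annealed μ 0 A := by
  rw [wt, ← lintegral_freshR μ h (dsp l) hA hT hsub (fun ω => qw ω 0 l) (measurable_qw 0 l)]
  · rw [annealed]
    refine lintegral_congr fun ω => ?_
    rw [quenched_markov ω 0 l hA, zero_add]
  · intro ω ω' hω
    refine qw_congr fun y hy => hω y ?_
    obtain ⟨a, b, hab, hb, rfl⟩ := mem_exits.1 hy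
    rw [zero_add]
    exact hl a b hab hb

/-- If the walk escapes and `B` holds with positive probability, then this also happens without
going below the starting height. -/
theorem upR_pos (h : Site d →+ ℝ) {B : Set (ℕ → Site d)} (hB : MeasurableSet B) (hT : TInv B)
    (hS : SInv B) (hpos : annealed μ 0 (EscR h ∩ B) ≠ 0) : annealed μ 0 (UpR h ∩ B) ≠ 0 := by
  intro h0
  apply hpos
  have hUB : MeasurableSet (UpR h ∩ B) := (measurableSet_upR h).inter hB
  have hTUB : TInv (UpR h ∩ B) := tinv_inter (tinv_upR h) hT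
  have hm : ∀ l : List (Dir d), MeasurableSet (cyl 0 l ∩ tl l.length ⁻¹' (UpR h ∩ B)) :=
    fun l => (measurableSet_cyl 0 l).inter (measurable_tl l.length hUB)
  have hcover : (EscR h ∩ B) ∩ Good 0 ⊆ ⋃ l : List (Dir d),
      cyl 0 l ∩ tl l.length ⁻¹' (UpR h ∩ B) := by
    rintro X ⟨⟨hX, hXB⟩, hg⟩
    obtain ⟨t, ht⟩ : ∃ t, ∀ n, h (X t) ≤ h (X n) := by
      obtain ⟨M, hM⟩ := (tendsto_atTop_atTop.1 hX) (h (X 0))
      obtain ⟨t, _, hmin⟩ := Finset.exists_min_image (Finset.range (M + 1))
        (fun n => h (X n)) ⟨0, by simp only [Finset.mem_range, lt_add_iff_pos_left, Order.lt_add_one_iff, zero_le]⟩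
      refine ⟨t, fun n => ?_⟩
      rcases Nat.lt_or_ge n (M + 1) with hn | hn
      · exact hmin n (by simpa only [Finset.mem_range, Order.lt_add_one_iff] using hn)
      · have h1 := hmin 0 (by simp only [Finset.mem_range, lt_add_iff_pos_left, Order.lt_add_one_iff, zero_le])
        have h2 := hM n (by omega)
        linarith only [h1, h2]
    obtain ⟨l, hl, hXl⟩ := hg t
    rw [mem_lists] at hl
    refine Set.mem_iUnion.2 ⟨l, hXl, ?_⟩
    rw [Set.mem_preimage, hl]
    refine ⟨⟨fun n => ?_, (sinv_tl (sinv_escR h) t X).2 hX⟩, (sinv_tl hS t X).2 hXB⟩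
    simp only [tl, zero_add]
    exact ht _
  have hz : ∀ l : List (Dir d), annealed μ 0 (cyl 0 l ∩ tl l.length ⁻¹' (UpR h ∩ B)) = 0 := by
    intro l
    refine le_antisymm ?_ zero_le
    calc annealed μ 0 (cyl 0 l ∩ tl l.length ⁻¹' (UpR h ∩ B))
        ≤ annealed μ (dsp l) (UpR h ∩ B) := by
          refine lintegral_mono fun ω => ?_
          beta_reduce
          rw [quenched_markov ω 0 l hUB, zero_add]
          calc qw ω 0 l * quenched ω (dsp l) (UpR h ∩ B)
              ≤ 1 * quenched ω (dsp l) (UpR h ∩ B) := by gcongr; exact qw_le_one _ _ _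
            _ = _ := one_mul _
      _ = 0 := by rw [annealed_tinv μ (dsp l) hUB hTUB, h0]
  refine le_antisymm ?_ zero_le
  calc annealed μ 0 (EscR h ∩ B) ≤ annealed μ 0 ((EscR h ∩ B) ∩ Good 0) := annealed_inter_good μ 0 _
    _ ≤ annealed μ 0 (⋃ l : List (Dir d), cyl 0 l ∩ tl l.length ⁻¹' (UpR h ∩ B)) :=
        annealed_mono μ 0 hcover
    _ ≤ ∑' l : List (Dir d), annealed μ 0 (cyl 0 l ∩ tl l.length ⁻¹' (UpR h ∩ B)) :=
        annealed_iUnion_le μ 0 hm
    _ = 0 := by simp only [hz, tsum_zero]

lemma FPR_free (h : Site d →+ ℝ) (k : ℕ) : Free (FPR h k) := by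
  intro a ha b hb
  by_contra hne
  have h1 := hb.1 a b rfl hne
  have h2 := ha.2
  linarith only [h1, h2]

/-- A nearest neighbour path that reaches height `k` has a first passage list. -/
lemma mem_RAR_univ {h : Site d →+ ℝ} {k : ℕ} {X : ℕ → Site d} (hX : X ∈ Good 0)
    (hk : ∃ n, (k : ℝ) ≤ h (X n)) : X ∈ RAR h Set.univ k := by
  classical
  obtain ⟨l, hl, hXl⟩ := hX (Nat.find hk)
  rw [mem_lists] at hl
  simp only [RAR, Set.preimage_univ, Set.inter_univ, Set.mem_iUnion]
  refine ⟨l, ⟨fun a b hab hb => ?_, ?_⟩, hXl⟩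
  · have h1 := cyl_pos hXl hab
    rw [zero_add] at h1
    rw [← h1]
    have h2 : a.length < Nat.find hk := by
      rw [← hl, hab, List.length_append]
      have := List.length_pos_iff.2 hb
      omega
    have := Nat.find_min hk h2
    exact not_le.1 this
  · have h1 := cyl_pos hXl (a := l) (b := []) (by simp)
    rw [zero_add, hl] at h1
    rw [← h1]
    exact Nat.find_spec hk

lemma measurableSet_RAR (h : Site d →+ ℝ) {A : Set (ℕ → Site d)} (hA : MeasurableSet A) (k : ℕ) :
    MeasurableSet (RAR h A k) :=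
  MeasurableSet.iUnion fun l => MeasurableSet.iUnion fun _ =>
    (measurableSet_cyl 0 l).inter (measurable_tl l.length hA)

omit [IsProbabilityMeasure μ] in
lemma annM_RAR_inter (h : Site d →+ ℝ) {A : Set (ℕ → Site d)} (hA : MeasurableSet A) (k : ℕ)
    {G : Set (ℕ → Site d)} (hG : MeasurableSet G) :
    annM μ 0 (RAR h A k ∩ G) = ∑' l : FPR h k,
      annM μ 0 ((cyl 0 (l : List (Dir d)) ∩ tl (l : List (Dir d)).length ⁻¹' A) ∩ G) := by
  have e : RAR h A k ∩ G = ⋃ l : FPR h k,
      ((cyl 0 (l : List (Dir d)) ∩ tl (l : List (Dir d)).length ⁻¹' A) ∩ G) := by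
    ext X
    simp only [RAR, Set.mem_inter_iff, Set.mem_iUnion, Subtype.exists, exists_prop]
    constructor
    · rintro ⟨⟨l, hl, h1⟩, h2⟩
      exact ⟨l, hl, h1, h2⟩
    · rintro ⟨l, hl, h1, h2⟩
      exact ⟨⟨l, hl, h1⟩, h2⟩
  rw [e, measure_iUnion]
  · intro a b hab
    have := cyl_disjoint (FPR_free h k) (x := 0) a.2 b.2 (fun h => hab (Subtype.ext h))
    exact this.mono (fun X hX => hX.1.1) (fun X hX => hX.1.1)
  · intro l
    exact ((measurableSet_cyl 0 _).inter (measurable_tl _ hA)).inter hG

lemma fp_localR (h : Site d →+ ℝ) {A : Set (ℕ → Site d)}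
    (hA : MeasurableSet A) (hT : TInv A) (hsub : A ⊆ StayR h) {G : Set (ℕ → Site d)}
    (hG : MeasurableSet G) {n : ℕ}
    (hloc : ∀ X Y : ℕ → Site d, (∀ i ≤ n, X i = Y i) → X ∈ G → Y ∈ G) :
    ∀ᶠ k : ℕ in atTop, annM μ 0 (RAR h A k ∩ G) =
      annM μ 0 (RAR h Set.univ k ∩ G) * annealed μ 0 A := by
  obtain ⟨L, hL⟩ := exists_boundR h
  filter_upwards [eventually_gt_atTop (L * n)] with k hk
  rw [annM_RAR_inter μ h hA k hG, annM_RAR_inter μ h MeasurableSet.univ k hG,
    ← ENNReal.tsum_mul_right]
  refine tsum_congr fun l => ?_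
  have hlen : n ≤ (l : List (Dir d)).length := by
    by_contra hlt
    have h1 := height_boundR hL (l : List (Dir d))
    have h2 := l.2.2
    have h3 : ((L : ℝ) * (l : List (Dir d)).length) ≤ L * n := by
      have h31 : (l : List (Dir d)).length ≤ n := by omega
      have h32 : ((l : List (Dir d)).length : ℝ) ≤ n := by exact_mod_cast h31
      exact mul_le_mul_of_nonneg_left h32 (by (clear * -; positivity))
    have h4 := le_abs_self (h (dsp (l : List (Dir d))))
    have h5 : ((L * n : ℕ) : ℝ) < k := by exact_mod_cast hk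
    push_cast at h5
    (clear * - h1 h2 h3 h4 h5; (clear * - h1 h2 h3 h4 h5; linarith))
  by_cases hc : ∃ X ∈ cyl 0 (l : List (Dir d)), X ∈ G
  · obtain ⟨X, hX, hXG⟩ := hc
    have hsubG : cyl 0 (l : List (Dir d)) ⊆ G := by
      intro Y hY
      refine hloc X Y (fun i hi => ?_) hXG
      rw [hX i (hi.trans hlen), hY i (hi.trans hlen)]
    rw [Set.inter_eq_left.2 (Set.inter_subset_left.trans hsubG),
      Set.inter_eq_left.2 (Set.inter_subset_left.trans hsubG)]
    simp only [Set.preimage_univ, Set.inter_univ]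
    rw [annM_apply μ 0 ((measurableSet_cyl 0 _).inter (measurable_tl _ hA)),
      annM_apply μ 0 (measurableSet_cyl 0 _), annealed_cyl', annealed_freshR μ h ?_ hA hT hsub]
    intro a b hab hb
    exact lt_of_lt_of_le (l.2.1 a b hab hb) l.2.2
  · have e : ∀ A : Set (ℕ → Site d),
        (cyl 0 (l : List (Dir d)) ∩ tl (l : List (Dir d)).length ⁻¹' A) ∩ G = ∅ := by
      intro A
      ext X
      simp only [Set.mem_inter_iff, Set.mem_empty_iff_false, iff_false]
      rintro ⟨⟨h1, _⟩, h2⟩
      exact hc ⟨X, h1, h2⟩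
    rw [e, e]
    simp

/-- Asymptotic independence of the path after the first passage at a high level. -/
theorem fp_limitR (h : Site d →+ ℝ) {A : Set (ℕ → Site d)}
    (hA : MeasurableSet A) (hT : TInv A) (hsub : A ⊆ StayR h) {G : Set (ℕ → Site d)}
    (hG : MeasurableSet G) :
    Tendsto (fun k => (annM μ 0 (RAR h A k ∩ G)).toReal -
      (annealed μ 0 A).toReal * (annM μ 0 (RAR h Set.univ k ∩ G)).toReal) atTop (𝓝 0) := by
  have hp0 : 0 ≤ (annealed μ 0 A).toReal := ENNReal.toReal_nonneg
  have hp1 : (annealed μ 0 A).toReal ≤ 1 := by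
    rw [← annM_apply μ 0 hA]
    exact ENNReal.toReal_le_of_le_ofReal zero_le_one (by simpa only [ENNReal.ofReal_one] using prob_le_one)
  have hbase : ∀ G : Set (ℕ → Site d), MeasurableSet G →
      (∃ n : ℕ, ∀ X Y : ℕ → Site d, (∀ i ≤ n, X i = Y i) → X ∈ G → Y ∈ G) →
      Tendsto (fun k => (annM μ 0 (RAR h A k ∩ G)).toReal -
      (annealed μ 0 A).toReal * (annM μ 0 (RAR h Set.univ k ∩ G)).toReal) atTop (𝓝 0) := by
    rintro G hG ⟨n, hloc⟩
    refine tendsto_const_nhds.congr' ?_
    filter_upwards [fp_localR μ h hA hT hsub hG hloc] with k hk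
    rw [hk, ENNReal.toReal_mul]
    ring
  have huniv := hbase Set.univ MeasurableSet.univ ⟨0, fun _ _ _ _ => Set.mem_univ _⟩
  refine MeasurableSpace.induction_on_inter
    (C := fun G _ => Tendsto (fun k => (annM μ 0 (RAR h A k ∩ G)).toReal -
      (annealed μ 0 A).toReal * (annM μ 0 (RAR h Set.univ k ∩ G)).toReal) atTop (𝓝 0))
    (generateFrom_measurableCylinders (α := fun _ : ℕ => Site d)).symm
    isPiSystem_measurableCylinders ?_ ?_ ?_ ?_ G hG
  · simp only [Set.inter_empty, measure_empty, ENNReal.toReal_zero, mul_zero, sub_self, tendsto_const_nhds_iff]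
  · intro t ht
    exact hbase t (MeasurableSet.of_mem_measurableCylinders ht) (cylinder_local ht)
  · intro t ht ih
    have hdiff : ∀ (B : Set (ℕ → Site d)), MeasurableSet B →
        (annM μ 0 (B ∩ tᶜ)).toReal = (annM μ 0 (B ∩ Set.univ)).toReal -
          (annM μ 0 (B ∩ t)).toReal := by
      intro B hB
      rw [Set.inter_univ, ← measure_inter_add_sdiff B ht (μ := annM μ 0),
        ENNReal.toReal_add (measure_ne_top _ _) (measure_ne_top _ _), Set.sdiff_eq]
      ring
    have := huniv.sub ih
    rw [sub_zero] at this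
    refine this.congr fun k => ?_
    rw [hdiff _ (measurableSet_RAR h hA k), hdiff _ (measurableSet_RAR h MeasurableSet.univ k)]
    ring
  · intro f hdisj hf ih
    have hsum : Summable fun i => (annM μ 0 (f i)).toReal := by
      refine ENNReal.summable_toReal ?_
      rw [← measure_iUnion hdisj hf]
      exact measure_ne_top _ _
    have hU : ∀ (B : Set (ℕ → Site d)), MeasurableSet B →
        Summable (fun i => (annM μ 0 (B ∩ f i)).toReal) ∧
        (annM μ 0 (B ∩ ⋃ i, f i)).toReal = ∑' i, (annM μ 0 (B ∩ f i)).toReal := by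
      intro B hB
      have e : annM μ 0 (B ∩ ⋃ i, f i) = ∑' i, annM μ 0 (B ∩ f i) := by
        rw [Set.inter_iUnion, measure_iUnion]
        · intro i j hij
          exact (hdisj hij).mono Set.inter_subset_right Set.inter_subset_right
        · exact fun i => hB.inter (hf i)
      refine ⟨ENNReal.summable_toReal ?_, ?_⟩
      · rw [← e]; exact measure_ne_top _ _
      · rw [e, ENNReal.tsum_toReal_eq fun i => measure_ne_top _ _]
    have key : Tendsto (fun k => ∑' i, ((annM μ 0 (RAR h A k ∩ f i)).toReal -
      (annealed μ 0 A).toReal * (annM μ 0 (RAR h Set.univ k ∩ f i)).toReal)) atTop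
        (𝓝 (∑' _ : ℕ, (0 : ℝ))) := by
      refine tendsto_tsum_of_dominated_convergence (hsum.mul_left 2) ih ?_
      refine Eventually.of_forall fun k i => ?_
      have h1 : ∀ B : Set (ℕ → Site d), (annM μ 0 (B ∩ f i)).toReal ≤ (annM μ 0 (f i)).toReal :=
        fun B => ENNReal.toReal_mono (measure_ne_top _ _) (measure_mono Set.inter_subset_right)
      have h2 := h1 (RAR h A k)
      have h3 := h1 (RAR h Set.univ k)
      have h4 : 0 ≤ (annM μ 0 (RAR h A k ∩ f i)).toReal := ENNReal.toReal_nonneg
      have h5 : 0 ≤ (annM μ 0 (RAR h Set.univ k ∩ f i)).toReal := ENNReal.toReal_nonneg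
      have h6 : (annealed μ 0 A).toReal * (annM μ 0 (RAR h Set.univ k ∩ f i)).toReal ≤
          1 * (annM μ 0 (f i)).toReal := mul_le_mul hp1 h3 h5 zero_le_one
      have h7 := mul_nonneg hp0 h5
      rw [Real.norm_eq_abs, abs_le]
      constructor <;> linarith only [h2, h6, h7, h4]
    rw [tsum_zero] at key
    refine key.congr fun k => ?_
    obtain ⟨s1, e1⟩ := hU _ (measurableSet_RAR h hA k)
    obtain ⟨s2, e2⟩ := hU _ (measurableSet_RAR h MeasurableSet.univ k)
    rw [e1, e2, ← tsum_mul_left, ← Summable.tsum_sub s1 (s2.mul_left _)]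

/-- If the weights of `T_k` inside `G` tend to zero, and `G` is contained in every `T_k` up to
the null set of bad paths, then `G` is null. -/
lemma null_of_tendstoR (h : Site d →+ ℝ) {G : Set (ℕ → Site d)} (hG : MeasurableSet G)
    (hsub : ∀ X ∈ G, ∀ k : ℕ, ∃ n, (k : ℝ) ≤ h (X n)) {c : ℝ} (hc : c ≠ 0)
    (hlim : Tendsto (fun k => c * (annM μ 0 (RAR h Set.univ k ∩ G)).toReal) atTop (𝓝 0)) :
    annealed μ 0 G = 0 := by
  have h1 : ∀ k : ℕ, (annealed μ 0 G).toReal ≤ (annM μ 0 (RAR h Set.univ k ∩ G)).toReal := by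
    intro k
    refine ENNReal.toReal_mono (measure_ne_top _ _) ?_
    refine (annealed_inter_good μ 0 G).trans ?_
    rw [annM_apply μ 0 ((measurableSet_RAR h MeasurableSet.univ k).inter hG)]
    refine annealed_mono μ 0 ?_
    rintro X ⟨hX, hXg⟩
    exact ⟨mem_RAR_univ hXg (hsub X hX k), hX⟩
  have h2 : Tendsto (fun k => (annM μ 0 (RAR h Set.univ k ∩ G)).toReal) atTop (𝓝 0) := by
    have := hlim.const_mul c⁻¹
    rw [mul_zero] at this
    refine this.congr fun k => ?_
    rw [← mul_assoc, inv_mul_cancel₀ hc, one_mul]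
  have h3 : (annealed μ 0 G).toReal ≤ 0 := ge_of_tendsto' h2 h1
  have h4 : (annealed μ 0 G).toReal = 0 := le_antisymm h3 ENNReal.toReal_nonneg
  rcases (ENNReal.toReal_eq_zero_iff _).1 h4 with h5 | h5
  · exact h5
  · rw [← annM_apply μ 0 hG] at h5
    exact absurd h5 (measure_ne_top _ _)

lemma esc_unboundedR {h : Site d →+ ℝ} {X : ℕ → Site d} (hX : X ∈ EscR h) (k : ℝ) :
    ∃ n, k ≤ h (X n) :=
  (((tendsto_atTop.1 hX) k).exists)

/-- Invariant events are trivial given escape in a direction. -/
theorem zero_one_givenR (h : Site d →+ ℝ) {B : Set (ℕ → Site d)} (hB : MeasurableSet B)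
    (hT : TInv B) (hS : SInv B) :
    annealed μ 0 (EscR h ∩ B) = 0 ∨ annealed μ 0 (EscR h \ B) = 0 := by
  by_cases hb : annealed μ 0 (UpR h ∩ B) = 0
  · left
    by_contra hne
    exact upR_pos μ h hB hT hS hne hb
  · right
    have hA : MeasurableSet (UpR h ∩ B) := (measurableSet_upR h).inter hB
    have hTA : TInv (UpR h ∩ B) := tinv_inter (tinv_upR h) hT
    have hsub : UpR h ∩ B ⊆ StayR h := fun X hX => hX.1.1
    have h1 := fp_limitR μ h hA hTA hsub hB
    have h2 := fp_limitR μ h hA hTA hsub MeasurableSet.univ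
    have hb' : (annealed μ 0 (UpR h ∩ B)).toReal ≠ 0 := by
      rw [← annM_apply μ 0 hA] at hb ⊢
      exact (ENNReal.toReal_ne_zero).2 ⟨hb, measure_ne_top _ _⟩
    have hEm : MeasurableSet (EscR h \ B) := (measurableSet_escR h).diff hB
    refine null_of_tendstoR μ h hEm (fun X hX k => esc_unboundedR hX.1 k) hb' ?_
    -- the part of `RAR` outside `B`
    have h3 := h1.sub h2
    rw [sub_zero] at h3
    have h4 : Tendsto (fun k => (annealed μ 0 (UpR h ∩ B)).toReal *
        (annM μ 0 (RAR h Set.univ k \ B)).toReal) atTop (𝓝 0) := by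
      refine h3.congr fun k => ?_
      have e1 : RAR h (UpR h ∩ B) k ∩ B = RAR h (UpR h ∩ B) k ∩ Set.univ := by
        rw [Set.inter_univ, Set.inter_eq_left]
        intro X hX
        simp only [RAR, Set.mem_iUnion] at hX
        obtain ⟨l, _, _, hX2⟩ := hX
        exact (sinv_tl hS l.length X).1 hX2.2
      have e2 : (annM μ 0 (RAR h Set.univ k ∩ Set.univ)).toReal =
          (annM μ 0 (RAR h Set.univ k ∩ B)).toReal + (annM μ 0 (RAR h Set.univ k \ B)).toReal := by
        rw [Set.inter_univ, ← ENNReal.toReal_add (measure_ne_top _ _) (measure_ne_top _ _),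
          measure_inter_add_sdiff _ hB]
      rw [e1, e2]
      ring
    refine squeeze_zero (fun k => mul_nonneg ENNReal.toReal_nonneg ENNReal.toReal_nonneg)
      (fun k => ?_) h4
    refine mul_le_mul_of_nonneg_left ?_ ENNReal.toReal_nonneg
    refine ENNReal.toReal_mono (measure_ne_top _ _) (measure_mono ?_)
    rintro X ⟨hX1, hX2⟩
    exact ⟨hX1, hX2.2⟩

/-- If escape upwards has positive probability, then unbounded heights imply escape. -/
theorem esc_of_unboundedR (h : Site d →+ ℝ) (hpos : annealed μ 0 (EscR h) ≠ 0) :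
    annealed μ 0 ({X | ∀ k : ℕ, ∃ n, (k : ℝ) ≤ h (X n)} \ EscR h) = 0 := by
  have hp : annealed μ 0 (UpR h) ≠ 0 := by
    have := upR_pos μ h MeasurableSet.univ (B := Set.univ) (fun _ _ => by simp)
      (fun _ => by simp) (by simpa using hpos)
    simpa only [ne_eq, Set.inter_univ] using this
  have hGm : MeasurableSet ({X : ℕ → Site d | ∀ k : ℕ, ∃ n, (k : ℝ) ≤ h (X n)} \ EscR h) := by
    refine MeasurableSet.diff ?_ (measurableSet_escR h)
    have : {X : ℕ → Site d | ∀ k : ℕ, ∃ n, (k : ℝ) ≤ h (X n)} =
        ⋂ k : ℕ, ⋃ n : ℕ, {X | (k : ℝ) ≤ h (X n)} := by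
      ext X; simp only [Set.mem_ofPred_eq, Set.mem_iInter, Set.mem_iUnion]
    rw [this]
    refine MeasurableSet.iInter fun k => MeasurableSet.iUnion fun n => ?_
    exact measurableSet_local n _ fun X Y hXY hX => by rw [← hXY n le_rfl]; exact hX
  have hp' : (annealed μ 0 (UpR h)).toReal ≠ 0 := by
    rw [← annM_apply μ 0 (measurableSet_upR h)] at hp ⊢
    exact (ENNReal.toReal_ne_zero).2 ⟨hp, measure_ne_top _ _⟩
  refine null_of_tendstoR μ h hGm (fun X hX k => hX.1 k) hp' ?_
  have h1 := (fp_limitR μ h (measurableSet_upR h) (tinv_upR h) (fun X hX => hX.1) hGm).neg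
  rw [neg_zero] at h1
  refine h1.congr fun k => ?_
  have e : RAR h (UpR h) k ∩ ({X | ∀ k : ℕ, ∃ n, (k : ℝ) ≤ h (X n)} \ EscR h) = ∅ := by
    ext X
    simp only [Set.mem_inter_iff, Set.mem_empty_iff_false, iff_false]
    rintro ⟨hX, hX2⟩
    simp only [RAR, Set.mem_iUnion] at hX
    obtain ⟨l, _, _, hX3⟩ := hX
    exact hX2.2 ((sinv_tl (sinv_escR h) l.length X).1 hX3.2)
  rw [e]
  simp only [measure_empty, ENNReal.toReal_zero, zero_sub, neg_neg]

end Vale.Agent.P147.Z
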