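import Vale.Agent.P147.Z.Tree
attribute [-instance] ProperSMul.toContinuousSMul IsTopologicalTorsor.toContinuousSMul IdemSemiring.toCanonicallyOrderedAdd IdemSemiring.toMulLeftMono IdemSemiring.toMulRightMono AddQuantale.instAddLeftMono AddQuantale.instAddRightMono Quantale.instMulLeftMono Quantale.instMulRightMono FiniteDimensional.rclike_to_real IsScalarTower.complexToReal FiniteDimensional.complexToReal

/-! Quenched estimates: first visit decomposition and Doob's maximal inequality, as path sums. -/

open MeasureTheory Filter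
open scoped ENNReal

namespace Vale.Agent.P147.Z

variable {d : ℕ}

lemma sum_rowZ (p : Row d) : ∑ u, ENNReal.ofReal (p.1 u) = 1 := by
  have h := p.2
  rw [← ENNReal.ofReal_sum_of_nonneg (fun u _ => h.1 u), h.2, ENNReal.ofReal_one]

lemma sum_qwds (ω : Env d) (x : Site d) (n : ℕ) : ∑ l ∈ wds d n, qw ω x l = 1 := by
  induction n generalizing x with
  | zero => simp
  | succ n ih =>
    rw [sum_wds_succ]
    simp only [qw_cons]
    simp only [← Finset.mul_sum, ih, mul_one]
    exact sum_rowZ _

/-- Paths from `v` whose exit sites are in `D` and that end in `B`. -/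
def EB (D B : Set (Site d)) (v : Site d) : Set (List (Dir d)) :=
  {l | (∀ x ∈ exits v l, x ∈ D) ∧ v + dsp l ∈ B}

open Classical in
/-- Exit sites of a path from `v` before it leaves `D`. -/
noncomputable def exD (D : Set (Site d)) : Site d → List (Dir d) → Finset (Site d)
  | _, [] => ∅
  | v, u :: g => if v ∈ D then insert v (exD D (v + vec u) g) else ∅

@[simp] lemma exD_nil (D : Set (Site d)) (v : Site d) : exD D v [] = ∅ := rfl

open Classical in
lemma exD_cons (D : Set (Site d)) (v : Site d) (u : Dir d) (g : List (Dir d)) :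
    exD D v (u :: g) = if v ∈ D then insert v (exD D (v + vec u) g) else ∅ := rfl

lemma exD_sub (D : Set (Site d)) (v : Site d) (g : List (Dir d)) :
    ∀ x ∈ exD D v g, x ∈ D := by
  induction g generalizing v with
  | nil => simp
  | cons u g ih =>
    intro x hx
    rw [exD_cons] at hx
    split_ifs at hx with h
    · rw [Finset.mem_insert] at hx
      rcases hx with rfl | hx
      · exact h
      · exact ih _ x hx
    · simp at hx

lemma EB_free {D B : Set (Site d)} (hDB : Disjoint D B) (v : Site d) : Free (EB D B v) := by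
  intro a ha b hb
  by_contra hne
  have h1 : v + dsp a ∈ exits v (a ++ b) := mem_exits.2 ⟨a, b, rfl, hne, rfl⟩
  exact (Set.disjoint_left.1 hDB) (hb.1 _ h1) ha.2

lemma tsum_qw_le_one {S : Set (List (Dir d))} (hS : Free S) (ω : Env d) (x : Site d) :
    ∑' l : S, qw ω x (l : List (Dir d)) ≤ 1 := by
  simp only [← quenched_cyl]
  rw [← measure_iUnion]
  · exact prob_le_one
  · intro a b hab
    exact cyl_disjoint hS a.2 b.2 (fun h => hab (Subtype.ext h))
  · intro a
    exact measurableSet_cyl _ _

/-- Quenched probability to leave `D` through `B`. -/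
noncomputable def hB (D B : Set (Site d)) (ω : Env d) (v : Site d) : ℝ≥0∞ :=
  ∑' l : EB D B v, qw ω v (l : List (Dir d))

lemma hB_le_one {D B : Set (Site d)} (hDB : Disjoint D B) (ω : Env d) (v : Site d) :
    hB D B ω v ≤ 1 := tsum_qw_le_one (EB_free hDB v) ω v

lemma measurable_hB (D B : Set (Site d)) (v : Site d) :
    Measurable (fun ω : Env d => hB D B ω v) :=
  Measurable.tsum fun l => measurable_qw v (l : List (Dir d))

/-- The exit probability is superharmonic in `D`. -/
lemma hB_super {D B : Set (Site d)} (ω : Env d) {v : Site d} (hv : v ∈ D) :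
    ∑ u : Dir d, ENNReal.ofReal ((ω v).1 u) * hB D B ω (v + vec u) ≤ hB D B ω v := by
  have hmem : ∀ p : (Σ u : Dir d, EB D B (v + vec u)), p.1 :: (p.2 : List (Dir d)) ∈ EB D B v := by
    rintro ⟨u, l, hl⟩
    refine ⟨?_, ?_⟩
    · intro x hx
      rw [exits_cons, Finset.mem_insert] at hx
      rcases hx with rfl | hx
      · exact hv
      · exact hl.1 x hx
    · have := hl.2
      simpa [add_assoc] using this
  have hinj : Function.Injective (fun p : (Σ u : Dir d, EB D B (v + vec u)) =>
      (⟨p.1 :: (p.2 : List (Dir d)), hmem p⟩ : EB D B v)) := by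
    rintro ⟨u, l, hl⟩ ⟨u', l', hl'⟩ h
    simp only [Subtype.mk.injEq, List.cons.injEq] at h
    obtain ⟨rfl, rfl⟩ := h
    rfl
  calc ∑ u : Dir d, ENNReal.ofReal ((ω v).1 u) * hB D B ω (v + vec u)
      = ∑' u : Dir d, ∑' l : EB D B (v + vec u),
          qw ω v (u :: (l : List (Dir d))) := by
        rw [tsum_fintype]
        refine Finset.sum_congr rfl fun u _ => ?_
        simp only [qw_cons, ENNReal.tsum_mul_left, hB]
    _ = ∑' p : (Σ u : Dir d, EB D B (v + vec u)), qw ω v (p.1 :: (p.2 : List (Dir d))) :=
        (ENNReal.tsum_sigma' (fun p : (Σ u : Dir d, EB D B (v + vec u)) =>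
          qw ω v (p.1 :: (p.2 : List (Dir d))))).symm
    _ ≤ hB D B ω v := ENNReal.tsum_comp_le_tsum_of_injective hinj
        (fun l : EB D B v => qw ω v (l : List (Dir d)))

/-- First visit of a finite set of sites. -/
lemma first_visit {S : Finset (Site d)} {y : Site d} {l : List (Dir d)}
    (h : ¬ Disjoint (exits y l) S) :
    ∃ a b, l = a ++ b ∧ b ≠ [] ∧ Disjoint (exits y a) S ∧ y + dsp a ∈ S := by
  induction l generalizing y with
  | nil => simp at h
  | cons u l ih =>
    by_cases hy : y ∈ S
    · exact ⟨[], u :: l, rfl, by simp, by simp, by simpa using hy⟩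
    · have h' : ¬ Disjoint (exits (y + vec u) l) S := by
        intro h'
        apply h
        rw [exits_cons, Finset.disjoint_insert_left]
        exact ⟨hy, h'⟩
      obtain ⟨a, b, rfl, hb, h1, h2⟩ := ih h'
      refine ⟨u :: a, b, rfl, hb, ?_, ?_⟩
      · rw [exits_cons, Finset.disjoint_insert_left]
        exact ⟨hy, h1⟩
      · simpa [add_assoc] using h2

/-- Paths from `y` up to the first visit of `S`. -/
def FV (S : Finset (Site d)) (y : Site d) : Set (List (Dir d)) :=
  {l | Disjoint (exits y l) S ∧ y + dsp l ∈ S}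

lemma FV_free (S : Finset (Site d)) (y : Site d) : Free (FV S y) := by
  intro a ha b hb
  by_contra hne
  have h1 : y + dsp a ∈ exits y (a ++ b) := mem_exits.2 ⟨a, b, rfl, hne, rfl⟩
  exact (Finset.disjoint_left.1 hb.1) h1 ha.2

/-- The quenched weight of the exit paths that meet `S` is at most the largest exit probability
from a site of `S`. -/
lemma meet_le {D B : Set (Site d)} (ω : Env d) (y : Site d) (S : Finset (Site d))
    {T : Set (List (Dir d))} (hT : T ⊆ EB D B y) (P : List (Dir d) → Prop) [DecidablePred P]
    (hP : ∀ l ∈ T, P l → ¬ Disjoint (exits y l) S) :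
    ∑' l : T, qw ω y (l : List (Dir d)) * (if P l then 1 else 0) ≤ S.sup (hB D B ω) := by
  classical
  have h1 : ∑' l : T, qw ω y (l : List (Dir d)) * (if P l then 1 else 0) =
      ∑' l : {l : List (Dir d) // l ∈ T ∧ P l}, qw ω y (l : List (Dir d)) := by
    rw [tsum_subtype T (fun l => qw ω y l * (if P l then 1 else 0))]
    rw [show (∑' l : {l : List (Dir d) // l ∈ T ∧ P l}, qw ω y (l : List (Dir d))) =
      ∑' l : ({l : List (Dir d) | l ∈ T ∧ P l} : Set (List (Dir d))), qw ω y (l : List (Dir d))
      from rfl]
    rw [tsum_subtype {l : List (Dir d) | l ∈ T ∧ P l} (fun l => qw ω y l)]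
    refine tsum_congr fun l => ?_
    simp only [Set.indicator_apply, Set.mem_ofPred_eq]
    by_cases h1 : l ∈ T <;> by_cases h2 : P l <;> simp [h1, h2]
  have hdec : ∀ l : {l : List (Dir d) // l ∈ T ∧ P l}, ∃ p : (Σ a : FV S y, EB D B (y + dsp a.1)),
      (p.1 : List (Dir d)) ++ (p.2 : List (Dir d)) = l := by
    rintro ⟨l, hl, hPl⟩
    obtain ⟨a, b, rfl, hb, h1, h2⟩ := first_visit (hP l hl hPl)
    refine ⟨⟨⟨a, h1, h2⟩, ⟨b, ?_, ?_⟩⟩, rfl⟩
    · intro x hx
      exact (hT hl).1 x (by rw [exits_append]; exact Finset.mem_union_right _ hx)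
    · have := (hT hl).2
      rwa [dsp_append, ← add_assoc] at this
  choose f hf using hdec
  have hinj : Function.Injective f := by
    intro l l' h
    apply Subtype.ext
    rw [← hf l, ← hf l', h]
  rw [h1]
  calc ∑' l : {l : List (Dir d) // l ∈ T ∧ P l}, qw ω y (l : List (Dir d))
      = ∑' l : {l : List (Dir d) // l ∈ T ∧ P l},
          (fun p : (Σ a : FV S y, EB D B (y + dsp a.1)) =>
            qw ω y ((p.1 : List (Dir d)) ++ (p.2 : List (Dir d)))) (f l) := by
        refine tsum_congr fun l => ?_
        simp only [hf l]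
    _ ≤ ∑' p : (Σ a : FV S y, EB D B (y + dsp a.1)),
          qw ω y ((p.1 : List (Dir d)) ++ (p.2 : List (Dir d))) :=
        ENNReal.tsum_comp_le_tsum_of_injective hinj _
    _ = ∑' a : FV S y, ∑' b : EB D B (y + dsp a.1),
          qw ω y ((a : List (Dir d)) ++ (b : List (Dir d))) := ENNReal.tsum_sigma' _
    _ = ∑' a : FV S y, qw ω y (a : List (Dir d)) * hB D B ω (y + dsp (a : List (Dir d))) := by
        refine tsum_congr fun a => ?_
        simp only [qw_append, ENNReal.tsum_mul_left, hB]
    _ ≤ ∑' a : FV S y, qw ω y (a : List (Dir d)) * S.sup (hB D B ω) := by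
        refine ENNReal.tsum_le_tsum fun a => ?_
        gcongr
        exact Finset.le_sup (f := hB D B ω) a.2.2
    _ ≤ 1 * S.sup (hB D B ω) := by
        rw [ENNReal.tsum_mul_right]
        gcongr
        exact tsum_qw_le_one (FV_free S y) ω y
    _ = _ := one_mul _

/-- Elementary inequality behind Doob's maximal inequality. -/
lemma log_step {M h : ℝ} (hM : 0 < M) (hMh : M ≤ h) :
    h + h * Real.log (1 / h) ≤ M + h * Real.log (1 / M) := by
  have hh : 0 < h := hM.trans_le hMh
  rw [one_div, one_div, Real.log_inv, Real.log_inv]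
  have h1 := Real.log_le_sub_one_of_pos (div_pos hM hh)
  rw [Real.log_div hM.ne' hh.ne'] at h1
  have h2 := mul_le_mul_of_nonneg_left h1 hh.le
  have h3 : h * (M / h - 1) = M - h := by field_simp
  rw [h3] at h2
  nlinarith

/-- **Doob's maximal inequality** for the quenched exit probability, as a path sum. -/
lemma doob {D B : Set (Site d)} (hDB : Disjoint D B) (ω : Env d) (k : ℕ) (v : Site d) {M : ℝ}
    (hM : 0 < M) (hM1 : M ≤ 1) :
    ∑ g ∈ wds d k, qw ω v g * max (ENNReal.ofReal M) ((exD D v g).sup (hB D B ω)) ≤
      ENNReal.ofReal M + hB D B ω v * ENNReal.ofReal (Real.log (1 / M)) := by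
  induction k generalizing v M with
  | zero => simp
  | succ k ih =>
    rw [sum_wds_succ]
    by_cases hv : v ∈ D
    · -- the new maximum
      have hle1 := hB_le_one hDB ω v
      set h := hB D B ω v with hh
      have hfin : h ≠ ⊤ := (hle1.trans_lt ENNReal.one_lt_top).ne
      set M' : ℝ := max M h.toReal with hM'
      have hM'0 : 0 < M' := lt_max_of_lt_left hM
      have hM'1 : M' ≤ 1 := max_le hM1 (by
        rw [← ENNReal.toReal_one]
        exact ENNReal.toReal_mono ENNReal.one_ne_top hle1)
      have hofM' : ENNReal.ofReal M' = max (ENNReal.ofReal M) h := by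
        rw [hM', ENNReal.ofReal_max, ENNReal.ofReal_toReal hfin]
      have e1 : ∀ (u : Dir d) (g : List (Dir d)),
          max (ENNReal.ofReal M) ((exD D v (u :: g)).sup (hB D B ω)) =
          max (ENNReal.ofReal M') ((exD D (v + vec u) g).sup (hB D B ω)) := by
        intro u g
        classical
        rw [exD_cons, if_pos hv, Finset.sup_insert, hofM', max_assoc]
      calc ∑ u : Dir d, ∑ g ∈ wds d k, qw ω v (u :: g) *
            max (ENNReal.ofReal M) ((exD D v (u :: g)).sup (hB D B ω))
          = ∑ u : Dir d, ENNReal.ofReal ((ω v).1 u) * ∑ g ∈ wds d k, qw ω (v + vec u) g *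
            max (ENNReal.ofReal M') ((exD D (v + vec u) g).sup (hB D B ω)) := by
            refine Finset.sum_congr rfl fun u _ => ?_
            rw [Finset.mul_sum]
            refine Finset.sum_congr rfl fun g _ => ?_
            rw [e1, qw_cons, mul_assoc]
        _ ≤ ∑ u : Dir d, ENNReal.ofReal ((ω v).1 u) * (ENNReal.ofReal M' +
            hB D B ω (v + vec u) * ENNReal.ofReal (Real.log (1 / M'))) := by
            refine Finset.sum_le_sum fun u _ => ?_
            gcongr
            exact ih (v + vec u) hM'0 hM'1
        _ = (∑ u : Dir d, ENNReal.ofReal ((ω v).1 u)) * ENNReal.ofReal M' +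
            (∑ u : Dir d, ENNReal.ofReal ((ω v).1 u) * hB D B ω (v + vec u)) *
              ENNReal.ofReal (Real.log (1 / M')) := by
            rw [Finset.sum_mul, Finset.sum_mul, ← Finset.sum_add_distrib]
            refine Finset.sum_congr rfl fun u _ => ?_
            ring
        _ ≤ 1 * ENNReal.ofReal M' + h * ENNReal.ofReal (Real.log (1 / M')) := by
            rw [sum_rowZ]
            gcongr
            exact hB_super ω hv
        _ ≤ ENNReal.ofReal M + h * ENNReal.ofReal (Real.log (1 / M)) := by
            rw [one_mul]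
            have hl' : 0 ≤ Real.log (1 / M') := Real.log_nonneg (by
              rw [le_div_iff₀ hM'0]; linarith)
            have hl : 0 ≤ Real.log (1 / M) := Real.log_nonneg (by
              rw [le_div_iff₀ hM]; linarith)
            rw [← ENNReal.ofReal_toReal hfin, ← ENNReal.ofReal_mul ENNReal.toReal_nonneg,
              ← ENNReal.ofReal_mul ENNReal.toReal_nonneg,
              ← ENNReal.ofReal_add hM'0.le (mul_nonneg ENNReal.toReal_nonneg hl'),
              ← ENNReal.ofReal_add hM.le (mul_nonneg ENNReal.toReal_nonneg hl)]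
            refine ENNReal.ofReal_le_ofReal ?_
            rcases le_total M h.toReal with hc | hc
            · rw [hM', max_eq_right hc]
              exact log_step hM hc
            · rw [hM', max_eq_left hc]
    · have e1 : ∀ (u : Dir d) (g : List (Dir d)),
          max (ENNReal.ofReal M) ((exD D v (u :: g)).sup (hB D B ω)) = ENNReal.ofReal M := by
        intro u g
        classical
        rw [exD_cons, if_neg hv]
        simp
      calc _ = ∑ u : Dir d, ∑ g ∈ wds d k, qw ω v (u :: g) * ENNReal.ofReal M := by
            refine Finset.sum_congr rfl fun u _ => Finset.sum_congr rfl fun g _ => ?_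
            rw [e1]
        _ = (∑ g ∈ wds d (k + 1), qw ω v g) * ENNReal.ofReal M := by
            rw [sum_wds_succ, Finset.sum_mul]
            refine Finset.sum_congr rfl fun u _ => ?_
            rw [Finset.sum_mul]
        _ = ENNReal.ofReal M := by rw [sum_qwds, one_mul]
        _ ≤ _ := le_self_add

end Vale.Agent.P147.Z
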