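import Vale.Agent.P147.Z.QBase

/-! The sign-union law in real directions. -/

open MeasureTheory Filter Topology
open scoped ENNReal

namespace Vale.Agent.P147.Z

variable {d : ℕ}

open Classical in
/-- Number of proper starting segments with the property `P`. -/
noncomputable def kcnt (P : List (Dir d) → Prop) (l : List (Dir d)) : ℕ :=
  ((Finset.range l.length).filter (fun i => P (l.take i))).card

open Classical in
lemma kcnt_take (P : List (Dir d) → Prop) {l : List (Dir d)} {i : ℕ} (hi : i ≤ l.length) :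
    kcnt P (l.take i) = ((Finset.range i).filter (fun j => P (l.take j))).card := by
  have hlen : (l.take i).length = i := by simp only [List.length_take, hi, inf_of_le_left]
  rw [kcnt, hlen]
  congr 1
  apply Finset.filter_congr
  intro j hj
  rw [Finset.mem_range] at hj
  rw [List.take_take, min_eq_left hj.le]

lemma kcnt_append_lt (P : List (Dir d) → Prop) {a b : List (Dir d)} (ha : P a) (hb : b ≠ []) :
    kcnt P a < kcnt P (a ++ b) := by
  classical
  have h1 : kcnt P a =
      ((Finset.range a.length).filter (fun j => P ((a ++ b).take j))).card := by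
    have := kcnt_take P (l := a ++ b) (i := a.length) (by simp only [List.length_append, le_add_iff_nonneg_right, zero_le])
    rwa [List.take_left] at this
  rw [h1, kcnt]
  apply Finset.card_lt_card
  rw [Finset.ssubset_iff_of_subset]
  · refine ⟨a.length, ?_, ?_⟩
    · rw [Finset.mem_filter, Finset.mem_range]
      refine ⟨?_, ?_⟩
      · have : 0 < b.length := List.length_pos_of_ne_nil hb
        simp [this]
      · rw [List.take_left]; exact ha
    · simp
  · intro j hj
    rw [Finset.mem_filter, Finset.mem_range] at hj ⊢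
    exact ⟨by simp; omega, hj.2⟩

lemma kcnt_nest (P : List (Dir d) → Prop) {l : List (Dir d)} {m : ℕ} (hl : kcnt P l = m + 1) :
    ∃ a v c, l = a ++ v :: c ∧ P a ∧ kcnt P a = m := by
  classical
  set F := (Finset.range l.length).filter (fun i => P (l.take i)) with hF
  have hcard : F.card = m + 1 := hl
  have hne : F.Nonempty := by rw [← Finset.card_pos, hcard]; omega
  set i := F.max' hne with hi
  have hiF : i ∈ F := F.max'_mem hne
  rw [hF, Finset.mem_filter, Finset.mem_range] at hiF
  have hdrop : l.drop i ≠ [] := by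
    intro h0
    have := congrArg List.length h0
    simp only [List.length_drop, List.length_nil] at this
    omega
  obtain ⟨v, c, hvc⟩ := List.exists_cons_of_ne_nil hdrop
  refine ⟨l.take i, v, c, ?_, hiF.2, ?_⟩
  · rw [← hvc, List.take_append_drop]
  · rw [kcnt_take P hiF.1.le]
    have : (Finset.range i).filter (fun j => P (l.take j)) = F.erase i := by
      ext j
      rw [Finset.mem_filter, Finset.mem_range, Finset.mem_erase, hF, Finset.mem_filter,
        Finset.mem_range]
      constructor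
      · rintro ⟨h1, h2⟩
        exact ⟨h1.ne, by omega, h2⟩
      · rintro ⟨h1, h2, h3⟩
        refine ⟨lt_of_le_of_ne (F.le_max' j ?_) h1, h3⟩
        rw [hF, Finset.mem_filter, Finset.mem_range]
        exact ⟨h2, h3⟩
    rw [this, Finset.card_erase_of_mem (by rw [hF, Finset.mem_filter, Finset.mem_range]
                                           exact hiF), hcard]
    rfl

/-- Lists with the property `P`, exactly `m` proper starting segments of which have this property,
that stay at heights at most `s`. -/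
def KSR (h : Site d →+ ℝ) (y : Site d) (s : ℝ) (P : List (Dir d) → Prop) (m : ℕ) :
    Set (List (Dir d)) :=
  {l | P l ∧ kcnt P l = m ∧ ∀ a b, l = a ++ b → h (y + dsp a) ≤ s}

lemma KSR_free (h : Site d →+ ℝ) (y : Site d) (s : ℝ) (P : List (Dir d) → Prop) (m : ℕ) :
    Free (KSR h y s P m) := by
  intro a ha b hb
  by_contra hne
  have := kcnt_append_lt P ha.1 hne
  rw [ha.2.1, hb.2.1] at this
  exact lt_irrefl _ this

lemma KSR_nest {h : Site d →+ ℝ} {y : Site d} {s : ℝ} {P : List (Dir d) → Prop} {u : Dir d}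
    (hP : ∀ l, P l → s < h (y + dsp l) + h (vec u)) {m : ℕ} {l : List (Dir d)}
    (hl : l ∈ KSR h y s P (m + 1)) :
    ∃ a ∈ KSR h y s P m, ∃ v c, l = a ++ v :: c ∧ v ≠ u := by
  obtain ⟨a, v, c, hac, ha, hm⟩ := kcnt_nest P hl.2.1
  refine ⟨a, ⟨ha, hm, ?_⟩, v, c, hac, ?_⟩
  · intro a' b' hab
    exact hl.2.2 a' (b' ++ v :: c) (by rw [hac, hab, List.append_assoc])
  · rintro rfl
    have := hl.2.2 (a ++ [v]) c (by rw [hac]; simp)
    rw [dsp_append, ← add_assoc, map_add] at this
    have h1 := hP a ha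
    simp only [dsp, List.map_cons, List.map_nil, List.sum_cons, List.sum_nil, add_zero] at this h1
    linarith only [h1, this]

/-- Geometric decay. -/
lemma kal_nullR (ν : Measure (ℕ → Site d)) [IsProbabilityMeasure ν] {h : Site d →+ ℝ}
    {y : Site d} {s : ℝ} {P : List (Dir d) → Prop} {u : Dir d}
    (hP : ∀ l, P l → s < h (y + dsp l) + h (vec u)) {p : ℝ≥0∞} (hp : p ≠ 0)
    (hν : ∀ l, P l → p * ν (cyl y l) ≤ ν (cyl y (l ++ [u]))) :
    ν (⋂ m, ⋃ l ∈ KSR h y s P m, cyl y l) = 0 := by
  have hstep : ∀ m, ν (⋃ l ∈ KSR h y s P (m + 1), cyl y l) ≤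
      (1 - p) * ν (⋃ l ∈ KSR h y s P m, cyl y l) := by
    intro m
    have hsub : (⋃ l ∈ KSR h y s P (m + 1), cyl y l) ⊆
        ⋃ a ∈ KSR h y s P m, (cyl y a \ cyl y (a ++ [u])) := by
      intro X hX
      simp only [Set.mem_iUnion] at hX ⊢
      obtain ⟨l, hl, hXl⟩ := hX
      obtain ⟨a, ha, v, c, hac, hv⟩ := KSR_nest hP hl
      refine ⟨a, ha, ?_, ?_⟩
      · intro n hn
        have := hXl n (by rw [hac]; simp only [List.length_append, List.length_cons]; omega)
        rw [this, hac, List.take_append_of_le_length hn]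
      · intro hXu
        have h1 : X (a ++ [u]).length = y + dsp (a ++ [u]) :=
          cyl_pos hXu (b := []) (by simp)
        have h2 : X (a ++ [v]).length = y + dsp (a ++ [v]) :=
          cyl_pos hXl (b := c) (by rw [hac]; simp)
        have h3 : (a ++ [u]).length = (a ++ [v]).length := by simp
        rw [h3, h2] at h1
        have h4 : vec v = vec u := by simpa only [dsp, List.map_append, List.map_cons, List.map_nil, List.sum_append, List.sum_cons, List.sum_nil,     add_zero, add_right_inj] using h1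
        exact hv (vec_injective h4)
    calc ν (⋃ l ∈ KSR h y s P (m + 1), cyl y l)
        ≤ ν (⋃ a ∈ KSR h y s P m, (cyl y a \ cyl y (a ++ [u]))) := measure_mono hsub
      _ ≤ ∑' a : KSR h y s P m, ν (cyl y a \ cyl y (a ++ [u])) :=
          measure_biUnion_le ν (Set.to_countable _) _
      _ ≤ ∑' a : KSR h y s P m, (1 - p) * ν (cyl y a) := by
          refine ENNReal.tsum_le_tsum fun a => ?_
          have hsub' : cyl y ((a : List (Dir d)) ++ [u]) ⊆ cyl y a := by
            intro X hX n hn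
            have := hX n (by simp; omega)
            rw [this, List.take_append_of_le_length hn]
          rw [measure_sdiff hsub' (measurableSet_cyl _ _).nullMeasurableSet
            (measure_ne_top _ _), ENNReal.sub_mul (fun _ _ => measure_ne_top _ _), one_mul]
          exact tsub_le_tsub_left (hν a a.2.1) _
      _ = (1 - p) * ∑' a : KSR h y s P m, ν (cyl y a) := ENNReal.tsum_mul_left
      _ = (1 - p) * ν (⋃ l ∈ KSR h y s P m, cyl y l) := by
          rw [measure_biUnion (Set.to_countable _)]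
          · intro a ha b hb hab
            exact cyl_disjoint (KSR_free h y s P m) ha hb hab
          · intro a _
            exact measurableSet_cyl _ _
  have hpow : ∀ m, ν (⋃ l ∈ KSR h y s P m, cyl y l) ≤ (1 - p) ^ m := by
    intro m
    induction m with
    | zero => rw [pow_zero]; exact prob_le_one
    | succ m ih =>
      refine (hstep m).trans ?_
      rw [pow_succ']
      exact mul_le_mul_right ih _
  have hlt : 1 - p < 1 := ENNReal.sub_lt_self ENNReal.one_ne_top one_ne_zero hp
  have htend := ENNReal.tendsto_pow_atTop_nhds_zero_of_lt_one hlt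
  refine le_antisymm (ge_of_tendsto' htend fun m => ?_) zero_le
  exact (measure_mono (Set.iInter_subset _ m)).trans (hpow m)

lemma kal_measR (h : Site d →+ ℝ) (y : Site d) (s : ℝ) (P : List (Dir d) → Prop) :
    MeasurableSet (⋂ m, ⋃ l ∈ KSR h y s P m, cyl y l) :=
  MeasurableSet.iInter fun _ => MeasurableSet.biUnion (Set.to_countable _)
    fun _ _ => measurableSet_cyl _ _

/-- Paths with infinitely many special times are covered. -/
lemma kal_coverR {h : Site d →+ ℝ} {y : Site d} {s : ℝ} {P : List (Dir d) → Prop}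
    {X : ℕ → Site d} (hg : X ∈ Good y) (hs : ∀ n, h (X n) ≤ s)
    (hf : ∀ N, ∃ n, N ≤ n ∧ ∃ l : List (Dir d), l.length = n ∧ X ∈ cyl y l ∧ P l) :
    X ∈ ⋂ m, ⋃ l ∈ KSR h y s P m, cyl y l := by
  classical
  have hL : ∀ n, ∃ l : List (Dir d), l.length = n ∧ X ∈ cyl y l := by
    intro n
    obtain ⟨l, hl, hXl⟩ := hg n
    exact ⟨l, mem_lists.1 hl, hXl⟩
  choose L hlen hcyl using hL
  have htake : ∀ {i n : ℕ}, i ≤ n → (L n).take i = L i := by
    intro i n hin
    obtain ⟨c, hc⟩ := cyl_inter (hcyl i) (hcyl n) (by rw [hlen, hlen]; exact hin)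
    rw [hc, List.take_append_of_le_length (by rw [hlen]), List.take_of_length_le (by rw [hlen])]
  have hinf : {n | P (L n)}.Infinite := by
    rw [Set.infinite_iff_exists_gt]
    intro N
    obtain ⟨n, hn, l, hl, hXl, hPl⟩ := hf (N + 1)
    refine ⟨n, ?_, by omega⟩
    have : l = L n := by
      obtain ⟨c, hc⟩ := cyl_inter (hcyl n) hXl (by rw [hlen, hl])
      have : c = [] := by
        have := congrArg List.length hc
        simp [hlen, hl] at this
        exact this
      rw [hc, this, List.append_nil]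
    rw [Set.mem_ofPred_eq, ← this]
    exact hPl
  rw [Set.mem_iInter]
  intro m
  simp only [Set.mem_iUnion]
  set n := Nat.nth (fun n => P (L n)) m with hn
  refine ⟨L n, ⟨?_, ?_, ?_⟩, hcyl n⟩
  · exact Nat.nth_mem_of_infinite hinf m
  · have h1 : Nat.count (fun n => P (L n)) n = m := Nat.count_nth_of_infinite hinf m
    rw [Nat.count_eq_card_filter_range] at h1
    rw [kcnt, hlen, ← h1]
    congr 1
    apply Finset.filter_congr
    intro i hi
    rw [Finset.mem_range] at hi
    rw [htake hi.le]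
  · intro a b hab
    rw [← cyl_pos (hcyl n) hab]
    exact hs _

/-- Either infinitely many new sites with the property `Q`, or a site with this property that is
visited infinitely often. -/
lemma kal_dichR {Q : Site d → Prop} {X : ℕ → Site d} (hX : ∃ᶠ n in atTop, Q (X n)) :
    (∀ N, ∃ n, N ≤ n ∧ Q (X n) ∧ ∀ i < n, X i ≠ X n) ∨
      ∃ z, Q z ∧ ∀ N, ∃ n, N ≤ n ∧ X n = z := by
  by_contra hcon
  rw [not_or] at hcon
  obtain ⟨h1, h2⟩ := hcon
  push Not at h1 h2
  obtain ⟨N, hN⟩ := h1
  have h3 : ∀ n, Q (X n) → ∃ i < N, X i = X n := by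
    intro n
    induction n using Nat.strong_induction_on with
    | _ n ih =>
      intro hn
      by_cases hnN : n < N
      · exact ⟨n, hnN, rfl⟩
      · obtain ⟨i, hi, hXi⟩ := hN n (by omega) hn
        obtain ⟨j, hj, hXj⟩ := ih i hi (by rw [hXi]; exact hn)
        exact ⟨j, hj, hXj.trans hXi⟩
  have h4 : ∀ i, Q (X i) → ∀ᶠ n in atTop, X n ≠ X i := by
    intro i hi
    obtain ⟨M, hM⟩ := h2 (X i) hi
    exact eventually_atTop.2 ⟨M, fun n hn => hM n hn⟩
  have h5 : ∀ᶠ n in atTop, ∀ i ∈ Finset.range N, Q (X i) → X n ≠ X i := by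
    rw [eventually_all_finset]
    intro i _
    by_cases hi : Q (X i)
    · filter_upwards [h4 i hi] with n hn _ using hn
    · exact Eventually.of_forall fun n h => absurd h hi
  obtain ⟨n, hn1, hn2⟩ := (hX.and_eventually h5).exists
  obtain ⟨i, hi, hXi⟩ := h3 n hn1
  exact hn2 i (Finset.mem_range.2 hi) (by rw [hXi]; exact hn1) hXi.symm

variable (μ : Measure (Row d)) [IsProbabilityMeasure μ]

/-- The walk does not stay below a height that it visits infinitely often. -/
lemma kal_levelR (hμ : Elliptic μ) (h : Site d →+ ℝ) (u : Dir d) (y : Site d)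
    (s : ℝ) : annealed μ y {X | (∀ n, h (X n) ≤ s) ∧
      ∃ᶠ n in atTop, s < h (X n) + h (vec u)} = 0 := by
  set Pb : List (Dir d) → Prop :=
    fun l => s < h (y + dsp l) + h (vec u) ∧ y + dsp l ∉ exits y l with hPb
  set Pz : {z : Site d // s < h z + h (vec u)} → List (Dir d) → Prop :=
    fun z l => y + dsp l = z with hPz
  have hsub : {X | (∀ n, h (X n) ≤ s) ∧ ∃ᶠ n in atTop, s < h (X n) + h (vec u)} ∩ Good y ⊆
      (⋂ m, ⋃ l ∈ KSR h y s Pb m, cyl y l) ∪
        ⋃ z : {z : Site d // s < h z + h (vec u)}, ⋂ m, ⋃ l ∈ KSR h y s (Pz z) m, cyl y l := by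
    rintro X ⟨⟨hX1, hX2⟩, hg⟩
    rcases kal_dichR (Q := fun z => s < h z + h (vec u)) hX2 with h1 | ⟨z, hz, h1⟩
    · left
      refine kal_coverR hg hX1 fun N => ?_
      obtain ⟨n, hn, hns, hnew⟩ := h1 N
      obtain ⟨l, hl, hXl⟩ := hg n
      rw [mem_lists] at hl
      have hend : X n = y + dsp l := by
        rw [← hl]; exact cyl_pos hXl (b := []) (by simp)
      refine ⟨n, hn, l, hl, hXl, ?_, ?_⟩
      · rw [← hend]; exact hns
      · intro hmem
        obtain ⟨a, b, hab, hb, hya⟩ := mem_exits.1 hmem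
        have h2 := cyl_pos hXl hab
        refine hnew a.length ?_ ?_
        · rw [← hl, hab]
          have : 0 < b.length := List.length_pos_of_ne_nil hb
          simp [this]
        · rw [h2, ← hya, hend]
    · right
      rw [Set.mem_iUnion]
      refine ⟨⟨z, hz⟩, kal_coverR hg hX1 fun N => ?_⟩
      obtain ⟨n, hn, hnz⟩ := h1 N
      obtain ⟨l, hl, hXl⟩ := hg n
      rw [mem_lists] at hl
      have hend : X n = y + dsp l := by
        rw [← hl]; exact cyl_pos hXl (b := []) (by simp)
      exact ⟨n, hn, l, hl, hXl, by rw [hPz]; exact hend.symm.trans hnz⟩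
  have hb : annM μ y (⋂ m, ⋃ l ∈ KSR h y s Pb m, cyl y l) = 0 := by
    refine kal_nullR (annM μ y) (u := u) (p := wt μ [u]) (fun l hl => hl.1) (wt_ne_zero μ hμ [u]) ?_
    intro l hl
    rw [annM_apply μ y (measurableSet_cyl _ _), annM_apply μ y (measurableSet_cyl _ _),
      annealed_cyl', annealed_cyl', wt_append, mul_comm]
    rw [exits_cons, exits_nil, Finset.disjoint_right]
    intro x hx
    rw [Finset.mem_insert, or_iff_left (Finset.notMem_empty _)] at hx
    rw [hx]
    intro hmem
    apply hl.2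
    have := exits_add 0 y l
    rw [zero_add] at this
    rw [this, Finset.mem_image]
    exact ⟨dsp l, hmem, add_comm _ _⟩
  have hae : ∀ᵐ ω ∂(envLaw μ), ∀ x : Site d, ∀ u : Dir d, 0 < (ω x).1 u := by
    rw [ae_all_iff]
    intro x
    have := (measurePreserving_eval_infinitePi (fun _ : Site d => μ) x).quasiMeasurePreserving
    exact this.ae hμ
  have hz : ∀ z : {z : Site d // s < h z + h (vec u)},
      annM μ y (⋂ m, ⋃ l ∈ KSR h y s (Pz z) m, cyl y l) = 0 := by
    intro z
    rw [annM_apply μ y (kal_measR _ _ _ _), annealed,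
      lintegral_eq_zero_iff (measurable_quenched_apply y (kal_measR _ _ _ _))]
    filter_upwards [hae] with ω hω
    refine kal_nullR (quenched ω y) (u := u) (p := ENNReal.ofReal ((ω z.1).1 u)) (fun l hl => ?_) ?_ ?_
    · rw [hPz] at hl
      rw [hl]; exact z.2
    · simpa only [ne_eq, ENNReal.ofReal_eq_zero, not_le] using hω z.1 u
    · intro l hl
      rw [hPz] at hl
      rw [quenched_cyl, quenched_cyl, qw_append, hl]
      simp only [mul_comm, qw_cons, qw_nil, one_mul, Std.le_refl]
  have hmeas : MeasurableSet ((⋂ m, ⋃ l ∈ KSR h y s Pb m, cyl y l) ∪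
        ⋃ z : {z : Site d // s < h z + h (vec u)}, ⋂ m, ⋃ l ∈ KSR h y s (Pz z) m, cyl y l) :=
    (kal_measR _ _ _ _).union (MeasurableSet.iUnion fun _ => kal_measR _ _ _ _)
  refine le_antisymm ?_ zero_le
  calc annealed μ y {X | (∀ n, h (X n) ≤ s) ∧ ∃ᶠ n in atTop, s < h (X n) + h (vec u)}
      ≤ annealed μ y _ := annealed_inter_good μ y _
    _ ≤ annealed μ y _ := annealed_mono μ y hsub
    _ = annM μ y _ := (annM_apply μ y hmeas).symm
    _ = 0 := measure_union_null hb (measure_iUnion_null hz)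

lemma kal_meas_leR (h : Site d →+ ℝ) (n : ℕ) (s : ℝ) :
    MeasurableSet {X : ℕ → Site d | h (X n) ≤ s} :=
  measurableSet_local n _ fun X Y hXY hX => by rw [← hXY n le_rfl]; exact hX

lemma kal_meas_geR (h : Site d →+ ℝ) (n : ℕ) (s : ℝ) :
    MeasurableSet {X : ℕ → Site d | s ≤ h (X n)} :=
  measurableSet_local n _ fun X Y hXY hX => by rw [← hXY n le_rfl]; exact hX

lemma kal_meas_levelR (h : Site d →+ ℝ) (u : Dir d) (s : ℝ) :
    MeasurableSet {X : ℕ → Site d | (∀ n, h (X n) ≤ s) ∧
      ∃ᶠ n in atTop, s < h (X n) + h (vec u)} := by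
  have : {X : ℕ → Site d | (∀ n, h (X n) ≤ s) ∧ ∃ᶠ n in atTop, s < h (X n) + h (vec u)} =
      (⋂ n, {X : ℕ → Site d | h (X n) ≤ s}) ∩
        ⋂ N : ℕ, ⋃ n ∈ Set.Ici N, {X : ℕ → Site d | s < h (X n) + h (vec u)} := by
    ext X
    simp only [frequently_atTop, Set.mem_ofPred_eq, Set.mem_Ici, Set.mem_inter_iff, Set.mem_iInter, Set.mem_iUnion, exists_prop]
  rw [this]
  exact (MeasurableSet.iInter fun n => kal_meas_leR h n s).inter
    (MeasurableSet.iInter fun N => MeasurableSet.biUnion (Set.to_countable _)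
      fun n _ => measurableSet_local n _ fun X Y hXY hX => by rw [← hXY n le_rfl]; exact hX)

lemma kal_afterR (hμ : Elliptic μ) (h : Site d →+ ℝ) (u : Dir d)
    (l : List (Dir d)) (s : ℝ) :
    annealed μ 0 (cyl 0 l ∩
      tl l.length ⁻¹' {X | (∀ n, h (X n) ≤ s) ∧
        ∃ᶠ n in atTop, s < h (X n) + h (vec u)}) = 0 := by
  refine le_antisymm ?_ zero_le
  rw [annealed]
  calc ∫⁻ ω, quenched ω 0 (cyl 0 l ∩
        tl l.length ⁻¹' {X | (∀ n, h (X n) ≤ s) ∧
          ∃ᶠ n in atTop, s < h (X n) + h (vec u)}) ∂(envLaw μ)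
      ≤ ∫⁻ ω, quenched ω (0 + dsp l)
          {X | (∀ n, h (X n) ≤ s) ∧ ∃ᶠ n in atTop, s < h (X n) + h (vec u)} ∂(envLaw μ) := by
        refine lintegral_mono fun ω => ?_
        rw [quenched_markov ω 0 l (kal_meas_levelR h u s)]
        exact mul_le_of_le_one_left zero_le (qw_le_one ω 0 l)
    _ = 0 := kal_levelR μ hμ h u (0 + dsp l) s

lemma kal_meas_bddR (h : Site d →+ ℝ) :
    MeasurableSet {X : ℕ → Site d | ∃ k : ℕ, ∀ n, h (X n) ≤ k} := by
  have : {X : ℕ → Site d | ∃ k : ℕ, ∀ n, h (X n) ≤ k} =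
      ⋃ k : ℕ, ⋂ n, {X : ℕ → Site d | h (X n) ≤ k} := by
    ext X
    simp only [Set.mem_ofPred_eq, Set.mem_iInter, Set.mem_iUnion]
  rw [this]
  exact MeasurableSet.iUnion fun k => MeasurableSet.iInter fun n => kal_meas_leR h n k

lemma kal_meas_unbddR (h : Site d →+ ℝ) :
    MeasurableSet {X : ℕ → Site d | ∀ k : ℕ, ∃ n, (k : ℝ) ≤ h (X n)} := by
  have : {X : ℕ → Site d | ∀ k : ℕ, ∃ n, (k : ℝ) ≤ h (X n)} =
      ⋂ k : ℕ, ⋃ n, {X : ℕ → Site d | (k : ℝ) ≤ h (X n)} := by
    ext X
    simp only [Set.mem_ofPred_eq, Set.mem_iInter, Set.mem_iUnion]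
  rw [this]
  exact MeasurableSet.iInter fun k => MeasurableSet.iUnion fun n => kal_meas_geR h n k

/-- A rational level just above the upper limit of the heights. -/
lemma kal_limsupR {h : Site d →+ ℝ} {δ : ℝ} (hδ : 0 < δ) {X : ℕ → Site d}
    (hb : ∃ k : ℕ, ∀ n, h (X n) ≤ k) (hne : X ∉ EscR (-h)) :
    ∃ (s : ℚ) (N : ℕ), (∀ n, h (X (n + N)) ≤ s) ∧
      ∃ᶠ n in atTop, (s : ℝ) < h (X (n + N)) + δ := by
  obtain ⟨k, hk⟩ := hb
  have h1 : ∃ K : ℝ, ∃ᶠ n in atTop, K ≤ h (X n) := by
    by_contra hcon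
    push Not at hcon
    apply hne
    rw [EscR, Set.mem_ofPred_eq, tendsto_atTop]
    intro b
    filter_upwards [hcon (-b)] with n hn
    simp only [AddMonoidHom.neg_apply]
    linarith only [hn]
  obtain ⟨K, hK⟩ := h1
  set S : Set ℝ := {s | ∀ᶠ n in atTop, h (X n) ≤ s} with hS
  have hne : S.Nonempty := ⟨k, Eventually.of_forall hk⟩
  have hbd : BddBelow S := by
    refine ⟨K, fun z hz => ?_⟩
    obtain ⟨n, hn1, hn2⟩ := (hK.and_eventually hz).exists
    exact hn1.trans hn2
  obtain ⟨r, hr1, hr2⟩ := exists_rat_btwn (show sInf S < sInf S + δ by linarith only [hδ])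
  obtain ⟨s', hs', hlt⟩ := exists_lt_of_csInf_lt hne hr1
  have hev : ∀ᶠ n in atTop, h (X n) ≤ r := by
    filter_upwards [hs'] with n hn using hn.trans hlt.le
  have hfr : ∃ᶠ n in atTop, (r : ℝ) < h (X n) + δ := by
    intro hcon
    have : (r : ℝ) - δ ∈ S := by
      filter_upwards [hcon] with n hn
      have := not_lt.1 hn
      linarith only [hn]
    have := csInf_le hbd this
    linarith only [hr2, this]
  obtain ⟨N, hN⟩ := eventually_atTop.1 hev
  refine ⟨r, N, fun n => hN _ (by omega), ?_⟩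
  rw [frequently_atTop] at hfr ⊢
  intro a
  obtain ⟨b, hb1, hb2⟩ := hfr (a + N)
  refine ⟨b - N, by omega, ?_⟩
  rwa [Nat.sub_add_cancel (by omega)]

/-- Bounded heights imply escape downwards. -/
theorem esc_of_boundedR (hμ : Elliptic μ) {h : Site d →+ ℝ} {u : Dir d} (hu : 0 < h (vec u)) :
    annealed μ 0 ({X | ∃ k : ℕ, ∀ n, h (X n) ≤ k} \ EscR (-h)) = 0 := by
  refine le_antisymm ?_ zero_le
  have hsub : ({X : ℕ → Site d | ∃ k : ℕ, ∀ n, h (X n) ≤ k} \ EscR (-h)) ∩ Good 0 ⊆
      ⋃ p : ℚ × List (Dir d), cyl 0 p.2 ∩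
        tl p.2.length ⁻¹' {X | (∀ n, h (X n) ≤ p.1) ∧
          ∃ᶠ n in atTop, (p.1 : ℝ) < h (X n) + h (vec u)} := by
    rintro X ⟨⟨hb, hne⟩, hg⟩
    obtain ⟨s, N, h1, h2⟩ := kal_limsupR hu hb hne
    obtain ⟨l, hl, hXl⟩ := hg N
    rw [mem_lists] at hl
    rw [Set.mem_iUnion]
    refine ⟨(s, l), hXl, ?_⟩
    simp only [Set.mem_preimage, Set.mem_ofPred_eq, hl, tl]
    exact ⟨h1, h2⟩
  have hm : ∀ p : ℚ × List (Dir d), MeasurableSet (cyl 0 p.2 ∩
        tl p.2.length ⁻¹' {X : ℕ → Site d | (∀ n, h (X n) ≤ p.1) ∧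
          ∃ᶠ n in atTop, (p.1 : ℝ) < h (X n) + h (vec u)}) := fun p =>
    (measurableSet_cyl _ _).inter (measurable_tl _ (kal_meas_levelR h u p.1))
  calc annealed μ 0 ({X | ∃ k : ℕ, ∀ n, h (X n) ≤ k} \ EscR (-h))
      ≤ annealed μ 0 _ := annealed_inter_good μ 0 _
    _ ≤ annealed μ 0 _ := annealed_mono μ 0 hsub
    _ ≤ _ := annealed_iUnion_le μ 0 hm
    _ = 0 := by
        rw [ENNReal.tsum_eq_zero]
        intro p
        exact kal_afterR μ hμ h u p.2 p.1

/-- The sign-union law. -/
theorem sign_unionR (hμ : Elliptic μ) {h : Site d →+ ℝ} {u : Dir d} (hu : 0 < h (vec u))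
    (hpos : annealed μ 0 (EscR h) ≠ 0) : annealed μ 0 (EscR h ∪ EscR (-h))ᶜ = 0 := by
  have h1 := esc_of_unboundedR μ h hpos
  have h2 := esc_of_boundedR μ hμ hu
  have hm1 : MeasurableSet ({X : ℕ → Site d | ∀ k : ℕ, ∃ n, (k : ℝ) ≤ h (X n)} \ EscR h) :=
    (kal_meas_unbddR h).diff (measurableSet_escR h)
  have hm2 : MeasurableSet ({X : ℕ → Site d | ∃ k : ℕ, ∀ n, h (X n) ≤ k} \ EscR (-h)) :=
    (kal_meas_bddR h).diff (measurableSet_escR (-h))
  have hsub : (EscR h ∪ EscR (-h))ᶜ ⊆
      ({X : ℕ → Site d | ∀ k : ℕ, ∃ n, (k : ℝ) ≤ h (X n)} \ EscR h) ∪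
        ({X : ℕ → Site d | ∃ k : ℕ, ∀ n, h (X n) ≤ k} \ EscR (-h)) := by
    intro X hX
    rw [Set.mem_compl_iff, Set.mem_union, not_or] at hX
    by_cases hb : ∀ k : ℕ, ∃ n, (k : ℝ) ≤ h (X n)
    · exact Or.inl ⟨hb, hX.1⟩
    · push Not at hb
      obtain ⟨k, hk⟩ := hb
      exact Or.inr ⟨⟨k, fun n => (hk n).le⟩, hX.2⟩
  refine le_antisymm ?_ zero_le
  calc annealed μ 0 (EscR h ∪ EscR (-h))ᶜ ≤ annealed μ 0 _ := annealed_mono μ 0 hsub
    _ = annM μ 0 _ := (annM_apply μ 0 (hm1.union hm2)).symm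
    _ = 0 := by
        refine measure_union_null ?_ ?_
        · rw [annM_apply μ 0 hm1]; exact h1
        · rw [annM_apply μ 0 hm2]; exact h2

/-- The inner product with a fixed vector. -/
noncomputable def innerHom (v : Fin d → ℝ) : Site d →+ ℝ where
  toFun x := inner x v
  map_zero' := by simp [inner]
  map_add' x y := by
    simp only [inner, Pi.add_apply, Int.cast_add, add_mul, Finset.sum_add_distrib]

@[simp] lemma innerHom_apply (v : Fin d → ℝ) (x : Site d) : innerHom v x = inner x v := rfl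

lemma escape_eq (v : Fin d → ℝ) : (Escape v : Set (ℕ → Site d)) = EscR (innerHom v) := rfl

lemma innerHom_neg (v : Fin d → ℝ) : innerHom (-v) = -innerHom v := by
  ext x
  simp only [AddMonoidHom.coe_comp, AddMonoidHom.coe_single, Function.comp_apply, innerHom_apply, inner, Pi.neg_apply, mul_neg, Finset.sum_neg_distrib, AddMonoidHom.neg_comp, AddMonoidHom.neg_apply]

lemma innerHom_step {v : Fin d → ℝ} (hv : v ≠ 0) : ∃ u : Dir d, 0 < innerHom v (vec u) := by
  obtain ⟨i, hi⟩ : ∃ i, v i ≠ 0 := by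
    by_contra hcon
    push Not at hcon
    exact hv (funext hcon)
  have h1 : ∀ b : Bool, innerHom v (vec (i, b)) = (if b then 1 else -1) * v i := by
    intro b
    rw [innerHom_apply, inner, Finset.sum_eq_single i]
    · cases b <;> simp only [vec, Bool.false_eq_true, ↓reduceIte, Int.reduceNeg, Pi.single_eq_same, Int.cast_neg, Int.cast_one, neg_mul, one_mul]
    · intro j _ hj
      simp [vec, hj]
    · intro h
      exact absurd (Finset.mem_univ i) h
  rcases lt_or_gt_of_ne hi with h | h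
  · exact ⟨(i, false), by rw [h1]; simpa only [Bool.false_eq_true, ↓reduceIte, neg_mul, one_mul, Left.neg_pos_iff] using h⟩
  · exact ⟨(i, true), by rw [h1]; simpa using h⟩

/-- The sign-union law for real directions. -/
theorem sign_union_real (hμ : Elliptic μ) (v : Fin d → ℝ)
    (h : annealed μ 0 (Escape v) ≠ 0) : annealed μ 0 (Escape v ∪ Escape (-v)) = 1 := by
  have hv : v ≠ 0 := by
    rintro rfl
    apply h
    have : (Escape (0 : Fin d → ℝ) : Set (ℕ → Site d)) = ∅ := by
      ext X
      simp only [Escape, inner, Pi.zero_apply, mul_zero, Finset.sum_const_zero,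
        Set.mem_ofPred_eq, Set.mem_empty_iff_false, iff_false]
      exact not_tendsto_const_atTop (0 : ℝ) atTop
    rw [this]
    simp only [annealed, measure_empty, lintegral_const, measure_univ, mul_one]
  obtain ⟨u, hu⟩ := innerHom_step hv
  have h2 := sign_unionR μ hμ hu h
  rw [← innerHom_neg] at h2
  have hm : MeasurableSet (Escape v : Set (ℕ → Site d)) := measurableSet_escR (innerHom v)
  have hm' : MeasurableSet (Escape (-v) : Set (ℕ → Site d)) := measurableSet_escR (innerHom (-v))
  have h3 : annM μ 0 (Escape v ∪ Escape (-v))ᶜ = 0 := by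
    rw [annM_apply μ 0 (hm.union hm').compl]; exact h2
  rw [← annM_apply μ 0 (hm.union hm')]
  exact (prob_compl_eq_zero_iff (hm.union hm')).1 h3

/-- The zero-one law follows from the sign-union law once escape in a direction and in the opposite
direction exclude each other. -/
theorem zero_one_of_not_both (hμ : Elliptic μ) (v : Fin d → ℝ)
    (hnb : annealed μ 0 (Escape v) = 0 ∨ annealed μ 0 (Escape (-v)) = 0) :
    annealed μ 0 (Escape v) = 0 ∨ annealed μ 0 (Escape v) = 1 := by
  by_cases h0 : annealed μ 0 (Escape v) = 0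
  · exact Or.inl h0
  · right
    have h1 := hnb.resolve_left h0
    have h2 := sign_union_real μ hμ v h0
    have hm : MeasurableSet (Escape v : Set (ℕ → Site d)) := measurableSet_escR (innerHom v)
    have hm' : MeasurableSet (Escape (-v) : Set (ℕ → Site d)) := measurableSet_escR (innerHom (-v))
    rw [← annM_apply μ 0 (hm.union hm')] at h2
    rw [← annM_apply μ 0 hm'] at h1
    rw [← annM_apply μ 0 hm]
    refine le_antisymm prob_le_one ?_
    calc 1 = annM μ 0 (Escape v ∪ Escape (-v)) := h2.symm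
      _ ≤ annM μ 0 (Escape v) + annM μ 0 (Escape (-v)) := measure_union_le _ _
      _ = annM μ 0 (Escape v) := by rw [h1, add_zero]

end Vale.Agent.P147.Z
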