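import Vale.Agent.P147.Z.Base
import Vale.Agent.P147.Z.Sign

/-!
# Real directions

The normalised level function of a direction, and the lower bound for the first passage weights
that follows from escape with positive probability.
-/

open MeasureTheory Filter
open scoped ENNReal

namespace Vale.Agent.P147.Z

variable {d : ℕ} (μ : Measure (Row d)) [IsProbabilityMeasure μ]

/-- The normalised level function of the direction `v`. -/
noncomputable def lev (v : Fin d → ℝ) : Site d →+ ℝ where
  toFun x := inner x v / ‖v‖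
  map_zero' := by simp [inner]
  map_add' x y := by
    simp only [inner, Pi.add_apply, Int.cast_add, add_mul, Finset.sum_add_distrib, add_div]

lemma lev_apply (v : Fin d → ℝ) (x : Site d) : lev v x = inner x v / ‖v‖ := rfl

theorem lev_neg (v : Fin d → ℝ) : lev (-v) = -lev v := by
  ext x
  simp only [AddMonoidHom.coe_comp, AddMonoidHom.coe_single, Function.comp_apply, lev_apply, inner, Pi.neg_apply, mul_neg, Finset.sum_neg_distrib, norm_neg, neg_div, AddMonoidHom.neg_comp, AddMonoidHom.neg_apply]

lemma inner_vec (v : Fin d → ℝ) (i : Fin d) (b : Bool) :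
    inner (vec (i, b)) v = (if b then 1 else -1) * v i := by
  rw [inner, Finset.sum_eq_single i]
  · cases b <;> simp [vec]
  · intro j _ hj
    simp [vec, hj]
  · intro h
    exact absurd (Finset.mem_univ i) h

theorem lvl_lev {v : Fin d → ℝ} (hv : v ≠ 0) : Lvl (lev v) := by
  have hn : 0 < ‖v‖ := norm_pos_iff.2 hv
  constructor
  · rintro ⟨i, b⟩
    rw [lev_apply, inner_vec, abs_div, abs_of_pos hn, div_le_one hn, abs_mul]
    have h1 : |v i| ≤ ‖v‖ := norm_le_pi_norm v i
    cases b <;> simpa using h1
  · obtain ⟨i0, _⟩ : ∃ i, v i ≠ 0 := by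
      by_contra hcon
      push Not at hcon
      exact hv (funext hcon)
    obtain ⟨i, _, hi⟩ := Finset.exists_max_image Finset.univ (fun i => |v i|) ⟨i0, Finset.mem_univ _⟩
    have h1 : ‖v‖ ≤ |v i| :=
      (pi_norm_le_iff_of_nonneg (abs_nonneg _)).2 fun j => hi j (Finset.mem_univ j)
    have h2 : |v i| = ‖v‖ := le_antisymm (norm_le_pi_norm v i) h1
    rcases abs_choice (v i) with h | h
    · exact ⟨(i, true), by rw [lev_apply, inner_vec]; simp only [if_true, one_mul]; rw [← h, h2, div_self hn.ne']⟩
    · exact ⟨(i, false), by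
        rw [lev_apply, inner_vec]
        simp only [Bool.false_eq_true, if_false, neg_one_mul]
        rw [← h, h2, div_self hn.ne']⟩

lemma escape_lev {v : Fin d → ℝ} (hv : v ≠ 0) : (Escape v : Set (ℕ → Site d)) = EscR (lev v) := by
  have hn : 0 < ‖v‖ := norm_pos_iff.2 hv
  ext X
  simp only [Escape, EscR, Set.mem_ofPred_eq, lev_apply]
  exact (tendsto_div_const_atTop_of_pos hn).symm

/-- First passage weights are bounded below when the walk escapes upwards without going below its
starting height with positive probability. -/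
theorem upR_le_fu (L : Site d →+ ℝ) (a : ℝ) : annealed μ 0 (UpR L) ≤ fu μ L a := by
  classical
  have hcover : UpR L ∩ Good 0 ⊆ ⋃ l : Fp L a, cyl 0 l.1 := by
    rintro X ⟨⟨hst, hes⟩, hg⟩
    have hk : ∃ n, a ≤ L (X n) := by
      obtain ⟨M, hM⟩ := (tendsto_atTop_atTop.1 hes) a
      exact ⟨M, hM M le_rfl⟩
    have h0 : X 0 = 0 := by
      obtain ⟨l, _, hXl⟩ := hg 0
      have := hXl 0 (Nat.zero_le _)
      simpa using this
    obtain ⟨l, hl, hXl⟩ := hg (Nat.find hk)
    rw [mem_lists] at hl
    have hend : X l.length = dsp l := by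
      have h1 := cyl_pos hXl (a := l) (b := []) (by simp)
      rwa [zero_add] at h1
    refine Set.mem_iUnion.2 ⟨⟨l, fun x hx => ?_, ?_⟩, hXl⟩
    · obtain ⟨b, c, hbc, hc, rfl⟩ := mem_exits.1 hx
      have h1 := cyl_pos hXl hbc
      have h2 : b.length < Nat.find hk := by
        rw [← hl, hbc, List.length_append]
        have := List.length_pos_iff.2 hc
        omega
      have h3 := Nat.find_min hk h2
      rw [← h1]
      refine ⟨?_, not_le.1 h3⟩
      have h4 := hst b.length
      rwa [h0, map_zero] at h4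
    · rw [← hend, hl]
      exact Nat.find_spec hk
  calc annealed μ 0 (UpR L) ≤ annealed μ 0 (UpR L ∩ Good 0) := annealed_inter_good μ 0 _
    _ ≤ annealed μ 0 (⋃ l : Fp L a, cyl 0 l.1) := annealed_mono μ 0 hcover
    _ ≤ ∑' l : Fp L a, annealed μ 0 (cyl 0 l.1) :=
        annealed_iUnion_le μ 0 fun l => measurableSet_cyl 0 l.1
    _ = fu μ L a := by
        rw [fu]
        exact tsum_congr fun l => annealed_cyl' μ 0 l.1

theorem pos_of_escape {v : Fin d → ℝ} (h : annealed μ 0 (Escape v) ≠ 0) :
    ∃ q : ℝ≥0∞, q ≠ 0 ∧ ∀ a, q ≤ fu μ (lev v) a := by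
  have hv : v ≠ 0 := by
    rintro rfl
    apply h
    have : (Escape (0 : Fin d → ℝ) : Set (ℕ → Site d)) = ∅ := by
      ext X
      simp only [Escape, inner, Pi.zero_apply, mul_zero, Finset.sum_const_zero,
        Set.mem_ofPred_eq, Set.mem_empty_iff_false, iff_false]
      exact not_tendsto_const_atTop (0 : ℝ) atTop
    rw [this]
    simp only [annealed, measure_empty, lintegral_const, measure_univ, mul_one]
  refine ⟨annealed μ 0 (UpR (lev v)), ?_, fun a => upR_le_fu μ (lev v) a⟩
  have h1 := upR_pos μ (lev v) (B := Set.univ) MeasurableSet.univ (fun _ _ => Iff.rfl)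
    (fun _ => Iff.rfl) (by rwa [Set.inter_univ, ← escape_lev hv])
  rwa [Set.inter_univ] at h1

end Vale.Agent.P147.Z
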