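import Vale.Agent.P147.Z.Fact
import Vale.Agent.P147.Z.Ir

/-!
# Backtracks of first passage paths

A path of `Fp L N` that comes back from level at least `2 ^ (i + 1)` to a level less than `2 ^ i`
has an irreducible block that starts below `2 ^ i` and has height more than `2 ^ i`.
-/

open MeasureTheory
open scoped ENNReal

namespace Vale.Agent.P147.Z

variable {d : ℕ} {L : Site d →+ ℝ}

/-- Paths of `Fp L N` that come back from level at least `2 ^ (i + 1)` to a level less
than `2 ^ i`. -/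
def Strad (L : Site d →+ ℝ) (N : ℝ) (i : ℕ) : Set (List (Dir d)) :=
  {π | π ∈ Fp L N ∧ ∃ a b c, π = a ++ b ++ c ∧ (2 : ℝ) ^ (i + 1) ≤ L (dsp a) ∧
    L (dsp (a ++ b)) < 2 ^ i}

namespace Strd

/-- Bridges with end level in a unit window. -/
def BrW (L : Site d →+ ℝ) (k : ℕ) : Set (List (Dir d)) :=
  {w | w ∈ Br L ∧ (k : ℝ) ≤ L (dsp w) ∧ L (dsp w) < k + 1}

lemma pre_of_len {x y x' y' : List (Dir d)} (h : x ++ y = x' ++ y')
    (hlen : x.length ≤ x'.length) : ∃ c, x' = x ++ c ∧ y = c ++ y' := by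
  rcases List.append_eq_append_iff.1 h with ⟨c, h1, h2⟩ | ⟨c, h1, h2⟩
  · exact ⟨c, h1, h2⟩
  · have hc : c = [] := by
      have := congrArg List.length h1
      rw [List.length_append] at this
      exact List.length_eq_zero_iff.1 (by omega)
    subst hc
    simp only [List.append_nil] at h1
    simp only [List.nil_append] at h2
    exact ⟨[], by simp [h1], by simp [h2]⟩

lemma dsp_mem_exits {a b : List (Dir d)} (hb : b ≠ []) : dsp a ∈ exits 0 (a ++ b) :=
  mem_exits.2 ⟨a, b, rfl, hb, by rw [zero_add]⟩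

lemma brW_free {u : Dir d} (hu : L (vec u) = 1) (k : ℕ) :
    Free ((fun w => w ++ [u]) '' BrW L k) := by
  rintro _ ⟨w, hw, rfl⟩ b ⟨w', hw', h⟩
  by_contra hb
  have h' : w' ++ [u] = (w ++ [u]) ++ b := h
  have hlen := congrArg List.length h'
  rw [List.length_append, List.length_append, List.length_append] at hlen
  have hb1 := List.length_pos_iff.2 hb
  simp only [List.length_cons, List.length_nil] at hlen
  obtain ⟨c, hc, _⟩ := pre_of_len h'.symm (by
    rw [List.length_append]
    simp only [List.length_cons, List.length_nil]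
    omega)
  have h1 : L (dsp (w ++ [u])) = L (dsp w) + 1 := by
    rw [dsp_append, map_add, dsp_cons, dsp_nil, add_zero, hu]
  by_cases hc0 : c = []
  · subst hc0
    rw [List.append_nil] at hc
    have := hw'.2.2
    rw [hc, h1] at this
    (clear * - this hw; linarith [hw.2.1])
  · have h2 := (hw'.1 (dsp (w ++ [u])) (by rw [hc]; exact dsp_mem_exits hc0)).2
    rw [h1] at h2
    linarith only [h2, hw.2.1, hw'.2.2]

lemma brW_le (μ : Measure (Row d)) [IsProbabilityMeasure μ] {u : Dir d} (hu : L (vec u) = 1)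
    (k : ℕ) : (∑' w : BrW L k, wt μ w.1) * wt μ [u] ≤ 1 := by
  have hinj : Set.InjOn (fun w : List (Dir d) => w ++ [u]) (BrW L k) := by
    intro a _ b _ h
    exact List.append_cancel_right h
  have h1 := tsum_wt_le_one μ (brW_free (L := L) hu k)
  rw [tsum_image (fun l => wt μ l) hinj] at h1
  rw [← ENNReal.tsum_mul_right]
  refine le_trans (le_of_eq (tsum_congr fun w => ?_)) h1
  rw [wt_append_Br μ w.2.1 (by
    intro x hx
    simp only [exits_cons, exits_nil, Finset.mem_insert, Finset.notMem_empty, or_false] at hx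
    subst hx
    rw [map_zero])]

/-- Bridges with end level less than `n`. -/
def BrL (L : Site d →+ ℝ) (n : ℕ) : Set (List (Dir d)) := {w | w ∈ Br L ∧ L (dsp w) < n}

lemma brL_le (μ : Measure (Row d)) [IsProbabilityMeasure μ] {u : Dir d}
    (hu : L (vec u) = 1) (n : ℕ) :
    ∑' w : BrL L n, wt μ w.1 ≤ n * (wt μ [u])⁻¹ := by
  have hsub : BrL L n ⊆ ⋃ k ∈ Finset.range n, BrW L k := by
    rintro w ⟨h1, h2⟩
    have h0 := Br_nonneg h1
    refine Set.mem_biUnion (x := ⌊L (dsp w)⌋₊) ?_ ⟨h1, Nat.floor_le h0, Nat.lt_floor_add_one _⟩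
    exact Finset.mem_coe.2 (Finset.mem_range.2 ((Nat.floor_lt h0).2 h2))
  calc ∑' w : BrL L n, wt μ w.1
      ≤ ∑' w : (⋃ k ∈ Finset.range n, BrW L k : Set _), wt μ w.1 :=
        ENNReal.tsum_mono_subtype (fun l => wt μ l) hsub
    _ ≤ ∑ k ∈ Finset.range n, ∑' w : BrW L k, wt μ w.1 :=
        ENNReal.tsum_biUnion_le (fun l => wt μ l) _ _
    _ ≤ ∑ k ∈ Finset.range n, (wt μ [u])⁻¹ := by
        refine Finset.sum_le_sum fun k _ => ?_
        exact ENNReal.le_inv_iff_mul_le.2 (brW_le μ hu k)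
    _ = n * (wt μ [u])⁻¹ := by rw [Finset.sum_const, Finset.card_range, nsmul_eq_mul]

/-- The block that contains a given time. -/
lemma exists_block {l : List (Dir d)} (hl : l ∈ Br L) {m : ℕ} (hm : m < l.length) :
    ∃ w ∈ Br L, ∃ β ∈ Ir L, ∃ r ∈ Br L, l = w ++ β ++ r ∧ w.length ≤ m ∧
      m < w.length + β.length := by
  induction hk : l.length using Nat.strong_induction_on generalizing l m with
  | _ k ih =>
    have h0 : l ≠ [] := by
      rintro rfl
      simp at hm
    obtain ⟨b, hb, r, hr, rfl⟩ := exists_Ir hl h0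
    by_cases hmb : m < b.length
    · exact ⟨[], mem_Br_nil, b, hb, r, hr, by simp, by simp only [List.length_nil, zero_le], by simpa using hmb⟩
    · have hlen : (b ++ r).length = b.length + r.length := List.length_append
      have hb0 := List.length_pos_iff.2 hb.2.1
      obtain ⟨w, hw, β, hβ, r', hr', h1, h2, h3⟩ := ih r.length (by omega) hr
        (show m - b.length < r.length by omega) rfl
      refine ⟨b ++ w, Br_append hb.1 hw, β, hβ, r', hr', ?_, ?_, ?_⟩
      · rw [h1]; simp
      · rw [List.length_append]; omega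
      · rw [List.length_append]; omega

lemma strad_block {N : ℝ} {i : ℕ} {π : List (Dir d)} (hπ : π ∈ Strad L N i) :
    ∃ w ∈ BrL L (2 ^ i), ∃ β ∈ Ir L, ∃ r ∈ Fp L (N - L (dsp (w ++ β))),
      (2 : ℝ) ^ i < L (dsp β) ∧ π = w ++ (β ++ r) := by
  obtain ⟨hF, a, b, c, rfl, h1, h2⟩ := hπ
  have hpow : (2 : ℝ) ^ (i + 1) = 2 * 2 ^ i := by rw [pow_succ, mul_comm]
  have hpos : (0 : ℝ) < 2 ^ i := by positivity
  have hc : c ≠ [] := by
    rintro rfl
    rw [List.append_nil] at hF
    have hN := hF.2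
    by_cases hb : b = []
    · subst hb
      rw [List.append_nil] at h2
      linarith only [h1, hpow, hpos, h2]
    · have h3 := (hF.1 (dsp a) (dsp_mem_exits hb)).2
      linarith only [h1, h2, hpow, hpos, hN, h3]
  have hlc := List.length_pos_iff.2 hc
  obtain ⟨w, hw, β, hβ, r, hr, h3, h4, h5⟩ := exists_block (Fp_subset_Br hF)
    (m := (a ++ b).length) (by simp only [List.length_append]; omega)
  obtain ⟨e, he, he'⟩ := pre_of_len (x := w) (y := β ++ r) (x' := a ++ b) (y' := c)
    (by rw [← List.append_assoc, ← h3]) h4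
  obtain ⟨f, hf, hf'⟩ := pre_of_len (x := e) (y := c) (x' := β) (y' := r) he'.symm (by
    have := congrArg List.length he
    have h6 : (w ++ e).length = w.length + e.length := List.length_append
    omega)
  have hf0 : f ≠ [] := by
    rintro rfl
    have h6 := congrArg List.length he
    have h7 := congrArg List.length hf
    simp only [List.length_append, List.length_nil, add_zero] at h6 h7 h5
    omega
  have hE : 0 ≤ L (dsp e) := (hβ.1 (dsp e) (by rw [hf]; exact dsp_mem_exits hf0)).1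
  have hwl : L (dsp w) < 2 ^ i := by
    rw [he, dsp_append, map_add] at h2
    linarith only [h2, hE]
  have hwa : w.length ≤ a.length := by
    by_contra hcon
    push Not at hcon
    have h6 : a ++ b = w ++ e := he
    obtain ⟨g, hg, _⟩ := pre_of_len h6 hcon.le
    have hg0 : g ≠ [] := by
      rintro rfl
      rw [List.append_nil] at hg
      rw [hg] at hcon
      omega
    have h7 := (hw (dsp a) (by rw [hg]; exact dsp_mem_exits hg0)).2
    linarith only [h1, hpow, hpos, hwl, h7]
  obtain ⟨g, hg, hg'⟩ := pre_of_len (x := w) (y := e) (x' := a) (y' := b) he.symm hwa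
  have hβl : (2 : ℝ) ^ i < L (dsp β) := by
    have h6 : β = g ++ (b ++ f) := by rw [hf, hg', List.append_assoc]
    have h7 := (hβ.1 (dsp g) (by
      rw [h6]
      refine dsp_mem_exits fun h => hf0 (List.append_eq_nil_iff.1 h).2)).2
    rw [hg, dsp_append, map_add] at h1
    linarith only [hpow, hwl, h1, h7]
  refine ⟨w, ⟨hw, by push_cast; exact hwl⟩, β, hβ, r, ⟨?_, ?_⟩, hβl, by
    rw [← List.append_assoc, ← h3]⟩
  · intro x hx
    refine ⟨(hr x hx).1, ?_⟩
    have h6 := (hF.1 (x + dsp (w ++ β)) (by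
      rw [h3]
      exact mem_exits_append.2 (Or.inr ⟨x, hx, rfl⟩))).2
    rw [map_add] at h6
    linarith only [h6]
  · have h6 := hF.2
    rw [h3, dsp_append, map_add] at h6
    linarith only [h6]

lemma pow_sum_le {x : ℝ} (hx : 0 ≤ x) (n : ℕ) :
    ∑ i ∈ Finset.range n, (if (2 : ℝ) ^ i < x then (2 : ℝ) ^ i else 0) ≤ 2 * x := by
  have h1 : ∀ n : ℕ, ∑ i ∈ Finset.range n, (if (2 : ℝ) ^ i < x then (2 : ℝ) ^ i else 0) ≤
      2 ^ n := by
    intro n
    induction n with
    | zero => simp only [Finset.range_zero, Finset.sum_empty, pow_zero, zero_le_one]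
    | succ n ih =>
      rw [Finset.sum_range_succ, pow_succ]
      have : (if (2 : ℝ) ^ n < x then (2 : ℝ) ^ n else 0) ≤ 2 ^ n := by
        split_ifs
        · exact le_refl _
        · positivity
      linarith
  induction n with
  | zero => simpa only [Finset.range_zero, Finset.sum_empty, Nat.ofNat_pos, mul_nonneg_iff_of_pos_left, ge_iff_le] using     hx
  | succ n ih =>
    by_cases h : (2 : ℝ) ^ n < x
    · have := h1 (n + 1)
      rw [pow_succ] at this
      linarith only [h, this]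
    · rw [Finset.sum_range_succ, if_neg h, add_zero]
      exact ih

lemma tsum_pow_le (x : ℝ) :
    ∑' i : ℕ, (if (2 : ℝ) ^ i < x then (2 : ℝ≥0∞) ^ i else 0) ≤ 2 * ENNReal.ofReal x := by
  rcases lt_or_ge x 0 with hx | hx
  · have : ∀ i : ℕ, ¬ (2 : ℝ) ^ i < x := fun i h => by
      have : (0 : ℝ) < 2 ^ i := by positivity
      linarith
    simp only [this, ↓reduceIte, tsum_zero, zero_le]
  · refine ENNReal.tsum_le_of_sum_range_le fun n => ?_
    have h := ENNReal.ofReal_le_ofReal (pow_sum_le hx n)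
    rw [ENNReal.ofReal_sum_of_nonneg (fun i _ => by split_ifs <;> positivity),
      ENNReal.ofReal_mul (by norm_num)] at h
    simp only [ENNReal.ofReal_ofNat] at h
    refine le_trans (Finset.sum_le_sum fun i _ => ?_) h
    split_ifs
    · rw [ENNReal.ofReal_pow (by norm_num), ENNReal.ofReal_ofNat]
    · exact bot_le

end Strd

open Strd

open Classical in
/-- The backtracks are summable over the scales, uniformly in the height. -/
theorem strad_sum_of (μ : Measure (Row d)) [IsProbabilityMeasure μ] (hL : Lvl L)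
    (hμ : Elliptic μ)
    (hm : ∑' b : Ir L, wt μ b.1 * ENNReal.ofReal (L (dsp b.1)) ≠ ⊤) :
    ∃ ε : ℕ → ℝ≥0∞, ∑' i, ε i ≠ ⊤ ∧ ∀ (i : ℕ) (N : ℝ), ∑' π : Strad L N i, wt μ π.1 ≤ ε i := by
  obtain ⟨u, hu⟩ := hL.top
  have hκ := wt_ne_zero μ hμ [u]
  refine ⟨fun i => (2 ^ i * (wt μ [u])⁻¹) *
    ∑' β : Ir L, (if (2 : ℝ) ^ i < L (dsp β.1) then wt μ β.1 else 0), ?_, fun i N => ?_⟩
  · have h1 : ∑' i : ℕ, ((2 : ℝ≥0∞) ^ i * (wt μ [u])⁻¹) *
        ∑' β : Ir L, (if (2 : ℝ) ^ i < L (dsp β.1) then wt μ β.1 else 0) ≤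
        (wt μ [u])⁻¹ * (2 * ∑' b : Ir L, wt μ b.1 * ENNReal.ofReal (L (dsp b.1))) := by
      calc ∑' i : ℕ, ((2 : ℝ≥0∞) ^ i * (wt μ [u])⁻¹) *
          ∑' β : Ir L, (if (2 : ℝ) ^ i < L (dsp β.1) then wt μ β.1 else 0)
          = (wt μ [u])⁻¹ * ∑' i : ℕ, ∑' β : Ir L,
            wt μ β.1 * (if (2 : ℝ) ^ i < L (dsp β.1) then (2 : ℝ≥0∞) ^ i else 0) := by
            rw [← ENNReal.tsum_mul_left]
            refine tsum_congr fun i => ?_
            rw [mul_comm ((2 : ℝ≥0∞) ^ i), mul_assoc, ← ENNReal.tsum_mul_left]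
            congr 1
            refine tsum_congr fun β => ?_
            split_ifs
            · rw [mul_comm]
            · simp only [mul_zero]
        _ = (wt μ [u])⁻¹ * ∑' β : Ir L, wt μ β.1 *
            ∑' i : ℕ, (if (2 : ℝ) ^ i < L (dsp β.1) then (2 : ℝ≥0∞) ^ i else 0) := by
            rw [ENNReal.tsum_comm]
            congr 1
            refine tsum_congr fun β => ?_
            rw [ENNReal.tsum_mul_left]
        _ ≤ (wt μ [u])⁻¹ * ∑' β : Ir L, wt μ β.1 * (2 * ENNReal.ofReal (L (dsp β.1))) := by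
            gcongr
            exact tsum_pow_le _
        _ = _ := by
            congr 1
            rw [← ENNReal.tsum_mul_left]
            refine tsum_congr fun β => ?_
            ring
    refine ne_top_of_le_ne_top ?_ h1
    exact ENNReal.mul_ne_top (ENNReal.inv_ne_top.2 hκ) (ENNReal.mul_ne_top (by norm_num) hm)
  · have hch : ∀ π : Strad L N i, ∃ t : Σ w : BrL L (2 ^ i), Σ β : Ir L,
        Fp L (N - L (dsp (w.1 ++ β.1))), (2 : ℝ) ^ i < L (dsp t.2.1.1) ∧
          π.1 = t.1.1 ++ (t.2.1.1 ++ t.2.2.1) := by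
      intro π
      obtain ⟨w, hw, β, hβ, r, hr, h1, h2⟩ := strad_block π.2
      exact ⟨⟨⟨w, hw⟩, ⟨β, hβ⟩, ⟨r, hr⟩⟩, h1, h2⟩
    choose j hj1 hj2 using hch
    have hinj : Function.Injective j := by
      intro π π' h
      apply Subtype.ext
      rw [hj2 π, hj2 π', h]
    let F : (Σ w : BrL L (2 ^ i), Σ β : Ir L, Fp L (N - L (dsp (w.1 ++ β.1)))) → ℝ≥0∞ :=
      fun t => wt μ t.1.1 * ((if (2 : ℝ) ^ i < L (dsp t.2.1.1) then wt μ t.2.1.1 else 0) *
        wt μ t.2.2.1)
    have hF : ∀ π : Strad L N i, wt μ π.1 = F (j π) := by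
      intro π
      have h3 := (j π).1.2
      have h4 := (j π).2.1.2
      have h5 := (j π).2.2.2
      change wt μ π.1 = wt μ (j π).1.1 * ((if (2 : ℝ) ^ i < L (dsp (j π).2.1.1) then
        wt μ (j π).2.1.1 else 0) * wt μ (j π).2.2.1)
      rw [hj2 π, if_pos (hj1 π), wt_append_Br μ h3.1
        (Br_up (Br_append h4.1 (Fp_subset_Br h5))), wt_append_Br μ h4.1 (Fp_up h5)]
    calc ∑' π : Strad L N i, wt μ π.1 = ∑' π : Strad L N i, F (j π) := tsum_congr hF
      _ ≤ ∑' t, F t := ENNReal.tsum_comp_le_tsum_of_injective hinj F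
      _ = ∑' w : BrL L (2 ^ i), ∑' β : Ir L, ∑' r : Fp L (N - L (dsp (w.1 ++ β.1))),
          wt μ w.1 * ((if (2 : ℝ) ^ i < L (dsp β.1) then wt μ β.1 else 0) * wt μ r.1) := by
          rw [ENNReal.tsum_sigma']
          refine tsum_congr fun w => ?_
          rw [ENNReal.tsum_sigma']
      _ ≤ ∑' w : BrL L (2 ^ i), ∑' β : Ir L,
          wt μ w.1 * ((if (2 : ℝ) ^ i < L (dsp β.1) then wt μ β.1 else 0) * 1) := by
          gcongr with w β
          rw [ENNReal.tsum_mul_left, ENNReal.tsum_mul_left]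
          gcongr
          refine tsum_wt_le_one μ ?_
          intro a ha b hab
          by_contra hb
          have h3 := (hab.1 (dsp a) (dsp_mem_exits hb)).2
          linarith [ha.2]
      _ = (∑' w : BrL L (2 ^ i), wt μ w.1) *
          ∑' β : Ir L, (if (2 : ℝ) ^ i < L (dsp β.1) then wt μ β.1 else 0) := by
          rw [← ENNReal.tsum_mul_right]
          refine tsum_congr fun w => ?_
          rw [← ENNReal.tsum_mul_left]
          refine tsum_congr fun β => ?_
          rw [mul_one]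
      _ ≤ (2 ^ i * (wt μ [u])⁻¹) *
          ∑' β : Ir L, (if (2 : ℝ) ^ i < L (dsp β.1) then wt μ β.1 else 0) := by
          gcongr
          have := brL_le μ hu (2 ^ i)
          push_cast at this
          exact this

/-- The backtracks are summable over the scales, uniformly in the height. -/
theorem strad_sum (μ : Measure (Row d)) [IsProbabilityMeasure μ] (hL : Lvl L)
    (hμ : Elliptic μ) {q : ℝ≥0∞} (hq0 : q ≠ 0) (hq : ∀ a, q ≤ fu μ L a) :
    ∃ ε : ℕ → ℝ≥0∞, ∑' i, ε i ≠ ⊤ ∧ ∀ (i : ℕ) (N : ℝ), ∑' π : Strad L N i, wt μ π.1 ≤ ε i :=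
  strad_sum_of μ hL hμ (mean_height μ hL hq0 hq)

end Vale.Agent.P147.Z
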