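import Vale.Agent.P147.Z.Lateral
import Vale.Agent.P147.Z.Straddle
import Vale.Agent.P147.Z.Tools
import Vale.Agent.P147.Z.Ir

/-!
# Polynomial growth of the width: the recursion
-/

open MeasureTheory
open scoped ENNReal

namespace Vale.Agent.P147.Z.Gr

variable {d : ℕ} (μ : Measure (Row d)) [IsProbabilityMeasure μ]

/-- Sum over a prefix-free set, each of whose elements has a prefix in `T`. -/
lemma tsum_prefix_le {S T : Set (List (Dir d))} (hS : Free S)
    (h : ∀ l ∈ S, ∃ a b, l = a ++ b ∧ a ∈ T) : ∑' l : S, wt μ l.1 ≤ ∑' a : T, wt μ a.1 := by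
  classical
  calc ∑' l : S, wt μ l.1
      ≤ ∑' l : S, ∑' a : T, (if ∃ b, l.1 = a.1 ++ b then wt μ l.1 else 0) := by
        refine ENNReal.tsum_le_tsum fun l => ?_
        obtain ⟨a, b, hab, ha⟩ := h l.1 l.2
        refine le_trans ?_ (ENNReal.le_tsum (⟨a, ha⟩ : T))
        rw [if_pos ⟨b, hab⟩]
    _ = ∑' a : T, ∑' l : S, (if ∃ b, l.1 = a.1 ++ b then wt μ l.1 else 0) := ENNReal.tsum_comm
    _ ≤ ∑' a : T, wt μ a.1 := by
        refine ENNReal.tsum_le_tsum fun a => ?_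
        refine le_trans ?_ (tsum_append_le μ hS a.1)
        have h1 : ∑' l : S, (if ∃ b, l.1 = a.1 ++ b then wt μ l.1 else 0) =
            ∑' l : List (Dir d), (if l ∈ S ∧ ∃ b, l = a.1 ++ b then wt μ l else 0) := by
          rw [tsum_subtype S (fun l => if ∃ b, l = a.1 ++ b then wt μ l else 0)]
          refine tsum_congr fun l => ?_
          by_cases hl : l ∈ S
          · simp only [hl, Set.indicator_of_mem, true_and]
          · simp only [hl, not_false_eq_true, Set.indicator_of_notMem, false_and, ↓reduceIte]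
        have h2 : ∑' c : {c : List (Dir d) | a.1 ++ c ∈ S}, wt μ (a.1 ++ c.1) =
            ∑' c : List (Dir d), (if a.1 ++ c ∈ S then wt μ (a.1 ++ c) else 0) := by
          rw [tsum_subtype {c : List (Dir d) | a.1 ++ c ∈ S} (fun c => wt μ (a.1 ++ c))]
          refine tsum_congr fun c => ?_
          by_cases hl : a.1 ++ c ∈ S
          · simp [hl]
          · simp [hl]
        rw [h1, h2]
        have hinj : Function.Injective (fun c : List (Dir d) => a.1 ++ c) :=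
          fun x y hxy => List.append_cancel_left hxy
        rw [← hinj.tsum_eq]
        · refine ENNReal.tsum_le_tsum fun c => ?_
          by_cases hl : a.1 ++ c ∈ S
          · simp only [hl, List.append_cancel_left_eq, exists_eq', and_self, ↓reduceIte, Std.le_refl]
          · simp only [hl, List.append_cancel_left_eq, exists_eq', and_true, ↓reduceIte, Std.le_refl]
        · intro l hl
          rw [Function.mem_support] at hl
          have : l ∈ S ∧ ∃ b, l = a.1 ++ b := by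
            by_contra hcon
            exact hl (if_neg hcon)
          obtain ⟨_, b, rfl⟩ := this
          exact ⟨b, rfl⟩

lemma abs_vec_le (u : Dir d) (k : Fin d) : |vec u k| ≤ 1 := by
  obtain ⟨i, s⟩ := u
  rcases eq_or_ne k i with rfl | h
  · cases s <;> simp only [vec, Bool.false_eq_true, ↓reduceIte, Int.reduceNeg, Pi.single_eq_same, abs_neg, abs_one, Std.le_refl]
  · simp only [vec, Int.reduceNeg, Pi.single_eq_of_ne h, abs_zero, zero_le_one]

lemma abs_dsp_le (l : List (Dir d)) (k : Fin d) : |dsp l k| ≤ l.length := by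
  induction l with
  | nil => simp only [dsp_nil, Pi.zero_apply, abs_zero, List.length_nil, CharP.cast_eq_zero, Std.le_refl]
  | cons u l ih =>
    rw [dsp_cons, Pi.add_apply]
    have h1 := abs_add_le (vec u k) (dsp l k)
    have h2 := abs_vec_le u k
    simp only [List.length_cons, Nat.cast_add, Nat.cast_one]
    linarith only [ih, h1, h2]

lemma mem_exits_prefix {a b : List (Dir d)} (hb : b ≠ []) : dsp a ∈ exits 0 (a ++ b) :=
  mem_exits.2 ⟨a, b, rfl, hb, by simp⟩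

lemma dep_site {L : Site d →+ ℝ} {N s : ℕ} (hN : 1 ≤ N) (hs : 1 ≤ s)
    {π : List (Dir d)} (hπ : π ∈ Fp L (N : ℝ)) (hT : π ∉ Tube L N s) :
    ∃ a b, π = a ++ b ∧ b ≠ [] ∧ ∃ k, ((s : ℝ) - 1) * (1 + L (dsp a)) < |((dsp a k : ℤ) : ℝ)| := by
  have hN' : (1 : ℝ) ≤ N := by exact_mod_cast hN
  have hs' : (1 : ℝ) ≤ s := by exact_mod_cast hs
  have hex : ∃ a b, π = a ++ b ∧ ∃ k, (s : ℝ) * (1 + L (dsp a)) < |((dsp a k : ℤ) : ℝ)| := by
    by_contra hcon
    push Not at hcon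
    exact hT ⟨hπ, fun a b hab i => hcon a b hab i⟩
  obtain ⟨a, b, hab, k, hk⟩ := hex
  rcases eq_or_ne b [] with rfl | hb
  · rw [List.append_nil] at hab
    subst hab
    rcases List.eq_nil_or_concat' π with h0 | ⟨a', u, h0⟩
    · exfalso
      have := hπ.2
      rw [h0] at this
      simp only [dsp_nil, map_zero] at this
      linarith only [hN', this]
    · have h1 := hπ.1 (dsp a') (by rw [h0]; exact mem_exits_prefix (by simp))
      have h2 := hπ.2
      refine ⟨a', [u], h0, by simp, k, ?_⟩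
      have h3 : |((dsp π k : ℤ) : ℝ)| ≤ |((dsp a' k : ℤ) : ℝ)| + 1 := by
        rw [h0, dsp_append, Pi.add_apply]
        have h4 := abs_add_le (dsp a' k) (dsp [u] k)
        have h5 := abs_dsp_le [u] k
        simp only [List.length_cons, List.length_nil, zero_add, Nat.cast_one] at h5
        have h6 : |dsp a' k + dsp [u] k| ≤ |dsp a' k| + 1 := by linarith only [h4, h5]
        exact_mod_cast h6
      nlinarith only [hk, h1, h3, h2]
  · have h1 := hπ.1 (dsp a) (by rw [hab]; exact mem_exits_prefix hb)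
    refine ⟨a, b, hab, hb, k, ?_⟩
    linarith only [hk, h1]

lemma decomp {L : Site d →+ ℝ} {i0 j σ : ℕ} (hσ : 1 ≤ σ) {π : List (Dir d)}
    (hπ : π ∈ Fp L ((2 ^ i0 * 2 ^ (j + 1) : ℕ) : ℝ))
    (hT : π ∉ Tube L (2 ^ i0 * 2 ^ (j + 1)) (4 * σ)) :
    ∃ i ≤ j + 1, (∃ a b, π = a ++ b ∧
      a ∈ Rch L (min ((2 : ℝ) ^ i0 * 2 ^ (i + 1)) (2 ^ i0 * 2 ^ (j + 1))) (σ * 2 ^ i)) ∨
      (i ≤ j ∧ π ∈ Strad L ((2 ^ i0 * 2 ^ (j + 1) : ℕ) : ℝ) (i0 + i)) := by
  classical
  have hσ' : (1 : ℝ) ≤ σ := by exact_mod_cast hσ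
  have hN1 : 1 ≤ 2 ^ i0 * 2 ^ (j + 1) := Nat.mul_pos (by positivity) (by positivity)
  obtain ⟨a, b, hab, hb, k, hk⟩ := dep_site hN1 (by omega) hπ hT
  have hcast : ((2 ^ i0 * 2 ^ (j + 1) : ℕ) : ℝ) = 2 ^ i0 * 2 ^ (j + 1) := by push_cast; ring
  -- all prefixes of `a` are departure sites of `π`
  have hpre : ∀ a2 b2, a = a2 ++ b2 → 0 ≤ L (dsp a2) ∧ L (dsp a2) < 2 ^ i0 * 2 ^ (j + 1) := by
    intro a2 b2 h2
    have := hπ.1 (dsp a2) (by
      rw [hab, h2, List.append_assoc]; exact mem_exits_prefix (by simp [hb]))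
    rw [hcast] at this
    exact this
  have hP : ∃ i, L (dsp a) < 2 ^ i0 * 2 ^ i := ⟨j + 1, (hpre a [] (by simp)).2⟩
  set i := Nat.find hP with hi
  have hi1 : L (dsp a) < 2 ^ i0 * 2 ^ i := Nat.find_spec hP
  have hij : i ≤ j + 1 := Nat.find_min' hP (hpre a [] (by simp)).2
  have hi2 : (2 : ℝ) ^ i ≤ 2 * (1 + L (dsp a)) := by
    rcases Nat.eq_zero_or_pos i with h0 | h0
    · rw [h0, pow_zero]
      have := (hpre a [] (by simp)).1
      linarith only [this]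
    · obtain ⟨i', hi'⟩ : ∃ i', i = i' + 1 := ⟨i - 1, by omega⟩
      have h3 : ¬ (L (dsp a) < 2 ^ i0 * 2 ^ i') := Nat.find_min hP (by omega)
      push Not at h3
      rw [hi', pow_succ]
      have h4 : (1 : ℝ) ≤ 2 ^ i0 := one_le_pow₀ (by norm_num)
      have h5 : (0 : ℝ) < 2 ^ i' := by positivity
      nlinarith only [h3, h4, h5]
  have hk2 : (σ : ℝ) * 2 ^ i < |((dsp a k : ℤ) : ℝ)| := by
    refine lt_of_le_of_lt ?_ hk
    push_cast
    have h5 : (0 : ℝ) < 2 ^ i := by positivity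
    nlinarith only [hi2, h5, hσ']
  have hout : dsp a ∉ bx d (σ * 2 ^ i) := by
    intro hmem
    rw [bx, Fintype.mem_piFinset] at hmem
    have h6 := Finset.mem_Icc.1 (hmem k)
    have h7 : |dsp a k| ≤ ((σ * 2 ^ i : ℕ) : ℤ) := abs_le.2 ⟨h6.1, h6.2⟩
    have h8 : |((dsp a k : ℤ) : ℝ)| ≤ (σ : ℝ) * 2 ^ i := by
      have : ((|dsp a k| : ℤ) : ℝ) ≤ (((σ * 2 ^ i : ℕ) : ℤ) : ℝ) := by exact_mod_cast h7
      push_cast at this
      exact this
    linarith only [hk2, h8]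
  have hM : ∃ m, dsp (a.take m) ∉ bx d (σ * 2 ^ i) := ⟨a.length, by rw [List.take_length]; exact hout⟩
  set m := Nat.find hM with hm
  have hm1 : dsp (a.take m) ∉ bx d (σ * 2 ^ i) := Nat.find_spec hM
  have hm2 : m ≤ a.length := Nat.find_min' hM (by rw [List.take_length]; exact hout)
  have hsplit : a = a.take m ++ a.drop m := (List.take_append_drop m a).symm
  by_cases hlev : ∀ a2 b2, a.take m = a2 ++ b2 → L (dsp a2) < 2 ^ i0 * 2 ^ (i + 1)
  · refine ⟨i, hij, Or.inl ⟨a.take m, a.drop m ++ b, by rw [← List.append_assoc, ← hsplit, hab],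
      ?_, ?_, hm1⟩⟩
    · intro x hx
      obtain ⟨a2, b2, h2, hb2, rfl⟩ := mem_exits.1 hx
      rw [zero_add]
      have h3 := hpre a2 (b2 ++ a.drop m) (by rw [← List.append_assoc, ← h2, ← hsplit])
      refine ⟨⟨by linarith only [h3], lt_min (hlev a2 b2 h2) h3.2⟩, ?_⟩
      have h4 : a2.length < m := by
        have := congrArg List.length h2
        rw [List.length_take, List.length_append] at this
        have h5 : 0 < b2.length := List.length_pos_iff.2 hb2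
        (clear * - hP hM hm2 this h5; omega)
      have h6 : a.take a2.length = a2 := by
        conv_lhs => rw [hsplit, h2]
        simp
      by_contra hcon
      exact Nat.find_min hM h4 (by rw [h6]; exact hcon)
    · have h3 := hpre (a.take m) (a.drop m) hsplit
      exact ⟨by linarith only [h3], lt_min (hlev (a.take m) [] (by simp)) h3.2⟩
  · push Not at hlev
    obtain ⟨a2, b2, h2, h3⟩ := hlev
    have h4 := hpre a2 (b2 ++ a.drop m) (by rw [← List.append_assoc, ← h2, ← hsplit])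
    have h5 : i ≤ j := by
      by_contra hcon
      have h6 : i = j + 1 := by omega
      have h7 : (2 : ℝ) ^ i0 * 2 ^ (i + 1) < 2 ^ i0 * 2 ^ (j + 1) := lt_of_le_of_lt h3 h4.2
      rw [h6, pow_succ] at h7
      have h8 : (0 : ℝ) < 2 ^ i0 * 2 ^ (j + 1) := by positivity
      nlinarith only [h4, h7]
    have h6 : a = a2 ++ (b2 ++ a.drop m) := by rw [← List.append_assoc, ← h2, ← hsplit]
    refine ⟨i, hij, Or.inr ⟨h5, hπ, a2, b2 ++ a.drop m, b, by rw [← h6, hab], ?_, ?_⟩⟩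
    · rw [add_assoc, pow_add]; exact h3
    · rw [← h6, pow_add]; exact hi1

lemma tsum_cover {X : Type*} (f : X → ℝ≥0∞) {S T : Set X} (A : ℕ → Set X) (B : ℕ → Set X) (m n : ℕ)
    (h : ∀ x ∈ S, x ∈ T ∨ (∃ i < m, x ∈ A i) ∨ ∃ i < n, x ∈ B i) :
    ∑' x : S, f x ≤ ∑' x : T, f x + ∑ i ∈ Finset.range m, ∑' x : A i, f x +
      ∑ i ∈ Finset.range n, ∑' x : B i, f x := by
  have h1 : S ⊆ (T ∪ ⋃ i ∈ Finset.range m, A i) ∪ ⋃ i ∈ Finset.range n, B i := by
    intro x hx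
    rcases h x hx with h | ⟨i, hi, h⟩ | ⟨i, hi, h⟩
    · exact Or.inl (Or.inl h)
    · exact Or.inl (Or.inr (Set.mem_biUnion (Finset.mem_coe.2 (Finset.mem_range.2 hi)) h))
    · exact Or.inr (Set.mem_biUnion (Finset.mem_coe.2 (Finset.mem_range.2 hi)) h)
  refine (ENNReal.tsum_mono_subtype f h1).trans ?_
  refine (ENNReal.tsum_union_le f _ _).trans ?_
  gcongr
  · refine (ENNReal.tsum_union_le f _ _).trans ?_
    gcongr
    exact ENNReal.tsum_biUnion_le f _ _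
  · exact ENNReal.tsum_biUnion_le f _ _

lemma geom_le {y : ℝ≥0∞} (hy : y ≤ 1 / 2) (j : ℕ) :
    ∑ i ∈ Finset.range (j + 1), y ^ (j + 1 - i) ≤ 2 * y := by
  have h1 : ∑ i ∈ Finset.range (j + 1), y ^ (j + 1 - i) =
      ∑ i ∈ Finset.range (j + 1), y ^ (i + 1) := by
    rw [← Finset.sum_range_reflect]
    refine Finset.sum_congr rfl fun i hi => ?_
    have := Finset.mem_range.1 hi
    congr 1
    omega
  rw [h1]
  calc ∑ i ∈ Finset.range (j + 1), y ^ (i + 1) ≤ ∑' i : ℕ, y ^ (i + 1) :=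
        ENNReal.sum_le_tsum _
    _ = (∑' i : ℕ, y ^ i) * y := by rw [← ENNReal.tsum_mul_right]; simp only [pow_succ]
    _ = (1 - y)⁻¹ * y := by rw [ENNReal.tsum_geometric]
    _ ≤ 2 * y := by
        gcongr
        rw [ENNReal.inv_le_iff_inv_le]
        refine ENNReal.le_sub_of_add_le_left (ne_top_of_le_ne_top (by simp) hy) ?_
        calc y + 2⁻¹ ≤ 1 / 2 + 2⁻¹ := by gcongr
          _ = 1 := by rw [one_div, ENNReal.inv_two_add_inv_two]

lemma width_arith {σ0 B M K i j : ℕ} (hB : B = 96 * M * (K + 1)) (hM : 1 ≤ M) (hij : i ≤ j) :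
    24 * (4 * (σ0 * B ^ i)) * (M * 2 ^ i) * ((j + 1 - i) * K + 1) ≤ σ0 * B ^ (j + 1) * 2 ^ i := by
  obtain ⟨m, rfl⟩ : ∃ m, j = i + m := ⟨j - i, by omega⟩
  have h1 : i + m + 1 - i = m + 1 := by omega
  rw [h1]
  have hB2 : 2 ≤ B := by
    rw [hB]
    nlinarith only [hM]
  have h2 : m + 1 ≤ B ^ m := Nat.lt_pow_self (by omega)
  have h3 : 96 * M * ((m + 1) * K + 1) ≤ B ^ (m + 1) := by
    rw [pow_succ]
    calc 96 * M * ((m + 1) * K + 1) ≤ 96 * M * ((m + 1) * (K + 1)) := by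
          gcongr; nlinarith only []
      _ = (m + 1) * B := by rw [hB]; ring
      _ ≤ B ^ m * B := by (clear * - h2; gcongr)
  calc 24 * (4 * (σ0 * B ^ i)) * (M * 2 ^ i) * ((m + 1) * K + 1)
      = σ0 * B ^ i * 2 ^ i * (96 * M * ((m + 1) * K + 1)) := by ring
    _ ≤ σ0 * B ^ i * 2 ^ i * B ^ (m + 1) := by (clear * - h3; gcongr)
    _ = σ0 * B ^ (i + m + 1) * 2 ^ i := by rw [add_assoc, pow_add B i (m + 1)]; ring

open Classical in
theorem rec_step {L : Site d →+ ℝ} (hL : Lvl L) {u0 : Dir d} (hu0 : L (vec u0) = 1)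
    {q y : ℝ≥0∞} (hq1 : q ≤ 1) (hq : ∀ a, q ≤ fu μ L a) {ε : ℕ → ℝ≥0∞}
    (hε : ∀ i (N : ℝ), ∑' π : Strad L N i, wt μ π.1 ≤ ε i) {i0 σ0 K B j : ℕ} (hσ0 : 1 ≤ σ0)
    (hB : B = 96 * 2 ^ i0 * (K + 1)) (htail : ∑' i, ε (i0 + i) ≤ q / 4)
    (hy : y = (1 - (wt μ [u0] * (q / 2)) ^ 2) ^ K) (hy2 : y ≤ 1 / 2) (hyq : 6 * d * y ≤ q / 4)
    (ih : ∀ i ≤ j, q / 2 ≤ ∑' l : Tube L (2 ^ i0 * 2 ^ i) (4 * (σ0 * B ^ i)), wt μ l.1) :
    q / 2 ≤ ∑' l : Tube L (2 ^ i0 * 2 ^ (j + 1)) (4 * (σ0 * B ^ (j + 1))), wt μ l.1 := by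
  have hB1 : 1 ≤ B := by
    rw [hB]
    exact Nat.mul_pos (Nat.mul_pos (by norm_num) (by positivity)) (by omega)
  set σ := σ0 * B ^ (j + 1) with hσdef
  have hσ : 1 ≤ σ := Nat.mul_pos hσ0 (Nat.pow_pos hB1)
  set N : ℝ := ((2 ^ i0 * 2 ^ (j + 1) : ℕ) : ℝ) with hN
  have hNcast : N = 2 ^ i0 * 2 ^ (j + 1) := by rw [hN]; push_cast; ring
  set RR : ℕ → Set (List (Dir d)) := fun i =>
    Rch L (min ((2 : ℝ) ^ i0 * 2 ^ (i + 1)) (2 ^ i0 * 2 ^ (j + 1))) (σ * 2 ^ i) with hRR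
  set A : ℕ → Set (List (Dir d)) := fun i =>
    {π | π ∈ Fp L N ∧ ∃ a b, π = a ++ b ∧ a ∈ RR i} with hA
  set St : ℕ → Set (List (Dir d)) := fun i => Strad L N (i0 + i) with hSt
  have hcov := tsum_cover (fun l => wt μ l) (S := Fp L N) (T := Tube L (2 ^ i0 * 2 ^ (j + 1)) (4 * σ))
    A St (j + 2) (j + 1) (by
      intro π hπ
      by_cases hT : π ∈ Tube L (2 ^ i0 * 2 ^ (j + 1)) (4 * σ)
      · exact Or.inl hT
      · obtain ⟨i, hi, h | ⟨hi2, h⟩⟩ := decomp hσ hπ hT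
        · exact Or.inr (Or.inl ⟨i, by omega, hπ, h⟩)
        · exact Or.inr (Or.inr ⟨i, by omega, h⟩))
  have hA1 : ∀ i, ∑' π : A i, wt μ π.1 ≤ ∑' π : RR i, wt μ π.1 := by
    intro i
    refine tsum_prefix_le μ (S := A i) (T := RR i) ?_ fun l hl => hl.2
    intro a ha b hb
    exact Fp_free L N a ha.1 b hb.1
  -- lateral estimates
  have hlat : ∀ i ≤ j, ∑' π : RR i, wt μ π.1 ≤ 2 * d * y ^ (j + 1 - i) := by
    intro i hi
    have h1 := lateral μ hL hu0 (n := 2 ^ i0 * 2 ^ i) (s := 4 * (σ0 * B ^ i))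
      (k := (j + 1 - i) * K) (R := σ * 2 ^ i) (g := q / 2)
      (t := min ((2 : ℝ) ^ i0 * 2 ^ (i + 1)) (2 ^ i0 * 2 ^ (j + 1)))
      (Nat.mul_pos (by positivity) (by positivity))
      (Nat.mul_pos (by norm_num) (Nat.mul_pos hσ0 (Nat.pow_pos hB1))) (ih i hi)
      ((min_le_left _ _).trans (by push_cast; rw [pow_succ]; linarith only []))
      (width_arith hB Nat.one_le_two_pow hi)
    refine h1.trans (le_of_eq ?_)
    rw [hy, ← pow_mul, mul_comm K]
  have hlast : ∑' π : RR (j + 1), wt μ π.1 ≤ 2 * d * y := by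
    have h1 := lateral μ hL hu0 (n := 2 ^ i0 * 2 ^ j) (s := 4 * (σ0 * B ^ j))
      (k := K) (R := σ * 2 ^ (j + 1)) (g := q / 2)
      (t := min ((2 : ℝ) ^ i0 * 2 ^ (j + 1 + 1)) (2 ^ i0 * 2 ^ (j + 1)))
      (Nat.mul_pos (by positivity) (by positivity))
      (Nat.mul_pos (by norm_num) (Nat.mul_pos hσ0 (Nat.pow_pos hB1))) (ih j le_rfl)
      ((min_le_right _ _).trans (by push_cast; rw [pow_succ]; linarith only []))
      (by
        have := width_arith (σ0 := σ0) (i := j) (j := j) hB Nat.one_le_two_pow le_rfl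
        rw [show j + 1 - j = 1 by (clear * -; omega), one_mul] at this
        refine this.trans ?_
        rw [hσdef]
        exact Nat.mul_le_mul_left _ (Nat.pow_le_pow_right (by norm_num) (by omega)))
    refine h1.trans (le_of_eq ?_)
    rw [hy]
  have hsumA : ∑ i ∈ Finset.range (j + 2), ∑' x : A i, wt μ x ≤ q / 4 := by
    rw [Finset.sum_range_succ]
    calc _ ≤ ∑ i ∈ Finset.range (j + 1), 2 * d * y ^ (j + 1 - i) + 2 * d * y := by
          gcongr with i hi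
          · exact (hA1 i).trans (hlat i (by have := Finset.mem_range.1 hi; omega))
          · exact (hA1 _).trans hlast
      _ = 2 * d * ∑ i ∈ Finset.range (j + 1), y ^ (j + 1 - i) + 2 * d * y := by
          rw [Finset.mul_sum]
      _ ≤ 2 * d * (2 * y) + 2 * d * y := by
          gcongr
          exact geom_le hy2 j
      _ = 6 * d * y := by ring
      _ ≤ q / 4 := hyq
  have hsumS : ∑ i ∈ Finset.range (j + 1), ∑' x : St i, wt μ x ≤ q / 4 := by
    calc _ ≤ ∑ i ∈ Finset.range (j + 1), ε (i0 + i) := by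
          gcongr with i hi
          exact hε _ _
      _ ≤ ∑' i, ε (i0 + i) := ENNReal.sum_le_tsum _
      _ ≤ q / 4 := htail
  have hfu : q ≤ ∑' x : Fp L N, wt μ x := hq N
  have h4 : q / 4 + q / 4 = q / 2 := by
    rw [show q / 4 + q / 4 = q * (4⁻¹ + 4⁻¹) by rw [mul_add]; simp only [ENNReal.div_eq_inv_mul, mul_comm]]
    rw [show (4 : ℝ≥0∞)⁻¹ = 2⁻¹ * 2⁻¹ by
      rw [← ENNReal.mul_inv (by simp) (by simp)]; norm_num]
    rw [← mul_add, ENNReal.inv_two_add_inv_two, mul_one, ENNReal.div_eq_inv_mul, mul_comm]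
  have hfin : q / 2 ≠ ⊤ := ne_top_of_le_ne_top ENNReal.one_ne_top
    ((ENNReal.div_le_of_le_mul (by
      calc q ≤ 1 := hq1
        _ ≤ 1 * 2 := by norm_num)))
  have hfinal : q / 2 + q / 2 ≤ ∑' l : Tube L (2 ^ i0 * 2 ^ (j + 1)) (4 * σ), wt μ l.1 + q / 2 := by
    rw [ENNReal.add_halves]
    calc q ≤ _ := hfu
      _ ≤ _ := hcov
      _ ≤ ∑' l : Tube L (2 ^ i0 * 2 ^ (j + 1)) (4 * σ), wt μ l.1 + q / 4 + q / 4 := by (clear * - hsumA hsumS; (clear * - hsumA hsumS; gcongr))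
      _ = _ := by rw [add_assoc, h4]
  exact (ENNReal.add_le_add_iff_right hfin).1 hfinal

lemma q_le_one {L : Site d →+ ℝ} {q : ℝ≥0∞} (hq : ∀ a, q ≤ fu μ L a) : q ≤ 1 :=
  (hq 0).trans (tsum_wt_le_one μ (Fp_free L 0))

omit [IsProbabilityMeasure μ] in
lemma tube_base {L : Site d →+ ℝ} {M : ℕ} {q : ℝ≥0∞} (hq0 : q ≠ 0) (hq1 : q ≤ 1)
    (hq : q ≤ fu μ L M) :
    ∃ s : ℕ, 1 ≤ s ∧ q / 2 ≤ ∑' l : Tube L M (4 * s), wt μ l.1 := by
  classical
  have h1 : q / 2 < ∑' l : Fp L (M : ℝ), wt μ l.1 :=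
    lt_of_lt_of_le (ENNReal.half_lt_self hq0 (ne_top_of_le_ne_top ENNReal.one_ne_top hq1)) hq
  rw [ENNReal.tsum_eq_iSup_sum, lt_iSup_iff] at h1
  obtain ⟨F, hF⟩ := h1
  refine ⟨1 + F.sup fun l => l.1.length, by omega, hF.le.trans ?_⟩
  have h2 : ∑ x ∈ F, wt μ x.1 =
      ∑' l : ((F.map (Function.Embedding.subtype _) : Finset (List (Dir d))) : Set (List (Dir d))),
        wt μ l.1 := by
    rw [Finset.tsum_subtype' (F.map (Function.Embedding.subtype _)) (fun l => wt μ l),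
      Finset.sum_map]
    rfl
  rw [h2]
  refine ENNReal.tsum_mono_subtype (fun l => wt μ l) ?_
  intro l hl
  rw [Finset.mem_coe, Finset.mem_map] at hl
  obtain ⟨⟨l, hlF⟩, hlm, rfl⟩ := hl
  refine ⟨hlF, fun a b hab k => ?_⟩
  change l = a ++ b at hab
  have h3 : 0 ≤ L (dsp a) := by
    rcases eq_or_ne b [] with rfl | hb
    · rw [List.append_nil] at hab
      rw [← hab]
      exact le_trans (Nat.cast_nonneg M) hlF.2
    · exact (hlF.1 (dsp a) (by rw [hab]; exact mem_exits_prefix hb)).1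
  have h4 := abs_dsp_le a k
  have h5 : a.length ≤ l.length := by rw [hab, List.length_append]; omega
  have h6 : l.length ≤ F.sup fun l => l.1.length :=
    Finset.le_sup (f := fun l : Fp L (M : ℝ) => l.1.length) hlm
  have h7 : |((dsp a k : ℤ) : ℝ)| ≤ (F.sup fun l => l.1.length : ℕ) := by
    have h8 : |dsp a k| ≤ ((F.sup fun l => l.1.length : ℕ) : ℤ) := by
      refine h4.trans ?_
      exact_mod_cast h5.trans h6
    exact_mod_cast h8
  refine h7.trans ?_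
  push_cast
  have h9 : (0 : ℝ) ≤ ((F.sup fun l => l.1.length : ℕ) : ℝ) := Nat.cast_nonneg _
  nlinarith only [h3]

theorem tube_growth {L : Site d →+ ℝ} (hL : Lvl L) (hμ : Elliptic μ) {q : ℝ≥0∞}
    (hq0 : q ≠ 0) (hq : ∀ a, q ≤ fu μ L a) :
    ∃ M s0 B : ℕ, 1 ≤ M ∧ 1 ≤ s0 ∧ 1 ≤ B ∧
      ∀ j, q / 2 ≤ ∑' l : Tube L (M * 2 ^ j) (s0 * B ^ j), wt μ l.1 := by
  have hq1 := q_le_one μ hq
  have hqt : q ≠ ⊤ := ne_top_of_le_ne_top ENNReal.one_ne_top hq1
  obtain ⟨u0, hu0⟩ := hL.top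
  obtain ⟨ε, hε1, hε⟩ := strad_sum_of μ hL hμ (mean_height μ hL hq0 hq)
  have hq4 : 0 < q / 4 := ENNReal.div_pos hq0 (by simp)
  obtain ⟨i0, hi0⟩ : ∃ i0, ∑' i, ε (i0 + i) ≤ q / 4 := by
    have h1 := ENNReal.tendsto_sum_nat_add ε hε1
    obtain ⟨i0, h2⟩ := (h1.eventually (ge_mem_nhds hq4)).exists
    exact ⟨i0, by simpa only [add_comm] using h2⟩
  set θ : ℝ≥0∞ := 1 - (wt μ [u0] * (q / 2)) ^ 2 with hθ
  have hθ1 : θ < 1 := by
    refine ENNReal.sub_lt_self ENNReal.one_ne_top one_ne_zero ?_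
    exact pow_ne_zero _ (mul_ne_zero (wt_ne_zero μ hμ _) (ENNReal.div_pos hq0 (by simp)).ne')
  obtain ⟨K, hK1, hK2⟩ : ∃ K : ℕ, θ ^ K ≤ 1 / 2 ∧ 6 * d * θ ^ K ≤ q / 4 := by
    have h1 := ENNReal.tendsto_pow_atTop_nhds_zero_of_lt_one hθ1
    have h2 : Filter.Tendsto (fun K : ℕ => 6 * (d : ℝ≥0∞) * θ ^ K) Filter.atTop (nhds 0) := by
      have := ENNReal.Tendsto.const_mul (a := 6 * (d : ℝ≥0∞)) h1
        (Or.inr (ENNReal.mul_ne_top (by simp) (ENNReal.natCast_ne_top d)))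
      simpa only [mul_zero] using this
    exact ((h1.eventually (ge_mem_nhds (by simp))).and
      (h2.eventually (ge_mem_nhds hq4))).exists
  obtain ⟨σ0, hσ0, hbase⟩ := tube_base μ (L := L) (M := 2 ^ i0) hq0 hq1 (hq _)
  set B := 96 * 2 ^ i0 * (K + 1) with hB
  have hall : ∀ j, ∀ i ≤ j, q / 2 ≤ ∑' l : Tube L (2 ^ i0 * 2 ^ i) (4 * (σ0 * B ^ i)),
      wt μ l.1 := by
    intro j
    induction j with
    | zero =>
      intro i hi
      obtain rfl : i = 0 := by omega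
      have h3 : Tube L (2 ^ i0 * 2 ^ 0) (4 * (σ0 * B ^ 0)) = Tube L (2 ^ i0) (4 * σ0) := by
        rw [pow_zero, pow_zero, mul_one, mul_one]
      rw [h3]
      exact hbase
    | succ j ih =>
      intro i hi
      rcases Nat.lt_or_ge i (j + 1) with h | h
      · exact ih i (by omega)
      · obtain rfl : i = j + 1 := by omega
        exact rec_step μ hL hu0 hq1 hq hε hσ0 hB hi0 rfl hK1 hK2 ih
  refine ⟨2 ^ i0, 4 * σ0, B, Nat.one_le_two_pow, by (clear * - hσ0; omega), ?_, fun j => ?_⟩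
  · rw [hB]
    exact Nat.mul_pos (Nat.mul_pos (by norm_num) (by positivity)) (by omega)
  · rw [mul_assoc]
    exact hall j j le_rfl

end Vale.Agent.P147.Z.Gr
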