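import Vale.Agent.P147.Z.Base

/-! Exponential moment of an increasing process on the tree of lists (Khasminskii, Garsia). -/

open MeasureTheory Filter
open scoped ENNReal

namespace Vale.Agent.P147.Z

variable {d : ℕ}

/-- Lists of steps of a given length. -/
def wds (d : ℕ) : ℕ → Finset (List (Dir d))
  | 0 => {[]}
  | n + 1 => (Finset.univ ×ˢ wds d n).image (fun p : Dir d × List (Dir d) => p.1 :: p.2)

/-- Sum over the lists of length `n + 1`: the first step is split off. -/
lemma sum_wds_succ {M : Type*} [AddCommMonoid M] (n : ℕ) (f : List (Dir d) → M) :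
    ∑ g ∈ wds d (n + 1), f g = ∑ u : Dir d, ∑ g ∈ wds d n, f (u :: g) := by
  rw [wds, Finset.sum_image]
  · rw [Finset.sum_product]
  · rintro ⟨u, l⟩ _ ⟨v, l'⟩ _ h
    simpa using h

@[simp] lemma sum_wds_zero {M : Type*} [AddCommMonoid M] (f : List (Dir d) → M) :
    ∑ g ∈ wds d 0, f g = f [] := by
  simp only [wds, Finset.sum_singleton]

/-- Sum of `a` over the proper prefixes of `γ`, appended to `l`. -/
def sumX {M : Type*} [AddMonoid M] (a : List (Dir d) → M) : List (Dir d) → List (Dir d) → M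
  | _, [] => 0
  | l, u :: g => a l + sumX a (l ++ [u]) g

@[simp] lemma sumX_nil {M : Type*} [AddMonoid M] (a : List (Dir d) → M) (l : List (Dir d)) :
    sumX a l [] = 0 := rfl

@[simp] lemma sumX_cons {M : Type*} [AddMonoid M] (a : List (Dir d) → M) (l : List (Dir d))
    (u : Dir d) (g : List (Dir d)) :
    sumX a l (u :: g) = a l + sumX a (l ++ [u]) g := rfl

lemma sumX_append {M : Type*} [AddMonoid M] (a : List (Dir d) → M) (l g g' : List (Dir d)) :
    sumX a l (g ++ g') = sumX a l g + sumX a (l ++ g) g' := by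
  induction g generalizing l with
  | nil => simp
  | cons u g ih => simp [ih, add_assoc]

section tree

variable (w a : List (Dir d) → ℝ)

/-- Total weight of the extensions of a list. -/
lemma sum_ext {R : Type*} [AddCommMonoid R] {w : List (Dir d) → R}
    (hw : ∀ l, ∑ u : Dir d, w (l ++ [u]) = w l) (k : ℕ) (l : List (Dir d)) :
    ∑ g ∈ wds d k, w (l ++ g) = w l := by
  induction k generalizing l with
  | zero => simp
  | succ k ih =>
    rw [sum_wds_succ]
    calc _ = ∑ u : Dir d, ∑ g ∈ wds d k, w ((l ++ [u]) ++ g) := by simp only [List.append_assoc, List.cons_append, List.nil_append]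
      _ = ∑ u : Dir d, w (l ++ [u]) := by simp only [ih]
      _ = w l := hw l

/-- Potential of the increasing process. -/
noncomputable def pot (k : ℕ) (l : List (Dir d)) : ℝ :=
  ∑ g ∈ wds d k, w (l ++ g) * sumX a l g

/-- Exponential functional. -/
noncomputable def expo (θ : ℝ) (k : ℕ) (l : List (Dir d)) : ℝ :=
  ∑ g ∈ wds d k, w (l ++ g) * Real.exp (θ * sumX a l g)

variable {w a}

lemma pot_succ (hw : ∀ l, ∑ u : Dir d, w (l ++ [u]) = w l) (k : ℕ) (l : List (Dir d)) :
    pot w a (k + 1) l = a l * w l + ∑ u : Dir d, pot w a k (l ++ [u]) := by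
  have h1 := sum_ext hw (k + 1) l
  rw [sum_wds_succ] at h1
  rw [pot, sum_wds_succ]
  simp only [pot, sumX_cons, mul_add, Finset.sum_add_distrib, ← Finset.sum_mul]
  rw [h1, mul_comm (w l)]
  simp only [List.append_assoc, List.cons_append, List.nil_append]

lemma expo_succ (θ : ℝ) (k : ℕ) (l : List (Dir d)) :
    expo w a θ (k + 1) l = Real.exp (θ * a l) * ∑ u : Dir d, expo w a θ k (l ++ [u]) := by
  rw [expo, sum_wds_succ]
  simp only [expo, sumX_cons, mul_add, Real.exp_add, Finset.mul_sum]
  refine Finset.sum_congr rfl fun u _ => Finset.sum_congr rfl fun g _ => ?_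
  simp only [List.append_assoc, List.cons_append, List.nil_append]
  ring

/-- **Exponential moment** of an increasing process with bounded potential. -/
theorem expo_le (hw : ∀ l, ∑ u : Dir d, w (l ++ [u]) = w l) (hw0 : ∀ l, 0 ≤ w l)
    (ha0 : ∀ l, 0 ≤ a l) {G θ : ℝ} (hθ : 0 ≤ θ) (hG : θ * G ≤ 1 / 2)
    (hP : ∀ k l, pot w a k l ≤ G * w l) (k : ℕ) (l : List (Dir d)) :
    expo w a θ k l ≤ w l + 2 * θ * pot w a k l := by
  induction k generalizing l with
  | zero => simp only [expo, sum_wds_zero, List.append_nil, sumX_nil, mul_zero, Real.exp_zero, mul_one, pot, add_zero, Std.le_refl]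
  | succ k ih =>
    have h1 : ∑ u : Dir d, expo w a θ k (l ++ [u]) ≤
        w l + 2 * θ * (pot w a (k + 1) l - a l * w l) := by
      calc _ ≤ ∑ u : Dir d, (w (l ++ [u]) + 2 * θ * pot w a k (l ++ [u])) :=
            Finset.sum_le_sum fun u _ => ih _
        _ = _ := by
            rw [Finset.sum_add_distrib, hw, ← Finset.mul_sum, pot_succ hw]
            ring
    rw [expo_succ]
    have hx : 0 ≤ θ * a l := mul_nonneg hθ (ha0 l)
    have hp : 2 * θ * pot w a (k + 1) l ≤ w l := by
      have := mul_le_mul_of_nonneg_left (hP (k + 1) l) (by linarith only [hθ] : (0 : ℝ) ≤ 2 * θ)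
      have h2 : 2 * θ * (G * w l) = (2 * (θ * G)) * w l := by ring
      rw [h2] at this
      have h3 : (2 * (θ * G)) * w l ≤ 1 * w l :=
        mul_le_mul_of_nonneg_right (by linarith only [hG]) (hw0 l)
      linarith only [this, h3]
    have hp0 : 0 ≤ pot w a (k + 1) l := by
      have hs : ∀ (l' g : List (Dir d)), 0 ≤ sumX a l' g := by
        intro l' g
        induction g generalizing l' with
        | nil => simp
        | cons u g ihg => exact add_nonneg (ha0 _) (ihg _)
      exact Finset.sum_nonneg fun g _ => mul_nonneg (hw0 _) (hs _ _)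
    have hq : 0 ≤ 2 * θ * pot w a (k + 1) l := by (clear * - hθ hp0; positivity)
    have he : 1 - θ * a l ≤ Real.exp (-(θ * a l)) := by
      have := Real.add_one_le_exp (-(θ * a l)); linarith only [this]
    have key : w l + 2 * θ * (pot w a (k + 1) l - a l * w l) ≤
        Real.exp (-(θ * a l)) * (w l + 2 * θ * pot w a (k + 1) l) := by
      calc _ ≤ (1 - θ * a l) * (w l + 2 * θ * pot w a (k + 1) l) := by
            nlinarith only [hx, hp]
        _ ≤ _ := mul_le_mul_of_nonneg_right he (by linarith only [hp, hq])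
    calc _ ≤ Real.exp (θ * a l) * (Real.exp (-(θ * a l)) *
          (w l + 2 * θ * pot w a (k + 1) l)) :=
          mul_le_mul_of_nonneg_left (h1.trans key) (Real.exp_pos _).le
      _ = _ := by
          rw [← mul_assoc, ← Real.exp_add, add_neg_cancel, Real.exp_zero, one_mul]

/-- Markov form. -/
theorem tail_le (hw : ∀ l, ∑ u : Dir d, w (l ++ [u]) = w l) (hw0 : ∀ l, 0 ≤ w l)
    (ha0 : ∀ l, 0 ≤ a l) {G θ : ℝ} (hθ : 0 ≤ θ) (hG : θ * G ≤ 1 / 2)
    (hP : ∀ k l, pot w a k l ≤ G * w l) (k : ℕ) (l : List (Dir d)) (x : ℝ)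
    (S : Finset (List (Dir d))) (hS : S ⊆ wds d k) (hSx : ∀ g ∈ S, x ≤ sumX a l g) :
    ∑ g ∈ S, w (l ++ g) ≤ 2 * w l * Real.exp (-(θ * x)) := by
  have h1 := expo_le hw hw0 ha0 hθ hG hP k l
  have h2 : expo w a θ k l ≤ 2 * w l := by
    have := mul_le_mul_of_nonneg_left (hP k l) (by linarith only [hθ] : (0 : ℝ) ≤ 2 * θ)
    have h2 : 2 * θ * (G * w l) = (2 * (θ * G)) * w l := by ring
    rw [h2] at this
    have h3 : (2 * (θ * G)) * w l ≤ 1 * w l :=
      mul_le_mul_of_nonneg_right (by linarith only [hG]) (hw0 l)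
    linarith only [h1, this, h3]
  have h3 : (∑ g ∈ S, w (l ++ g)) * Real.exp (θ * x) ≤ 2 * w l := by
    refine le_trans ?_ h2
    rw [Finset.sum_mul, expo]
    calc _ ≤ ∑ g ∈ S, w (l ++ g) * Real.exp (θ * sumX a l g) := by
          refine Finset.sum_le_sum fun g hg => mul_le_mul_of_nonneg_left ?_ (hw0 _)
          exact Real.exp_le_exp.2 (mul_le_mul_of_nonneg_left (hSx g hg) hθ)
      _ ≤ _ := Finset.sum_le_sum_of_subset_of_nonneg hS
          fun g _ _ => mul_nonneg (hw0 _) (Real.exp_pos _).le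
  calc _ = (∑ g ∈ S, w (l ++ g)) * Real.exp (θ * x) * Real.exp (-(θ * x)) := by
        rw [mul_assoc, ← Real.exp_add, add_neg_cancel, Real.exp_zero, mul_one]
    _ ≤ _ := mul_le_mul_of_nonneg_right h3 (Real.exp_pos _).le

end tree

end Vale.Agent.P147.Z
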